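import Vale.Agent.P371.Lift.Trial
import Vale.Agent.LT.Bound

/-!
# P371: real trial data from the eigenfunctions of a complex matrix potential
-/

namespace Vale.Agent.P371.Lift

open Matrix MeasureTheory Set Filter
open scoped ComplexOrder Topology ComplexConjugate
open Vale.Agent.P371 (MemH1)

variable {N m : ℕ}

/-- The two halves of `Fin (2 * N)` are interleaved. -/
def slot (N : ℕ) (i : Fin (2 * N)) : Fin N := ⟨(i : ℕ) / 2, by omega⟩

/-- The phase of a slot. -/
noncomputable def phase (i : Fin (2 * N)) : ℂ := if (i : ℕ) % 2 = 0 then 1 else Complex.I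

theorem slot_mono (N : ℕ) : Monotone (slot N) := fun i j h => by
  show (i : ℕ) / 2 ≤ (j : ℕ) / 2
  exact Nat.div_le_div_right (Fin.le_def.1 h)

theorem phase_eq (j k : Fin (2 * N)) (h : slot N j = slot N k) :
    (conj (phase j) * phase k).re = if j = k then 1 else 0 := by
  have hd : (j : ℕ) / 2 = (k : ℕ) / 2 := congrArg Fin.val h
  by_cases hjk : j = k
  · subst hjk
    simp only [phase, if_true]
    split_ifs <;> simp
  · have hne : (j : ℕ) ≠ k := fun e => hjk (Fin.ext e)
    simp only [phase, if_neg hjk]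
    rcases Nat.mod_two_eq_zero_or_one (j : ℕ) with h1 | h1 <;>
      rcases Nat.mod_two_eq_zero_or_one (k : ℕ) with h2 | h2 <;> simp [h1, h2] <;> omega

theorem sum_slot (f : Fin N → ℝ) : ∑ i : Fin (2 * N), f (slot N i) = 2 * ∑ p, f p := by
  rw [← Equiv.sum_comp ((finProdFinEquiv : Fin N × Fin 2 ≃ Fin (N * 2)).trans
    (finCongr (mul_comm N 2))), Fintype.sum_prod_type, Finset.mul_sum]
  refine Finset.sum_congr rfl fun p _ => ?_
  have e : ∀ r : Fin 2, slot N ((((finProdFinEquiv : Fin N × Fin 2 ≃ Fin (N * 2)).trans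
      (finCongr (mul_comm N 2)))) (p, r)) = p := fun r => by
    apply Fin.ext
    have : (r : ℕ) < 2 := r.isLt
    simp [slot, finProdFinEquiv]
    omega
  simp only [Fin.sum_univ_two, e, two_mul]

/-- The form of a scaled pair. -/
theorem re_star_dot_smul (a b : ℂ) (X Y : Fin m → ℂ) :
    (star (fun c => a * X c) ⬝ᵥ fun c => b * Y c).re =
      (conj a * b * ∑ c, conj (X c) * Y c).re := by
  simp only [dotProduct, Pi.star_apply, Finset.mul_sum]
  congr 1
  refine Finset.sum_congr rfl fun c _ => ?_
  simp only [Complex.star_def, map_mul]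
  ring

theorem exists_trial {N m : ℕ} (γ δ : ℝ) (W : ℝ → Matrix (Fin m) (Fin m) ℂ)
    (μ : Fin N → ℝ) (ψ : Fin N → Fin m → ℝ → ℂ) (hγ : 1 / 2 < γ) (_hγ' : γ < 3 / 2) (hδ : 0 < δ)
    (hW : LT.IsPotentialPow (γ + 1 / 2) W)
    (heig : ∀ i, μ i < 0 ∧ LT.IsEigenfunction W (μ i) (ψ i)) (ho : LT.IsOrthonormal ψ) :
    ∃ (κ : Fin (2 * N) → ℝ) (a b c : ℝ) (W' : ℝ → RMat (2 * m))
      (Ψ dΨ : ℝ → Matrix (Fin (2 * N)) (Fin (2 * m)) ℝ),
      (0 < N → IsTrial κ a b c W' Ψ dΨ) ∧
      (∫ x in a..b, trP (γ + 1 / 2) (W' x)) ≤ 2 * (∫ x, LT.trPow (γ + 1 / 2) (W x)) + δ ∧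
      2 * (∑ i, |μ i| ^ γ) - δ ≤ ∑ i, κ i ^ (2 * γ) := by
  have hp : 1 < γ + 1 / 2 := by linarith
  choose dψ hψ heq using fun i => (heig i).2
  set σ := Tuple.sort μ
  set s : Fin (2 * N) → Fin N := fun j => σ (slot N j) with hs
  have hμs : Monotone fun j => μ (s j) := (Tuple.monotone_sort μ).comp (slot_mono N)
  -- lowered energies
  have hlim : Tendsto (fun d : ℝ => ∑ j, (-μ (s j) - d) ^ γ) (𝓝 0)
      (𝓝 (∑ j, (-μ (s j)) ^ γ)) := by
    have hc : ContinuousAt (fun d : ℝ => ∑ j, (-μ (s j) - d) ^ γ) 0 :=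
      Continuous.continuousAt (continuous_finsetSum _ fun j _ =>
        Continuous.rpow_const (by fun_prop) fun _ => Or.inr (by linarith))
    simpa [ContinuousAt] using hc
  have hsum : ∑ j, (-μ (s j)) ^ γ = 2 * ∑ i, |μ i| ^ γ := by
    rw [hs, sum_slot (fun p => (-μ (σ p)) ^ γ), Equiv.sum_comp σ (fun p => (-μ p) ^ γ)]
    congr 1
    exact Finset.sum_congr rfl fun i _ => by rw [abs_of_neg (heig i).1]
  have hev : ∀ᶠ d in 𝓝[>] (0 : ℝ), (∀ j, d < -μ (s j)) ∧
      2 * (∑ i, |μ i| ^ γ) - δ ≤ ∑ j, (-μ (s j) - d) ^ γ := by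
    have A1 : ∀ᶠ d in 𝓝 (0 : ℝ), ∀ j, d < -μ (s j) := eventually_all.2 fun j =>
      eventually_lt_nhds (by linarith [(heig (s j)).1] : (0 : ℝ) < -μ (s j))
    exact (A1.and (hlim.eventually_const_le (by rw [hsum]; linarith))).filter_mono
      nhdsWithin_le_nhds
  obtain ⟨d, ⟨hdlt, hdsum⟩, hd0 : 0 < d⟩ := (hev.and self_mem_nhdsWithin).exists
  set κ : Fin (2 * N) → ℝ := fun j => √(-μ (s j) - d) with hκdef
  set K : Fin (2 * N) → ℝ := fun j => √(-μ (s j)) with hKdef
  have hκsum : ∑ j, (-μ (s j) - d) ^ γ = ∑ j, κ j ^ (2 * γ) := Finset.sum_congr rfl fun j _ => by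
    rw [hκdef, show (2 : ℝ) * γ = ((2 : ℕ) : ℝ) * γ by norm_num,
      Real.rpow_natCast_mul (Real.sqrt_nonneg _), Real.sq_sqrt (by linarith [hdlt j])]
  have hK : Antitone K := fun i j hij => Real.sqrt_le_sqrt (by linarith [hμs hij])
  have hκK : ∀ j, 0 < κ j ∧ κ j < K j := fun j =>
    ⟨Real.sqrt_pos.2 (by linarith [hdlt j]), Real.sqrt_lt_sqrt (by linarith [hdlt j]) (by linarith)⟩
  -- real data
  set φ : Fin (2 * N) → Fin m → ℝ → ℂ := fun j c x => phase j * ψ (s j) c x with hφdef
  set dφ : Fin (2 * N) → Fin m → ℝ → ℂ := fun j c x => phase j * dψ (s j) c x with hdφdef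
  have hφ : ∀ j c, MemH1 (φ j c) (dφ j c) := fun j c =>
    ⟨(hψ (s j) c).1.const_mul _, (hψ (s j) c).2.1.const_mul _, fun a b => by
      simp only [hφdef, hdφdef, intervalIntegral.integral_const_mul, (hψ (s j) c).2.2 a b, mul_sub]⟩
  set u : Fin (2 * N) → Fin (2 * m) → ℝ → ℝ :=
    fun j c x => realV (fun e => φ j e x) c with hu
  set du : Fin (2 * N) → Fin (2 * m) → ℝ → ℝ :=
    fun j c x => realV (fun e => dφ j e x) c with hdu
  have hsq : ∀ (f : ℝ → ℂ), AEStronglyMeasurable f volume → Integrable (fun x => ‖f x‖ ^ 2) →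
      Integrable (fun x => (f x).re ^ 2) ∧ Integrable (fun x => (f x).im ^ 2) := fun f hf hf2 => by
    refine ⟨hf2.mono' ((Complex.continuous_re.comp_aestronglyMeasurable hf).pow 2)
        (Eventually.of_forall fun x => ?_),
      hf2.mono' ((Complex.continuous_im.comp_aestronglyMeasurable hf).pow 2)
        (Eventually.of_forall fun x => ?_)⟩ <;>
      rw [Real.norm_of_nonneg (sq_nonneg _), sq_le_sq, abs_of_nonneg (norm_nonneg _)]
    · exact Complex.abs_re_le_norm _
    · exact Complex.abs_im_le_norm _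
  have hprop : ∀ j c, Continuous (u j c) ∧ (∃ B, ∀ x, |u j c x| ≤ B) ∧
      (Integrable fun x => u j c x ^ 2) ∧ (∀ a b, IntervalIntegrable (du j c) volume a b) ∧
      AEStronglyMeasurable (du j c) volume ∧ (Integrable fun x => du j c x ^ 2) ∧
      ∀ a b, ∫ t in a..b, du j c t = u j c b - u j c a := by
    intro j c
    simp only [hu, hdu, realV, Function.comp_apply]
    rcases halves m c with e | e <;> simp only [Sum.elim_inl, Sum.elim_inr]
    · have h := hφ j e
      obtain ⟨B, hB⟩ := h.exists_bound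
      refine ⟨Complex.continuous_re.comp h.continuous,
        ⟨B, fun x => (Complex.abs_re_le_norm _).trans (hB x)⟩,
        (hsq _ h.continuous.aestronglyMeasurable h.integrable_normSq).1, fun a b => ?_,
        Complex.continuous_re.comp_aestronglyMeasurable h.2.1.1,
        (hsq _ h.2.1.1 h.integrable_deriv_normSq).1, fun a b => ?_⟩
      · exact ⟨(h.intervalIntegrable a b).1.re, (h.intervalIntegrable a b).2.re⟩
      · have := Complex.reCLM.intervalIntegral_comp_comm (h.intervalIntegrable a b)
        simpa [h.2.2 a b] using this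
    · have h := hφ j e
      obtain ⟨B, hB⟩ := h.exists_bound
      refine ⟨Complex.continuous_im.comp h.continuous,
        ⟨B, fun x => (Complex.abs_im_le_norm _).trans (hB x)⟩,
        (hsq _ h.continuous.aestronglyMeasurable h.integrable_normSq).2, fun a b => ?_,
        Complex.continuous_im.comp_aestronglyMeasurable h.2.1.1,
        (hsq _ h.2.1.1 h.integrable_deriv_normSq).2, fun a b => ?_⟩
      · exact ⟨(h.intervalIntegrable a b).1.im, (h.intervalIntegrable a b).2.im⟩
      · have := Complex.imCLM.intervalIntegral_comp_comm (h.intervalIntegrable a b)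
        simpa [h.2.2 a b] using this
  -- inner products of the real data
  have hip : ∀ (f g : Fin N → Fin m → ℝ → ℂ), (∀ i e, AEStronglyMeasurable (f i e) volume) →
      (∀ i e, AEStronglyMeasurable (g i e) volume) →
      (∀ i e, Integrable fun x => ‖f i e x‖ ^ 2) → (∀ i e, Integrable fun x => ‖g i e x‖ ^ 2) →
      ∀ j k : Fin (2 * N),
        Integrable (fun x => ∑ e, conj (f (s j) e x) * g (s k) e x) ∧
        ∑ c, ∫ x, realV (fun e => phase j * f (s j) e x) c *
            realV (fun e => phase k * g (s k) e x) c =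
          (conj (phase j) * phase k * ∫ x, ∑ e, conj (f (s j) e x) * g (s k) e x).re := by
    intro f g hf hg hf2 hg2 j k
    have hi : Integrable fun x => ∑ e, conj (f (s j) e x) * g (s k) e x :=
      integrable_finsetSum _ fun e _ => ((hf2 (s j) e).add (hg2 (s k) e)).mono'
        ((Complex.continuous_conj.comp_aestronglyMeasurable (hf (s j) e)).mul (hg (s k) e))
        (Eventually.of_forall fun x => by
          rw [norm_mul, RCLike.norm_conj, Pi.add_apply]
          nlinarith [sq_nonneg (‖f (s j) e x‖ - ‖g (s k) e x‖), norm_nonneg (f (s j) e x),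
            norm_nonneg (g (s k) e x)])
    refine ⟨hi, ?_⟩
    have hci : ∀ c, Integrable fun x => realV (fun e => phase j * f (s j) e x) c *
        realV (fun e => phase k * g (s k) e x) c := by
      intro c
      have n2 : ∀ (z : ℂ) (F : ℝ → ℂ), Integrable (fun x => ‖F x‖ ^ 2) →
          Integrable fun x => ‖z * F x‖ ^ 2 := fun z F hF => by
        simpa [mul_pow] using hF.const_mul (‖z‖ ^ 2)
      simp only [realV, Function.comp_apply]
      rcases halves m c with e | e <;> simp only [Sum.elim_inl, Sum.elim_inr]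
      · exact integrable_mul_of_sq
          (Complex.continuous_re.comp_aestronglyMeasurable ((hf (s j) e).const_mul _))
          (Complex.continuous_re.comp_aestronglyMeasurable ((hg (s k) e).const_mul _))
          (hsq _ ((hf (s j) e).const_mul _) (n2 _ _ (hf2 (s j) e))).1
          (hsq _ ((hg (s k) e).const_mul _) (n2 _ _ (hg2 (s k) e))).1
      · exact integrable_mul_of_sq
          (Complex.continuous_im.comp_aestronglyMeasurable ((hf (s j) e).const_mul _))
          (Complex.continuous_im.comp_aestronglyMeasurable ((hg (s k) e).const_mul _))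
          (hsq _ ((hf (s j) e).const_mul _) (n2 _ _ (hf2 (s j) e))).2
          (hsq _ ((hg (s k) e).const_mul _) (n2 _ _ (hg2 (s k) e))).2
    rw [← integral_finsetSum _ fun c _ => hci c, ← integral_const_mul]
    have hre := integral_re (hi.const_mul (conj (phase j) * phase k))
    simp only [RCLike.re_to_complex] at hre
    rw [← hre]
    refine integral_congr_ae (Eventually.of_forall fun x => ?_)
    beta_reduce
    rw [← re_star_dot_smul, ← realV_dot]
    rfl
  have horth : ∀ j k, ∑ c, ∫ x, u j c x * u k c x = if j = k then 1 else 0 := by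
    intro j k
    rw [(hip ψ ψ (fun i e => (hψ i e).continuous.aestronglyMeasurable)
      (fun i e => (hψ i e).continuous.aestronglyMeasurable) (fun i e => (hψ i e).integrable_normSq)
      (fun i e => (hψ i e).integrable_normSq) j k).2, ho (s j) (s k)]
    by_cases h : s j = s k
    · rw [if_pos h, mul_one, phase_eq j k (σ.injective h)]
    · rw [if_neg h, mul_zero, Complex.zero_re, if_neg fun e => h (by rw [e])]
  have heigen : ∀ j k, (∑ c, ∫ x, du j c x * du k c x) -
      ∫ x, ∑ c, ∑ d, u j c x * realM (W x) c d * u k d x = if j = k then -K j ^ 2 else 0 := by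
    intro j k
    have h1 := (hip dψ dψ (fun i e => (hψ i e).2.1.1) (fun i e => (hψ i e).2.1.1)
      (fun i e => (hψ i e).integrable_deriv_normSq) (fun i e => (hψ i e).integrable_deriv_normSq)
      j k).2
    have hform := LT.integrable_form hp.le hW (hψ (s j)) (hψ (s k))
    have h2 : ∫ x, ∑ c, ∑ d, u j c x * realM (W x) c d * u k d x =
        (conj (phase j) * phase k *
          ∫ x, star (fun e => ψ (s j) e x) ⬝ᵥ W x *ᵥ fun e => ψ (s k) e x).re := by
      rw [← integral_const_mul]
      have hre := integral_re (hform.const_mul (conj (phase j) * phase k))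
      simp only [RCLike.re_to_complex] at hre
      rw [← hre]
      refine integral_congr_ae (Eventually.of_forall fun x => ?_)
      have e1 : (∑ c, ∑ d, u j c x * realM (W x) c d * u k d x) =
          realV (fun e => φ j e x) ⬝ᵥ realM (W x) *ᵥ realV fun e => φ k e x := by
        simp only [hu, dotProduct, mulVec, Finset.mul_sum, mul_assoc]
      beta_reduce
      rw [e1, realV_form]
      congr 1
      simp only [hφdef, Vale.Agent.LT.form_eq, Finset.mul_sum, map_mul]
      exact Finset.sum_congr rfl fun a _ => Finset.sum_congr rfl fun b _ => by ring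
    have h3 := heq (s k) (ψ (s j)) (dψ (s j)) (hψ (s j))
    rw [ho (s j) (s k)] at h3
    show (∑ c, ∫ x, realV (fun e => phase j * dψ (s j) e x) c *
      realV (fun e => phase k * dψ (s k) e x) c) - _ = _
    rw [h1, h2, ← Complex.sub_re, ← mul_sub, h3]
    by_cases h : s j = s k
    · rw [if_pos h, mul_one, Complex.mul_re, Complex.ofReal_re, Complex.ofReal_im, mul_zero,
        sub_zero, phase_eq j k (σ.injective h)]
      by_cases hjk : j = k
      · subst hjk
        rw [if_pos rfl, if_pos rfl, one_mul, hKdef, Real.sq_sqrt (by linarith [(heig (s j)).1]),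
          neg_neg]
      · simp [hjk]
    · rw [if_neg h, mul_zero, mul_zero, Complex.zero_re, if_neg fun e => h (by rw [e])]
  have hmeas : ∀ c d, Measurable fun x => realM (W x) c d := by
    intro c d
    simp only [realM, submatrix_apply]
    rcases halves m c with a | a <;> rcases halves m d with b | b <;>
      simp only [fromBlocks_apply₁₁, fromBlocks_apply₁₂, fromBlocks_apply₂₁, fromBlocks_apply₂₂,
        Matrix.neg_apply, map_apply]
    · exact Complex.measurable_re.comp (hW.1 a b)
    · exact (Complex.measurable_im.comp (hW.1 a b)).neg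
    · exact Complex.measurable_im.comp (hW.1 a b)
    · exact Complex.measurable_re.comp (hW.1 a b)
  have hdata : RealData K (fun x => realM (W x)) (fun x => LT.trPow (γ + 1 / 2) (W x)) m u du :=
    { meas := hmeas
      psd := fun x => realM_posSemidef (hW.2.1 x)
      wint := hW.2.2
      Mnn := Nat.cast_nonneg m
      wle := fun x c d =>
        abs_realM_apply_le (fun a b => Vale.Agent.LT.norm_entry_le (hW.2.1 x) hp.le a b) c d
      cont := fun j c => (hprop j c).1
      bdd := fun j c => (hprop j c).2.1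
      sq := fun j c => (hprop j c).2.2.1
      dloc := fun j c => (hprop j c).2.2.2.1
      dmeas := fun j c => (hprop j c).2.2.2.2.1
      dsq := fun j c => (hprop j c).2.2.2.2.2.1
      ftc := fun j c => (hprop j c).2.2.2.2.2.2
      orth := horth
      eigen := heigen }
  obtain ⟨h, a, b, c, Ψ, dΨ, hh, hT⟩ := exists_isTrial hdata hK hκK
  refine ⟨κ, a, b, c, avgM h fun x => realM (W x), Ψ, dΨ, fun _ => hT, ?_,
    hκsum ▸ hdsum⟩
  have htp : (fun x => trP (γ + 1 / 2) (realM (W x))) =
      fun x => 2 * LT.trPow (γ + 1 / 2) (W x) := funext fun x => trP_realM (hW.2.1 x) _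
  have hi : Integrable fun x => trP (γ + 1 / 2) (realM (W x)) := by
    rw [htp]; exact hW.2.2.const_mul 2
  have hloc := hdata.loc
  have hpsd := fun x => realM_posSemidef (hW.2.1 x)
  have hnn : ∀ x, 0 ≤ trP (γ + 1 / 2) (avgM h (fun x => realM (W x)) x) := fun x =>
    Vale.Agent.LT.trPow_nonneg (toC_posSemidef (avgM_posSemidef hh.le hloc hpsd x)) _
  have hav := integrable_avg hh.le hi
  have hle := fun x => trP_avgM_le hp hh hloc hpsd hi x
  have h2 : 2 * ∫ x, LT.trPow (γ + 1 / 2) (W x) = ∫ x, avg h (fun t => trP (γ + 1 / 2) (realM (W t))) x := by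
    rw [integral_avg hh hi, htp, integral_const_mul]
  rw [h2]
  have hab : a ≤ b := hT.hab.le
  have h1 : (∫ x in a..b, trP (γ + 1 / 2) (avgM h (fun x => realM (W x)) x)) ≤
      ∫ x, avg h (fun t => trP (γ + 1 / 2) (realM (W t))) x := by
    rw [intervalIntegral.integral_of_le hab]
    refine le_trans (integral_mono_of_nonneg (Eventually.of_forall hnn) hav.integrableOn
      (Eventually.of_forall hle)) ?_
    exact setIntegral_le_integral hav (Eventually.of_forall fun x => (hnn x).trans (hle x))
  linarith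

end Vale.Agent.P371.Lift
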