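import Mathlib

/-!
# P371: moving averages on the line
-/

namespace Vale.Agent.P371.Lift

open MeasureTheory Set Filter
open scoped Topology

/-- The average over `[x - h, x + h]`. -/
noncomputable def avg (h : ℝ) (f : ℝ → ℝ) (x : ℝ) : ℝ :=
  (2 * h)⁻¹ * ∫ t in (x - h)..(x + h), f t

variable {f g : ℝ → ℝ} {h : ℝ}

theorem continuous_avg (hf : ∀ a b, IntervalIntegrable f volume a b) : Continuous (avg h f) := by
  have e : avg h f = fun x =>
      (2 * h)⁻¹ * ((∫ t in (0:ℝ)..(x + h), f t) - ∫ t in (0:ℝ)..(x - h), f t) := by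
    funext x
    rw [avg, intervalIntegral.integral_interval_sub_left (hf _ _) (hf _ _)]
  have hc := intervalIntegral.continuous_primitive hf 0
  rw [e]
  exact continuous_const.mul
    ((hc.comp (continuous_add_const h)).sub (hc.comp (continuous_sub_right h)))

theorem hasDerivAt_avg {df : ℝ → ℝ} (hf : Continuous f)
    (hftc : ∀ a b, ∫ t in a..b, df t = f b - f a) (x : ℝ) :
    HasDerivAt (avg h f) (avg h df x) x := by
  have e : avg h f = fun y =>
      (2 * h)⁻¹ * ((∫ t in (0:ℝ)..(y + h), f t) - ∫ t in (0:ℝ)..(y - h), f t) := by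
    funext y
    rw [avg, intervalIntegral.integral_interval_sub_left (hf.intervalIntegrable _ _)
      (hf.intervalIntegrable _ _)]
  have h1 : HasDerivAt (fun y => ∫ t in (0:ℝ)..(y + h), f t) (f (x + h)) x :=
    (hf.integral_hasStrictDerivAt 0 (x + h)).hasDerivAt.comp_add_const x h
  have h2 : HasDerivAt (fun y => ∫ t in (0:ℝ)..(y - h), f t) (f (x - h)) x :=
    (hf.integral_hasStrictDerivAt 0 (x - h)).hasDerivAt.comp_sub_const x h
  rw [e, avg, hftc]
  exact (h1.sub h2).const_mul _

theorem abs_avg_sub_le (hh : 0 < h) {c ε x : ℝ} (hf : IntervalIntegrable f volume (x - h) (x + h))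
    (hle : ∀ t ∈ Icc (x - h) (x + h), |f t - c| ≤ ε) : |avg h f x - c| ≤ ε := by
  have e : avg h f x - c = (2 * h)⁻¹ * ∫ t in (x - h)..(x + h), (f t - c) := by
    rw [intervalIntegral.integral_sub hf intervalIntegrable_const, intervalIntegral.integral_const,
      avg, mul_sub, smul_eq_mul]
    field_simp
    ring
  have b := intervalIntegral.norm_integral_le_of_norm_le_const (f := fun t => f t - c)
    (a := x - h) (b := x + h) (C := ε) fun t ht => by
      rw [uIoc_of_le (by linarith)] at ht
      exact hle t ⟨ht.1.le, ht.2⟩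
  rw [Real.norm_eq_abs, show x + h - (x - h) = 2 * h by ring, abs_of_pos (show 0 < 2 * h by linarith)]
    at b
  rw [e, abs_mul, abs_of_pos (inv_pos.2 (show 0 < 2 * h by linarith))]
  calc (2 * h)⁻¹ * |∫ t in (x - h)..(x + h), (f t - c)| ≤ (2 * h)⁻¹ * (ε * (2 * h)) :=
        mul_le_mul_of_nonneg_left b (inv_nonneg.2 (by linarith))
    _ = ε := by field_simp

theorem abs_avg_le (hh : 0 < h) {M x : ℝ} (hf : IntervalIntegrable f volume (x - h) (x + h))
    (hle : ∀ t ∈ Icc (x - h) (x + h), |f t| ≤ M) : |avg h f x| ≤ M := by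
  simpa using abs_avg_sub_le (c := 0) hh hf fun t ht => by simpa using hle t ht

theorem avg_sum {ι : Type*} (s : Finset ι) (F : ι → ℝ → ℝ) {x : ℝ}
    (hF : ∀ i ∈ s, IntervalIntegrable (F i) volume (x - h) (x + h)) (c : ι → ℝ) :
    avg h (fun t => ∑ i ∈ s, c i * F i t) x = ∑ i ∈ s, c i * avg h (F i) x := by
  simp only [avg]
  rw [intervalIntegral.integral_finsetSum fun i hi => (hF i hi).const_mul (c i), Finset.mul_sum]
  refine Finset.sum_congr rfl fun i _ => ?_
  rw [intervalIntegral.integral_const_mul]
  ring

theorem avg_nonneg (hh : 0 ≤ h) {x : ℝ} (hf : ∀ t, 0 ≤ f t) : 0 ≤ avg h f x :=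
  mul_nonneg (inv_nonneg.2 (by linarith))
    (intervalIntegral.integral_nonneg (by linarith) fun t _ => hf t)

theorem sq_avg_le (hh : 0 < h) {x : ℝ} (hf : IntervalIntegrable f volume (x - h) (x + h))
    (hf2 : IntervalIntegrable (fun t => f t ^ 2) volume (x - h) (x + h)) :
    avg h f x ^ 2 ≤ avg h (fun t => f t ^ 2) x := by
  set c := avg h f x with hc
  have h0 : 0 ≤ ∫ t in (x - h)..(x + h), ((f t ^ 2 - 2 * c * f t) + c ^ 2) :=
    intervalIntegral.integral_nonneg (by linarith) fun t _ => by nlinarith [sq_nonneg (f t - c)]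
  rw [intervalIntegral.integral_add (hf2.sub (hf.const_mul _)) intervalIntegrable_const,
    intervalIntegral.integral_sub hf2 (hf.const_mul _), intervalIntegral.integral_const_mul,
    intervalIntegral.integral_const, smul_eq_mul] at h0
  have e : ∫ t in (x - h)..(x + h), f t = 2 * h * c := by
    rw [hc, avg]
    field_simp
  rw [e] at h0
  rw [avg, inv_mul_eq_div, le_div_iff₀ (by linarith)]
  linarith

theorem avg_eq_shift (hh : 0 ≤ h) (x : ℝ) :
    avg h f x = (2 * h)⁻¹ * ∫ s in Ioc (-h) h, f (x + s) := by
  rw [avg, ← intervalIntegral.integral_of_le (by linarith : -h ≤ h),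
    intervalIntegral.integral_comp_add_left (fun t => f t) x, ← sub_eq_add_neg]

theorem integrable_shift_mul (hf : Integrable f) (hg : Measurable g) {M : ℝ}
    (hM : ∀ t, |g t| ≤ M) (h : ℝ) :
    Integrable (fun p : ℝ × ℝ => f (p.1 + p.2) * g p.1)
      (volume.prod (volume.restrict (Ioc (-h) h))) := by
  have hmeas : AEStronglyMeasurable (fun p : ℝ × ℝ => f (p.1 + p.2))
      (volume.prod (volume.restrict (Ioc (-h) h))) := by
    refine hf.1.comp_quasiMeasurePreserving ?_
    have := quasiMeasurePreserving_add_swap (μ := (volume : Measure ℝ))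
      (ν := volume.restrict (Ioc (-h) h))
    simpa [add_comm] using this
  have hint : Integrable (fun p : ℝ × ℝ => f (p.1 + p.2))
      (volume.prod (volume.restrict (Ioc (-h) h))) := by
    rw [integrable_prod_iff' hmeas]
    refine ⟨Eventually.of_forall fun s => hf.comp_add_right s, ?_⟩
    have : (fun s : ℝ => ∫ y, ‖f (y + s)‖) = fun _ => ∫ y, ‖f y‖ :=
      funext fun s => integral_add_right_eq_self (fun y => ‖f y‖) s
    rw [this]
    exact integrable_const _
  exact hint.mul_bdd (hg.comp measurable_fst).aestronglyMeasurable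
    (Eventually.of_forall fun p => by simpa using hM p.1)

theorem integrable_avg (hh : 0 ≤ h) (hf : Integrable f) : Integrable (avg h f) := by
  have := (integrable_shift_mul hf (g := fun _ => 1) measurable_const (M := 1) (by simp) h)
    |>.integral_prod_left.const_mul (2 * h)⁻¹
  rw [funext (avg_eq_shift (f := f) hh)]
  simpa using this

theorem integral_avg (hh : 0 < h) (hf : Integrable f) : ∫ x, avg h f x = ∫ x, f x := by
  have hi := integrable_shift_mul hf (g := fun _ => 1) measurable_const (M := 1) (by simp) h
  simp only [mul_one] at hi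
  simp only [avg_eq_shift hh.le, integral_const_mul]
  rw [integral_integral_swap hi]
  simp only [integral_add_right_eq_self, setIntegral_const, Real.volume_real_Ioc_of_le
    (show -h ≤ h by linarith), smul_eq_mul]
  field_simp
  ring

theorem integral_sq_avg_le (hh : 0 < h) (hf : ∀ a b, IntervalIntegrable f volume a b)
    (hf2 : Integrable fun t => f t ^ 2) :
    Integrable (fun x => avg h f x ^ 2) ∧ ∫ x, avg h f x ^ 2 ≤ ∫ x, f x ^ 2 := by
  have hle : ∀ x, avg h f x ^ 2 ≤ avg h (fun t => f t ^ 2) x := fun x =>
    sq_avg_le hh (hf _ _) hf2.intervalIntegrable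
  have hi : Integrable (fun x => avg h f x ^ 2) :=
    (integrable_avg hh.le hf2).mono' ((continuous_avg hf).pow 2).aestronglyMeasurable
      (Eventually.of_forall fun x => by
        rw [Real.norm_of_nonneg (sq_nonneg _)]
        exact hle x)
  refine ⟨hi, ?_⟩
  rw [← integral_avg hh hf2]
  exact integral_mono hi (integrable_avg hh.le hf2) hle

/-- The average is symmetric. -/
theorem integral_avg_mul (hh : 0 < h) (hf : ∀ a b, IntervalIntegrable f volume a b)
    (hg : Continuous g) {R : ℝ} (hR : ∀ t, R ≤ |t| → g t = 0) :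
    ∫ x, avg h f x * g x = ∫ x, f x * avg h g x := by
  set S := Ioc (-(|R| + h)) (|R| + h)
  set F := S.indicator f
  have hS : -(|R| + h) ≤ |R| + h := by linarith [abs_nonneg R]
  have hFi : Integrable F :=
    ((hf (-(|R| + h)) (|R| + h)).1).integrable_indicator measurableSet_Ioc
  have hzero : ∀ t, |R| < |t| → g t = 0 := fun t ht => hR t ((le_abs_self R).trans ht.le)
  have eR : ∀ x, f x * avg h g x = F x * avg h g x := by
    intro x
    by_cases hx : x ∈ S
    · simp [F, hx]
    · have : avg h g x = 0 := by
        rw [avg]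
        have : ∫ t in (x - h)..(x + h), g t = 0 := by
          rw [intervalIntegral.integral_congr (g := fun _ => (0:ℝ))]
          · simp
          · intro t ht
            rw [uIcc_of_le (by linarith)] at ht
            refine hR t ((le_abs_self R).trans ?_)
            simp only [S, mem_Ioc, not_and_or, not_lt, not_le] at hx
            rcases hx with hx | hx
            · exact le_trans (by linarith [ht.2]) (neg_le_abs t)
            · exact le_trans (by linarith [ht.1]) (le_abs_self t)
        simp [this]
      simp [this]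
  have eL : ∀ x, avg h f x * g x = avg h F x * g x := by
    intro x
    by_cases hx : |R| < |x|
    · simp [hzero x hx]
    · rw [avg, avg]
      congr 2
      refine intervalIntegral.integral_congr_ae (Eventually.of_forall fun t ht => ?_)
      rw [uIoc_of_le (by linarith)] at ht
      have := abs_le.1 (not_lt.1 hx)
      simp [F, indicator_of_mem (show t ∈ S from ⟨by linarith [ht.1], by linarith [ht.2]⟩)]
  obtain ⟨M, hM⟩ := (isCompact_Icc (a := -|R|) (b := |R|)).exists_bound_of_continuousOn
    hg.continuousOn
  have hMb : ∀ t, |g t| ≤ max M 0 := by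
    intro t
    by_cases ht : |R| < |t|
    · simp [hzero t ht]
    · exact le_trans (by simpa using hM t (abs_le.1 (not_lt.1 ht))) (le_max_left _ _)
  have hi := integrable_shift_mul hFi hg.measurable hMb h
  simp only [eL, eR]
  simp only [avg_eq_shift hh.le, mul_assoc, integral_const_mul, mul_left_comm (F _)]
  congr 1
  simp only [← integral_mul_const, ← integral_const_mul]
  rw [integral_integral_swap hi]
  have inner : ∀ s : ℝ, ∫ x, F (x + s) * g x = ∫ z, F z * g (z - s) := by
    intro s
    rw [← integral_add_right_eq_self (fun z => F z * g (z - s)) s]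
    simp
  simp only [inner]
  have hi2 : Integrable (Function.uncurry fun (z s : ℝ) => F z * g (z - s))
      (volume.prod (volume.restrict (Ioc (-h) h))) := by
    refine (hFi.comp_fst _).mul_bdd (c := max M 0)
      (hg.comp (continuous_fst.sub continuous_snd)).aestronglyMeasurable
      (Eventually.of_forall fun p => ?_)
    simpa using hMb (p.1 - p.2)
  rw [← integral_integral_swap hi2]
  refine integral_congr_ae (Eventually.of_forall fun z => ?_)
  simp only [integral_const_mul]
  congr 1
  rw [← intervalIntegral.integral_of_le (by linarith : -h ≤ h),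
    ← intervalIntegral.integral_of_le (by linarith : -h ≤ h),
    intervalIntegral.integral_comp_sub_left (fun t => g t) z,
    intervalIntegral.integral_comp_add_left (fun t => g t) z]
  congr 1; ring

end Vale.Agent.P371.Lift
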