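import Vale.Agent.LT.Defs
import Vale.Agent.P371.Calib.Defs

/-!
# P371: definitions for the lifting of a potential to one channel per bound state

`κ` lists the square roots of the absolute eigenvalues, largest first.  A coupling `s` is critical for
the `n`-channel potential `V` on `[a, b]` if the matrix Riccati solution that starts at `diag κ` stays
in `[-diag κ, diag κ]` and meets the singular set at `b`.
-/

namespace Vale.Agent.P371.Lift

open Matrix MeasureTheory Set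

variable {n m : ℕ}

/-- Real square matrices. -/
abbrev RMat (n : ℕ) : Type := Matrix (Fin n) (Fin n) ℝ

/-- The same matrix with complex entries. -/
def toC (A : RMat n) : Calib.CMat n := A.map fun r => (r : ℂ)

/-- `tr A^p`. -/
noncomputable def trP (p : ℝ) (A : RMat n) : ℝ := Vale.Agent.LT.trPow p (toC A)

/-- The diagonal matrix of `κ`. -/
def kd (κ : Fin n → ℝ) : RMat n := diagonal κ

/-- The diagonal matrix of `κ ^ 2`. -/
def ld (κ : Fin n → ℝ) : RMat n := diagonal fun i => κ i ^ 2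

/-- `R' = L - R² - s V` on `[a, b]`, with `R a = diag κ`. -/
def IsRiccati (κ : Fin n → ℝ) (a b s : ℝ) (V R : ℝ → RMat n) : Prop :=
  R a = kd κ ∧ ∀ x ∈ Icc a b, ∀ i j,
    HasDerivWithinAt (fun y => R y i j) ((ld κ - R x * R x - s • V x) i j) (Icc a b) x

/-- The coupling `s` is critical and `R` is its Riccati path. -/
def IsCrit (κ : Fin n → ℝ) (a b : ℝ) (V : ℝ → RMat n) (s : ℝ) (R : ℝ → RMat n) : Prop :=
  0 < s ∧ IsRiccati κ a b s V R ∧
    (∀ x ∈ Icc a b, (kd κ - R x).PosSemidef ∧ (kd κ + R x).PosSemidef) ∧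
    (R b + kd κ).det = 0

/-- `V` does not vanish identically on `(a, b)`. -/
def Coupled (a b : ℝ) (V : ℝ → RMat n) : Prop := ∃ x ∈ Ioo a b, V x ≠ 0

/-- `∫_a^b (|g'|² + ⟨g, L g⟩)` for one `n`-channel function. -/
noncomputable def energy (κ : Fin n → ℝ) (a b : ℝ) (g dg : Fin n → ℝ → ℝ) : ℝ :=
  ∫ x in a..b, ∑ i, (dg i x ^ 2 + κ i ^ 2 * g i x ^ 2)

/-- Lower triangular arrays of Euclidean norm one. -/
def Dom (n : ℕ) : Set (Fin n → Fin n → ℝ) :=
  {A | (∀ i j, i < j → A i j = 0) ∧ ∑ i, ∑ j, A i j ^ 2 = 1}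

/-- `-1` at `i` and `1` elsewhere. -/
def sgnAt (i j : Fin n) : ℝ := if j = i then -1 else 1

/-- Negate the row `i`. -/
def flipRow (i : Fin n) (A : Fin n → Fin n → ℝ) : Fin n → Fin n → ℝ :=
  fun j k => sgnAt i j * A j k

/-- Conjugation by the diagonal matrix with `-1` at `i`. -/
def flipConj (i : Fin n) (M : RMat n) : RMat n :=
  Matrix.of fun j k => sgnAt i j * sgnAt i k * M j k

/-- The `n × m` matrix `A Ψ(x)`. -/
def mix (A : Fin n → Fin n → ℝ) (Ψ : ℝ → Matrix (Fin n) (Fin m) ℝ) (x : ℝ) :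
    Matrix (Fin n) (Fin m) ℝ := Matrix.of A * Ψ x

/-- The regularised polar part `X (XᵀX + ε)^(-1/2)`. -/
noncomputable def polarEps (ε : ℝ) (X : Matrix (Fin n) (Fin m) ℝ) : Matrix (Fin n) (Fin m) ℝ :=
  X * cfc (fun t : ℝ => (Real.sqrt (t + ε))⁻¹) (Xᵀ * X)

/-- The lifted potential. -/
noncomputable def liftV (ε : ℝ) (W : ℝ → RMat m) (Ψ : ℝ → Matrix (Fin n) (Fin m) ℝ)
    (A : Fin n → Fin n → ℝ) (x : ℝ) : RMat n :=
  polarEps ε (mix A Ψ x) * W x * (polarEps ε (mix A Ψ x))ᵀ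

/-- `∫_a^b tr (Xᵀ W X)` with `X = (A Ψ)ᵀ`. -/
noncomputable def gain (a b : ℝ) (W : ℝ → RMat m) (Ψ : ℝ → Matrix (Fin n) (Fin m) ℝ)
    (A : Fin n → Fin n → ℝ) : ℝ :=
  ∫ x in a..b, (mix A Ψ x * W x * (mix A Ψ x)ᵀ).trace

/-- The energy of the columns of `A Ψ`. -/
noncomputable def cost (κ : Fin n → ℝ) (a b : ℝ) (Ψ dΨ : ℝ → Matrix (Fin n) (Fin m) ℝ)
    (A : Fin n → Fin n → ℝ) : ℝ :=
  ∑ c, energy κ a b (fun i x => mix A Ψ x i c) fun i x => mix A dΨ x i c

/-- Trial functions for a real potential: they are `C¹`, vanish at both ends, and every triangular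
combination costs less than it gains. -/
structure IsTrial (κ : Fin n → ℝ) (a b c : ℝ) (W : ℝ → RMat m)
    (Ψ dΨ : ℝ → Matrix (Fin n) (Fin m) ℝ) : Prop where
  kpos : ∀ i, 0 < κ i
  hab : a < b
  cpos : 0 < c
  hW : Continuous W
  psd : ∀ x, (W x).PosSemidef
  hderiv : ∀ x i k, HasDerivAt (fun y => Ψ y i k) (dΨ x i k) x
  hdc : Continuous dΨ
  zero_left : Ψ a = 0
  zero_right : Ψ b = 0
  cost_le : ∀ A ∈ Dom n, cost κ a b Ψ dΨ A ≤ gain a b W Ψ A
  gain_ge : ∀ A ∈ Dom n, c ≤ gain a b W Ψ A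

end Vale.Agent.P371.Lift
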