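import Vale.Agent.P371.Calib.Cont
import Vale.Agent.P371.Calib.TBound
import Vale.Agent.LT.Young
import Vale.Agent.P371.Lift.Defs

/-!
# P371: the regularised frame compression of a potential

For a test frame `f` (`n × m`) and `S = fᴴ f`, `v = f (S + ε)^(-1/2)` is a contraction depending
continuously on `f`, and `frameV ε W f = v W vᴴ` is the compressed potential of the lifting lemma.  The second half
transfers this to the real definitions of `Lift/Defs.lean`: continuity, positivity, the trace bound,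
sign equivariance, dead rows, and the coupling bound `s ≤ 1 + θ` from the trial columns.
-/

namespace Vale.Agent.P371.Lift.Frame

open Matrix Finset
open scoped ComplexOrder
open Vale.Agent.P371.Calib
open Vale.Agent.LT (trPow)

variable {n m : ℕ}

/-- `(S + ε)^(-1/2)`. -/
noncomputable def isqM (ε : ℝ) (S : CMat m) : CMat m := cfc (fun s => (√(s + ε))⁻¹) S

/-- The contraction `f (fᴴ f + ε)^(-1/2)`. -/
noncomputable def frameP (ε : ℝ) (f : Matrix (Fin n) (Fin m) ℂ) : Matrix (Fin n) (Fin m) ℂ :=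
  f * isqM ε (fᴴ * f)

/-- The compressed potential. -/
noncomputable def frameV (ε : ℝ) (W : CMat m) (f : Matrix (Fin n) (Fin m) ℂ) : CMat n :=
  frameP ε f * W * (frameP ε f)ᴴ

theorem rpow_sum_le {ι : Type*} [Fintype ι] {c w : ι → ℝ} {p : ℝ} (hp : 1 ≤ p)
    (hc : ∀ i, 0 ≤ c i) (hs : ∑ i, c i ≤ 1) (hw : ∀ i, 0 ≤ w i) :
    (∑ i, c i * w i) ^ p ≤ ∑ i, c i * w i ^ p := by
  have h := Real.rpow_arith_mean_le_arith_mean_rpow (univ : Finset (Option ι))
    (fun o => o.elim (1 - ∑ i, c i) c) (fun o => o.elim 0 w)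
    (fun o _ => by cases o <;> simp [hs, hc]) (by simp [Fintype.sum_option])
    (fun o _ => by cases o <;> simp [hw]) hp
  simpa [Fintype.sum_option, Real.zero_rpow (show p ≠ 0 by linarith)] using h

theorem sum_normSq_mulVec (C : Matrix (Fin n) (Fin m) ℂ) (x : Fin m → ℂ) :
    ∑ i, Complex.normSq ((C *ᵥ x) i) = qf (Cᴴ * C) x := by
  rw [qf, ← Matrix.mulVec_mulVec, Matrix.dotProduct_mulVec, ← star_mulVec]
  simp [dotProduct, Complex.re_sum, Complex.normSq_apply]

theorem sum_normSq_row_le {C : Matrix (Fin n) (Fin m) ℂ}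
    (hC : ∀ x, qf (Cᴴ * C) x ≤ qf 1 x) (k : Fin n) : ∑ l, Complex.normSq (C k l) ≤ 1 := by
  set x : Fin m → ℂ := fun l => star (C k l) with hx
  set r := ∑ l, Complex.normSq (C k l) with hr
  have hr0 : 0 ≤ r := sum_nonneg fun l _ => Complex.normSq_nonneg _
  have e1 : qf 1 x = r := by simp [qf_one, hx, hr]
  have e2 : (C *ᵥ x) k = (r : ℂ) := by
    simp [mulVec, dotProduct, hx, hr, Complex.mul_conj]
  have h1 : Complex.normSq ((C *ᵥ x) k) ≤ ∑ i, Complex.normSq ((C *ᵥ x) i) :=
    single_le_sum (f := fun i => Complex.normSq ((C *ᵥ x) i))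
      (fun i _ => Complex.normSq_nonneg _) (mem_univ k)
  rw [sum_normSq_mulVec, e2, Complex.normSq_ofReal] at h1
  have h2 := (hC x).trans_eq e1
  nlinarith

/-- Compressing by a contraction does not increase `tr W^p`. -/
theorem trPow_compress_le {W : CMat m} (hW : W.PosSemidef) {C : Matrix (Fin n) (Fin m) ℂ}
    (hC : ∀ x, qf (Cᴴ * C) x ≤ qf 1 x) {p : ℝ} (hp : 1 ≤ p) :
    trPow p (C * W * Cᴴ) ≤ trPow p W := by
  obtain ⟨Z, w, hZ⟩ := exists_spec hW.1
  have hw := hZ.posSemidef_iff.1 hW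
  obtain ⟨U, μ, hU⟩ := exists_spec (hW.mul_mul_conjTranspose_same C).1
  set K : Matrix (Fin n) (Fin m) ℂ := Uᴴ * C * Z with hK
  have hKK : Kᴴ * K = Zᴴ * (Cᴴ * C) * Z := by
    simp only [hK, conjTranspose_mul, conjTranspose_conjTranspose, Matrix.mul_assoc]
    rw [← Matrix.mul_assoc U, hU.2.1, Matrix.one_mul]
  have hKq : ∀ x, qf (Kᴴ * K) x ≤ qf 1 x := fun x => by
    have e : ∀ B : CMat m, qf (Zᴴ * B * Z) x = qf B (Z *ᵥ x) := fun B => by
      rw [qf, qf, ← Matrix.mulVec_mulVec, ← Matrix.mulVec_mulVec, Matrix.dotProduct_mulVec,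
        ← star_mulVec]
    have h1 := e 1
    rw [Matrix.mul_one, hZ.1] at h1
    rw [hKK, e, h1]
    exact hC _
  have hrow := sum_normSq_row_le hKq
  have hcol : ∀ l, ∑ k, Complex.normSq (K k l) ≤ 1 := fun l => by
    have h := hKq (Pi.single l 1)
    rw [← sum_normSq_mulVec] at h
    simpa [qf_one, Matrix.mulVec_single, Pi.single_apply, apply_ite Complex.normSq] using h
  have hμ : ∀ k, μ k = ∑ l, Complex.normSq (K k l) * w l := fun k => by
    have e : Uᴴ * (C * W * Cᴴ) * U = K * diagonal (fun l => (w l : ℂ)) * Kᴴ := by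
      simp only [hK, conjTranspose_mul, conjTranspose_conjTranspose]
      conv_lhs => rw [hZ.2.2]
      simp only [Matrix.mul_assoc]
    rw [hU.diag_eq k, e, Matrix.mul_apply, Complex.re_sum]
    refine sum_congr rfl fun l _ => ?_
    simp only [mul_diagonal, conjTranspose_apply, Complex.normSq_apply, RCLike.star_def,
      Complex.mul_re, Complex.mul_im, Complex.conj_re, Complex.conj_im, Complex.ofReal_re,
      Complex.ofReal_im]
    ring
  rw [show trPow p (C * W * Cᴴ) = ∑ k, μ k ^ p from (hU.map _).trR_eq,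
    show trPow p W = ∑ l, w l ^ p from (hZ.map _).trR_eq]
  calc ∑ k, μ k ^ p ≤ ∑ k, ∑ l, Complex.normSq (K k l) * w l ^ p := sum_le_sum fun k _ => by
        rw [hμ k]
        exact rpow_sum_le hp (fun l => Complex.normSq_nonneg _) (hrow k) hw
    _ = ∑ l, (∑ k, Complex.normSq (K k l)) * w l ^ p := by
        rw [sum_comm]; simp [sum_mul]
    _ ≤ ∑ l, w l ^ p := sum_le_sum fun l _ =>
        mul_le_of_le_one_left (Real.rpow_nonneg (hw l) p) (hcol l)

variable {ε : ℝ}

theorem gram_posSemidef (f : Matrix (Fin n) (Fin m) ℂ) : (fᴴ * f).PosSemidef :=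
  posSemidef_conjTranspose_mul_self f

theorem isqM_isHermitian (S : CMat m) : (isqM ε S)ᴴ = isqM ε S :=
  (cfc_predicate (fun s => (√(s + ε))⁻¹) S : IsSelfAdjoint _).star_eq

theorem frameV_posSemidef {W : CMat m} (hW : W.PosSemidef) (f : Matrix (Fin n) (Fin m) ℂ) :
    (frameV ε W f).PosSemidef :=
  hW.mul_mul_conjTranspose_same _

theorem frameP_gram (f : Matrix (Fin n) (Fin m) ℂ) :
    (frameP ε f)ᴴ * frameP ε f = isqM ε (fᴴ * f) * (fᴴ * f) * isqM ε (fᴴ * f) := by
  simp only [frameP, conjTranspose_mul, isqM_isHermitian, Matrix.mul_assoc]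

theorem frameP_contraction (hε : 0 < ε) (f : Matrix (Fin n) (Fin m) ℂ) (x : Fin m → ℂ) :
    qf ((frameP ε f)ᴴ * frameP ε f) x ≤ qf 1 x := by
  obtain ⟨V, a, h⟩ := exists_spec (gram_posSemidef f).1
  have ha := h.posSemidef_iff.1 (gram_posSemidef f)
  rw [frameP_gram]
  refine (((h.map _).mul h).mul (h.map _)).qf_le (fun k => ?_) x |>.trans_eq (one_mul _)
  have hs : 0 < a k + ε := by linarith [ha k]
  calc (√(a k + ε))⁻¹ * a k * (√(a k + ε))⁻¹ = a k / (√(a k + ε) * √(a k + ε)) := by ring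
    _ = a k / (a k + ε) := by rw [Real.mul_self_sqrt hs.le]
    _ ≤ 1 := (div_le_one hs).2 (by linarith)

theorem frameV_trPow_le (hε : 0 < ε) {W : CMat m} (hW : W.PosSemidef)
    (f : Matrix (Fin n) (Fin m) ℂ) {p : ℝ} (hp : 1 ≤ p) :
    trPow p (frameV ε W f) ≤ trPow p W :=
  trPow_compress_le hW (frameP_contraction hε f) hp

/-- The compression keeps `tr (W S)` up to `ε tr W`. -/
theorem frameV_form_ge (hε : 0 < ε) {W : CMat m} (hW : W.PosSemidef)
    (f : Matrix (Fin n) (Fin m) ℂ) :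
    trR (W * (fᴴ * f)) - ε * trR W ≤ trR (fᴴ * frameV ε W f * f) := by
  obtain ⟨V, a, h⟩ := exists_spec (gram_posSemidef f).1
  have ha := h.posSemidef_iff.1 (gram_posSemidef f)
  obtain ⟨Z, w, hZ⟩ := exists_spec hW.1
  set S : CMat m := fᴴ * f with hS
  set M : CMat m := isqM ε S with hM
  have e : trR (fᴴ * frameV ε W f * f) = trR (W * (M * S * S * M)) := by
    have e1 : fᴴ * frameV ε W f * f = S * M * W * (M * S) := by
      simp only [frameV, frameP, ← hS, ← hM, conjTranspose_mul,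
        show Mᴴ = M from isqM_isHermitian S]
      simp only [hS, Matrix.mul_assoc]
    rw [e1, Matrix.mul_assoc, trR_mul_comm]
    simp only [Matrix.mul_assoc]
  have hle : ∀ x, qf (S - M * S * S * M) x ≤ ε * qf 1 x := fun x => by
    refine (h.sub ((((h.map _).mul h).mul h).mul (h.map _))).qf_le (fun k => ?_) x
    have hs : 0 < a k + ε := by linarith [ha k]
    calc a k - (√(a k + ε))⁻¹ * a k * a k * (√(a k + ε))⁻¹
        = a k - a k ^ 2 / (√(a k + ε) * √(a k + ε)) := by ring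
      _ = a k - a k ^ 2 / (a k + ε) := by rw [Real.mul_self_sqrt hs.le]
      _ = a k * ε / (a k + ε) := by rw [sub_div' hs.ne']; ring
      _ ≤ ε := by rw [div_le_iff₀ hs]; nlinarith [sq_nonneg ε]
  have h2 := hZ.trR_mul_le (hZ.posSemidef_iff.1 hW) _ hle
  have h3 : trR (W * (S - M * S * S * M)) = trR (W * S) - trR (W * (M * S * S * M)) := by
    rw [Matrix.mul_sub]; simp [trR]
  rw [e]
  linarith

theorem continuous_gram : Continuous fun f : Matrix (Fin n) (Fin m) ℂ => fᴴ * f :=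
  have h : Continuous fun f : Matrix (Fin n) (Fin m) ℂ => f := continuous_id
  h.matrix_conjTranspose.matrix_mul h

theorem continuous_frameP (hε : 0 < ε) :
    Continuous fun f : Matrix (Fin n) (Fin m) ℂ => frameP ε f := by
  have hf : ContinuousOn (fun s : ℝ => (√(s + ε))⁻¹) (Set.Ici 0) :=
    ContinuousOn.inv₀ (by fun_prop) fun s hs =>
      (Real.sqrt_pos.2 (by have := Set.mem_Ici.1 hs; linarith)).ne'
  have h : Continuous fun f : Matrix (Fin n) (Fin m) ℂ => isqM ε (fᴴ * f) :=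
    (continuousOn_cfc hf).comp_continuous continuous_gram
      fun f => mem_specIn_of_posSemidef (gram_posSemidef f)
  exact (continuous_id : Continuous fun f : Matrix (Fin n) (Fin m) ℂ => f).matrix_mul h

/-- Joint continuity in the potential and the frame. -/
theorem continuous_frameV (hε : 0 < ε) :
    Continuous fun q : CMat m × Matrix (Fin n) (Fin m) ℂ => frameV ε q.1 q.2 := by
  have h : Continuous fun q : CMat m × Matrix (Fin n) (Fin m) ℂ => frameP ε q.2 :=
    (continuous_frameP hε).comp continuous_snd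
  exact (h.matrix_mul continuous_fst).matrix_mul h.matrix_conjTranspose

/-! ### The real interface -/

/-- The same rectangular matrix with complex entries. -/
def rc {k l : ℕ} (A : Matrix (Fin k) (Fin l) ℝ) : Matrix (Fin k) (Fin l) ℂ := A.map Complex.ofReal

theorem rc_mul {k l q : ℕ} (A : Matrix (Fin k) (Fin l) ℝ) (B : Matrix (Fin l) (Fin q) ℝ) :
    rc (A * B) = rc A * rc B :=
  Matrix.map_mul (f := Complex.ofRealHom)

theorem rc_conjTranspose {k l : ℕ} (A : Matrix (Fin k) (Fin l) ℝ) : (rc A)ᴴ = rc Aᵀ := by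
  ext i j; simp [rc]

theorem toC_eq (A : RMat m) : toC A = rc A := rfl

theorem trR_toC (A : RMat m) : trR (toC A) = A.trace := by
  simp [trR, toC, Matrix.trace, Complex.re_sum]

theorem spec_toC {A : RMat m} (hA : A.IsHermitian) (g : ℝ → ℝ) :
    ∃ U a, Spec (toC A) U a ∧ toC (cfc g A) = U * diagonal (fun i => (g (a i) : ℂ)) * Uᴴ ∧
      a = hA.eigenvalues := by
  set U : RMat m := (hA.eigenvectorUnitary : RMat m) with hU
  have h1 : Uᵀ * U = 1 := by
    simpa [star_eq_conjTranspose] using Unitary.coe_star_mul_self hA.eigenvectorUnitary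
  have h2 : U * Uᵀ = 1 := by
    simpa [star_eq_conjTranspose] using Unitary.coe_mul_star_self hA.eigenvectorUnitary
  have hd : ∀ b : Fin m → ℝ, toC (diagonal b) = diagonal fun i => (b i : ℂ) := fun b => by
    simp [toC, diagonal_map]
  have h3 := hA.spectral_theorem
  rw [Unitary.conjStarAlgAut_apply] at h3
  simp only [star_eq_conjTranspose, conjTranspose_eq_transpose_of_trivial] at h3
  have e3 : A = U * diagonal hA.eigenvalues * Uᵀ := h3
  have h4 : cfc g A = U * diagonal (fun i => g (hA.eigenvalues i)) * Uᵀ := by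
    rw [hA.cfc_eq, Matrix.IsHermitian.cfc, Unitary.conjStarAlgAut_apply]
    simp only [star_eq_conjTranspose, conjTranspose_eq_transpose_of_trivial]
    rfl
  refine ⟨toC U, hA.eigenvalues, ⟨?_, ?_, ?_⟩, ?_, rfl⟩
  · rw [toC_eq, rc_conjTranspose, ← rc_mul, h1]; simp [rc]
  · rw [toC_eq, rc_conjTranspose, ← rc_mul, h2]; simp [rc]
  · conv_lhs => rw [e3, toC_eq, rc_mul, rc_mul, ← toC_eq (diagonal _), hd]
    simp only [toC_eq, rc_conjTranspose]
  · rw [h4, toC_eq, rc_mul, rc_mul, ← toC_eq (diagonal _), hd]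
    simp only [toC_eq, rc_conjTranspose]

theorem toC_cfc {A : RMat m} (hA : A.IsHermitian) (g : ℝ → ℝ) :
    toC (cfc g A) = cfc g (toC A) := by
  obtain ⟨U, a, h, e, -⟩ := spec_toC hA g
  rw [h.cfc_eq, e]

theorem toC_posSemidef {A : RMat m} (hA : A.PosSemidef) : (toC A).PosSemidef := by
  obtain ⟨U, a, h, -, e⟩ := spec_toC hA.1 id
  exact h.posSemidef_iff.2 (e ▸ hA.eigenvalues_nonneg)

theorem gram_isHermitian (X : Matrix (Fin n) (Fin m) ℝ) : (Xᵀ * X).IsHermitian := by
  simp [Matrix.IsHermitian, transpose_mul]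

theorem rc_polarEps (X : Matrix (Fin n) (Fin m) ℝ) :
    rc (polarEps ε X) = frameP ε (rc X) := by
  rw [polarEps, rc_mul, ← toC_eq, toC_cfc (gram_isHermitian X), toC_eq, rc_mul,
    ← rc_conjTranspose]
  rfl

theorem toC_liftV (W : ℝ → RMat m) (Ψ : ℝ → Matrix (Fin n) (Fin m) ℝ) (A : Fin n → Fin n → ℝ)
    (x : ℝ) : toC (liftV ε W Ψ A x) = frameV ε (toC (W x)) (rc (mix A Ψ x)) := by
  rw [liftV, toC_eq, rc_mul, rc_mul, ← rc_conjTranspose, rc_polarEps]
  rfl

section

attribute [local irreducible] frameP frameV polarEps liftV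

theorem _root_.Vale.Agent.P371.Lift.liftV_continuousOn {n m : ℕ} (ε : ℝ) (W : ℝ → RMat m)
    (Ψ : ℝ → Matrix (Fin n) (Fin m) ℝ) (hε : 0 < ε) (hW : Continuous W) (hΨ : Continuous Ψ) :
    Continuous fun q : (Fin n → Fin n → ℝ) × ℝ => liftV ε W Ψ q.1 q.2 := by
  have hX : Continuous fun q : (Fin n → Fin n → ℝ) × ℝ => mix q.1 Ψ q.2 :=
    Continuous.matrix_mul continuous_fst (hΨ.comp continuous_snd)
  have hW2 : Continuous fun q : (Fin n → Fin n → ℝ) × ℝ => W q.2 := hW.comp continuous_snd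
  have h1 : Continuous fun q : (Fin n → Fin n → ℝ) × ℝ => toC (W q.2) :=
    hW2.matrix_map Complex.continuous_ofReal
  have h2 : Continuous fun q : (Fin n → Fin n → ℝ) × ℝ => rc (mix q.1 Ψ q.2) :=
    hX.matrix_map Complex.continuous_ofReal
  have h : Continuous fun q : (Fin n → Fin n → ℝ) × ℝ =>
      frameV ε (toC (W q.2)) (rc (mix q.1 Ψ q.2)) :=
    Continuous.comp (continuous_frameV (n := n) (m := m) hε) (h1.prodMk h2)
  refine continuous_matrix fun i j => ?_
  refine (Complex.continuous_re.comp (h.matrix_elem i j)).congr fun q => ?_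
  simp only [Function.comp_apply]
  rw [← toC_liftV]
  simp [toC]

end

theorem _root_.Vale.Agent.P371.Lift.liftV_psd {n m : ℕ} (ε : ℝ) (W : ℝ → RMat m) (Ψ : ℝ → Matrix (Fin n) (Fin m) ℝ)
    (A : Fin n → Fin n → ℝ) (x : ℝ) (_hε : 0 < ε) (hW : (W x).PosSemidef) :
    (liftV ε W Ψ A x).PosSemidef := by
  have := hW.mul_mul_conjTranspose_same (polarEps ε (mix A Ψ x))
  rwa [conjTranspose_eq_transpose_of_trivial] at this

theorem _root_.Vale.Agent.P371.Lift.liftV_trP {n m : ℕ} (p ε : ℝ) (W : ℝ → RMat m) (Ψ : ℝ → Matrix (Fin n) (Fin m) ℝ)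
    (A : Fin n → Fin n → ℝ) (x : ℝ) (hp : 1 < p) (hε : 0 < ε) (hW : (W x).PosSemidef) :
    trP p (liftV ε W Ψ A x) ≤ trP p (W x) := by
  rw [trP, trP, toC_liftV]
  exact frameV_trPow_le hε (toC_posSemidef hW) _ hp.le

theorem sgnAt_mul_self (i j : Fin n) : sgnAt i j * sgnAt i j = 1 := by
  unfold sgnAt; split <;> norm_num

theorem _root_.Vale.Agent.P371.Lift.liftV_flip {n m : ℕ} (ε : ℝ) (W : ℝ → RMat m) (Ψ : ℝ → Matrix (Fin n) (Fin m) ℝ)
    (A : Fin n → Fin n → ℝ) (x : ℝ) (i : Fin n) (_hε : 0 < ε) :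
    liftV ε W Ψ (flipRow i A) x = flipConj i (liftV ε W Ψ A x) := by
  set D : RMat n := diagonal (sgnAt i) with hD
  have hDD : Dᵀ * D = 1 := by simp [hD, diagonal_mul_diagonal, sgnAt_mul_self]
  have hm : mix (flipRow i A) Ψ x = D * mix A Ψ x := by
    rw [mix, mix, ← Matrix.mul_assoc]
    congr 1
    ext j k
    simp [hD, flipRow, diagonal_mul]
  have hp : polarEps ε (D * mix A Ψ x) = D * polarEps ε (mix A Ψ x) := by
    have e : (D * mix A Ψ x)ᵀ * (D * mix A Ψ x) = (mix A Ψ x)ᵀ * mix A Ψ x := by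
      rw [transpose_mul, Matrix.mul_assoc, ← Matrix.mul_assoc Dᵀ, hDD, Matrix.one_mul]
    rw [polarEps, polarEps, e, Matrix.mul_assoc]
  ext j k
  rw [liftV, hm, hp, transpose_mul, liftV]
  simp only [flipConj, Matrix.of_apply]
  rw [show D * polarEps ε (mix A Ψ x) * W x * ((polarEps ε (mix A Ψ x))ᵀ * Dᵀ) =
    D * (polarEps ε (mix A Ψ x) * W x * (polarEps ε (mix A Ψ x))ᵀ) * Dᵀ by
      simp only [Matrix.mul_assoc]]
  simp only [hD, diagonal_transpose, diagonal_mul, mul_diagonal]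
  ring

theorem _root_.Vale.Agent.P371.Lift.liftV_dead {n m : ℕ} (ε : ℝ) (W : ℝ → RMat m) (Ψ : ℝ → Matrix (Fin n) (Fin m) ℝ)
    (A : Fin n → Fin n → ℝ) (x : ℝ) (i j : Fin n) (hi : ∀ k, A i k = 0) :
    liftV ε W Ψ A x i j = 0 := by
  simp [liftV, polarEps, mix, Matrix.mul_apply, hi]

attribute [local irreducible] polarEps liftV

theorem form_ge {n m : ℕ} {ε : ℝ} (hε : 0 < ε) {W : ℝ → RMat m}
    (Ψ : ℝ → Matrix (Fin n) (Fin m) ℝ) (A : Fin n → Fin n → ℝ) (x : ℝ)
    (hW : (W x).PosSemidef) :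
    (mix A Ψ x * W x * (mix A Ψ x)ᵀ).trace - ε * (W x).trace ≤
      ∑ c, (fun i => mix A Ψ x i c) ⬝ᵥ liftV ε W Ψ A x *ᵥ fun i => mix A Ψ x i c := by
  set X := mix A Ψ x with hX
  have h := frameV_form_ge hε (toC_posSemidef hW) (rc X)
  rw [← toC_liftV, toC_eq, toC_eq, rc_conjTranspose, ← rc_mul, ← rc_mul, ← rc_mul, ← rc_mul,
    ← toC_eq, ← toC_eq, ← toC_eq, trR_toC, trR_toC, trR_toC] at h
  have e1 : (X * W x * Xᵀ).trace = (W x * (Xᵀ * X)).trace := by
    rw [Matrix.mul_assoc, Matrix.trace_mul_comm, Matrix.mul_assoc]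
  have e2 : (Xᵀ * liftV ε W Ψ A x * X).trace =
      ∑ c, (fun i => X i c) ⬝ᵥ liftV ε W Ψ A x *ᵥ fun i => X i c := by
    simp only [Matrix.trace, Matrix.diag, Matrix.mul_apply, dotProduct, mulVec, transpose_apply,
      Finset.mul_sum, Finset.sum_mul]
    refine sum_congr rfl fun k _ => ?_
    rw [sum_comm]
    simp only [mul_assoc]
  rw [e1, ← e2]
  exact h

theorem _root_.Vale.Agent.P371.Lift.frame_bound {n m : ℕ} (κ : Fin n → ℝ) (a b c θ : ℝ) (W : ℝ → RMat m)
    (Ψ dΨ : ℝ → Matrix (Fin n) (Fin m) ℝ) (hT : IsTrial κ a b c W Ψ dΨ) (hθ : 0 < θ) :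
    ∃ ε, 0 < ε ∧ ∀ A ∈ Dom n, Coupled a b (liftV ε W Ψ A) ∧
      ∀ s, 0 ≤ s → (∀ g dg : Fin n → ℝ → ℝ, (∀ i x, HasDerivAt (g i) (dg i x) x) →
        (∀ i, Continuous (dg i)) → (∀ i, g i a = 0) → (∀ i, g i b = 0) →
        s * (∫ x in a..b, (fun i => g i x) ⬝ᵥ liftV ε W Ψ A x *ᵥ fun i => g i x)
          ≤ energy κ a b g dg) → s ≤ 1 + θ := by
  have hΨ : Continuous Ψ := continuous_matrix fun i k =>
    continuous_iff_continuousAt.2 fun x => (hT.hderiv x i k).continuousAt
  set K : ℝ := ∫ x in a..b, (W x).trace with hK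
  have hK0 : 0 ≤ K :=
    intervalIntegral.integral_nonneg hT.hab.le fun x _ => (hT.psd x).trace_nonneg
  have hc := hT.cpos
  refine ⟨c * θ / ((1 + θ) * (K + 1)), by positivity, fun A hA => ?_⟩
  set ε := c * θ / ((1 + θ) * (K + 1)) with hε
  have hε0 : 0 < ε := by positivity
  have hεK : ε * K * (1 + θ) ≤ c * θ := by
    rw [hε, show c * θ / ((1 + θ) * (K + 1)) * K * (1 + θ) = c * θ * (K / (K + 1)) by field_simp]
    exact mul_le_of_le_one_right (by positivity) ((div_le_one (by positivity)).2 (by linarith))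
  set q : Fin m → ℝ → ℝ := fun k x => (fun i => mix A Ψ x i k) ⬝ᵥ
    liftV ε W Ψ A x *ᵥ fun i => mix A Ψ x i k with hq
  have hX : Continuous fun x => mix A Ψ x := Continuous.matrix_mul continuous_const hΨ
  have hV : Continuous fun x => liftV ε W Ψ A x :=
    (liftV_continuousOn ε W Ψ hε0 hT.hW hΨ).comp (continuous_const.prodMk continuous_id)
  have hqc : ∀ k, Continuous (q k) := fun k =>
    (continuous_pi fun i => hX.matrix_elem i k).dotProduct
      (hV.matrix_mulVec (continuous_pi fun i => hX.matrix_elem i k))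
  have hg : gain a b W Ψ A - ε * K ≤ ∫ x in a..b, ∑ k, q k x := by
    have hc1 : Continuous fun x => (mix A Ψ x * W x * (mix A Ψ x)ᵀ).trace :=
      ((hX.matrix_mul hT.hW).matrix_mul hX.matrix_transpose).matrix_trace
    have hc2 : Continuous fun x => ε * (W x).trace := hT.hW.matrix_trace.const_mul ε
    rw [gain, hK, ← intervalIntegral.integral_const_mul,
      ← intervalIntegral.integral_sub (hc1.intervalIntegrable a b) (hc2.intervalIntegrable a b)]
    exact intervalIntegral.integral_mono_on hT.hab.le ((hc1.sub hc2).intervalIntegrable a b)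
      ((continuous_finsetSum _ fun k _ => hqc k).intervalIntegrable a b)
      fun x _ => form_ge hε0 Ψ A x (hT.psd x)
  have hgc := hT.gain_ge A hA
  have hpos : gain a b W Ψ A ≤ (gain a b W Ψ A - ε * K) * (1 + θ) := by nlinarith
  refine ⟨?_, fun s hs htest => ?_⟩
  · by_contra hne
    simp only [Coupled, not_exists, not_and, not_not] at hne
    have h0 : ∫ x in a..b, ∑ k, q k x = 0 := by
      refine (intervalIntegral.integral_congr (g := fun _ => (0 : ℝ)) fun x hx => ?_).trans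
        (by simp)
      rw [Set.uIcc_of_le hT.hab.le] at hx
      refine sum_eq_zero fun k _ => ?_
      rcases eq_or_lt_of_le hx.1 with h | h
      · simp [hq, ← h, mix, hT.zero_left]
      rcases eq_or_lt_of_le hx.2 with h' | h'
      · simp [hq, h', mix, hT.zero_right]
      simp [hq, hne x ⟨h, h'⟩]
    nlinarith
  · have h : ∀ k, s * (∫ x in a..b, q k x) ≤
        energy κ a b (fun i x => mix A Ψ x i k) fun i x => mix A dΨ x i k := fun k => by
      refine htest _ _ (fun i x => ?_) (fun i => ?_) (fun i => ?_) fun i => ?_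
      · simp only [mix, Matrix.mul_apply, Matrix.of_apply]
        exact HasDerivAt.fun_sum fun l _ => (hT.hderiv x l k).const_mul (A i l)
      · exact (Continuous.matrix_mul continuous_const hT.hdc).matrix_elem i k
      · simp [mix, hT.zero_left]
      · simp [mix, hT.zero_right]
    have h1 : s * (∫ x in a..b, ∑ k, q k x) ≤ gain a b W Ψ A := by
      refine le_trans ?_ (hT.cost_le A hA)
      rw [intervalIntegral.integral_finsetSum fun k _ => (hqc k).intervalIntegrable a b, mul_sum]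
      exact sum_le_sum fun k _ => h k
    by_contra hs'
    nlinarith [mul_le_mul_of_nonneg_left hg hs]

end Vale.Agent.P371.Lift.Frame
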