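import Vale.Agent.P371.Calib.Lift
import Vale.Agent.P371.Lift.Frame

/-!
# P371: the potential along a real Riccati path on a compact interval
-/

namespace Vale.Agent.P371.Lift

open Matrix MeasureTheory Set Filter
open scoped ComplexOrder Topology
open Vale.Agent.LT (MatDerivAt MatAC trPow)

variable {n : ℕ}

namespace Calculus

theorem toC_kd (κ : Fin n → ℝ) : toC (kd κ) = Calib.diagC κ := by
  simp [toC, kd, Calib.diagC, diagonal_map]

theorem toC_ld (κ : Fin n → ℝ) : toC (ld κ) = Calib.diagC fun i => κ i ^ 2 := by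
  simp [toC, ld, Calib.diagC, diagonal_map, Complex.ofReal_pow]

theorem toC_sub (A B : RMat n) : toC (A - B) = toC A - toC B := by
  ext i j; simp [toC]

theorem toC_neg (A : RMat n) : toC (-A) = -toC A := by
  ext i j; simp [toC]

theorem toC_smul (r : ℝ) (A : RMat n) : toC (r • A) = (r : ℂ) • toC A := by
  ext i j; simp [toC]

theorem toC_mul (A B : RMat n) : toC (A * B) = toC A * toC B := by
  rw [Frame.toC_eq, Frame.rc_mul, ← Frame.toC_eq, ← Frame.toC_eq]

theorem toC_isHermitian {A : RMat n} (hA : A.IsHermitian) : (toC A).IsHermitian := by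
  ext i j
  simpa [toC] using hA.apply i j

theorem continuous_toC : Continuous (toC (n := n)) :=
  continuous_pi fun i => continuous_pi fun j =>
    Complex.continuous_ofReal.comp ((continuous_apply j).comp (continuous_apply i))

theorem trPow_smul {s : ℝ} (hs : 0 ≤ s) {A : Calib.CMat n} (hA : A.PosSemidef) (p : ℝ) :
    trPow p ((s : ℂ) • A) = s ^ p * trPow p A := by
  obtain ⟨U, w, hU⟩ := Calib.exists_spec hA.1
  rw [Calib.trPow_eq_sum (hU.smul s), Calib.trPow_eq_sum hU, Finset.mul_sum]
  exact Finset.sum_congr rfl fun i _ => Real.mul_rpow hs (hU.posSemidef_iff.1 hA i)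

/-- Clamping to an interval. -/
def clamp (a b : ℝ) (x : ℝ) : ℝ := max a (min b x)

theorem clamp_mem {a b : ℝ} (hab : a ≤ b) (x : ℝ) : clamp a b x ∈ Icc a b :=
  ⟨le_max_left _ _, max_le hab (min_le_left _ _)⟩

theorem clamp_left {a b x : ℝ} (hab : a ≤ b) (hx : x ≤ a) : clamp a b x = a := by
  rw [clamp, min_eq_right (hx.trans hab), max_eq_left hx]

theorem clamp_right {a b x : ℝ} (hab : a ≤ b) (hx : b ≤ x) : clamp a b x = b := by
  rw [clamp, min_eq_left hx, max_eq_right hab]

theorem clamp_self {a b x : ℝ} (hx : x ∈ Icc a b) : clamp a b x = x := by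
  rw [clamp, min_eq_right hx.2, max_eq_right hx.1]

theorem lipschitz_clamp (a b : ℝ) : LipschitzWith 1 (clamp a b) :=
  (LipschitzWith.id.const_min b).const_max a

/-- A `C¹` function on an interval, extended by constants, is absolutely continuous. -/
theorem ac_clamp {f f' : ℝ → ℝ} {a b : ℝ} (hab : a ≤ b)
    (hd : ∀ x ∈ Icc a b, HasDerivWithinAt f (f' x) (Icc a b) x)
    (hc : ContinuousOn f' (Icc a b)) (u v : ℝ) :
    AbsolutelyContinuousOnInterval (fun x => (f (clamp a b x) : ℂ)) u v := by
  obtain ⟨C, hC⟩ := isCompact_Icc.exists_bound_of_continuousOn hc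
  have hC0 : 0 ≤ C := (norm_nonneg _).trans (hC a (left_mem_Icc.2 hab))
  have hl := (convex_Icc a b).lipschitzOnWith_of_nnnorm_hasDerivWithin_le (C := ⟨C, hC0⟩)
    hd fun x hx => NNReal.coe_le_coe.1 (hC x hx)
  refine Vale.Agent.LT.ac_of_dist_le (C := C) (V := fun x : ℝ => (x : ℂ))
    (Vale.Agent.LT.ac_of_dist_le (C := 1) (V := fun x : ℝ => x)
      LipschitzWith.id.lipschitzOnWith.absolutelyContinuousOnInterval fun x _ y _ => ?_)
    fun x _ y _ => ?_
  · rw [one_mul, Complex.isometry_ofReal.dist_eq]
  · rw [Complex.isometry_ofReal.dist_eq, Complex.isometry_ofReal.dist_eq]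
    refine (hl.dist_le_mul _ (clamp_mem hab x) _ (clamp_mem hab y)).trans ?_
    exact mul_le_mul_of_nonneg_left
      (((lipschitz_clamp a b).dist_le_mul x y).trans (by simp)) hC0

end Calculus

open Calculus in
/-- The bound along a Riccati path on a compact interval. -/
theorem path_bound {n : ℕ} (α : ℝ) (κ : Fin n → ℝ) (a b s : ℝ) (V R : ℝ → RMat n)
    (h0 : 0 < α) (h1 : α < 1) (hab : a < b) (hκ : ∀ i, 0 < κ i) (hs : 0 ≤ s) (hVc : Continuous V)
    (hV : ∀ x, (V x).PosSemidef) (hR : IsRiccati κ a b s V R)
    (hbox : ∀ x ∈ Icc a b, (kd κ - R x).PosSemidef ∧ (kd κ + R x).PosSemidef)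
    (hRb : R b = -kd κ) :
    Calib.jconst α * ∑ i, κ i ^ (2 * α + 1) ≤
      Gamma.youngC (1 + α) 1 * s ^ (1 + α) * ∫ x in a..b, trP (1 + α) (V x) := by
  obtain ⟨hRa, hode⟩ := hR
  set Re : ℝ → Calib.CMat n := fun x => toC (R (clamp a b x))
  set Ve : ℝ → Calib.CMat n := (Ioo a b).indicator fun x => toC (s • V x)
  have hRc : ∀ i j, ContinuousOn (fun x => R x i j) (Icc a b) := fun i j x hx =>
    (hode x hx i j).continuousWithinAt
  have hrhs : ∀ i j, ContinuousOn (fun x => (ld κ - R x * R x - s • V x) i j) (Icc a b) := by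
    intro i j
    simp only [Matrix.sub_apply, Matrix.mul_apply, Matrix.smul_apply, smul_eq_mul]
    exact (continuousOn_const.sub (continuousOn_finsetSum _ fun k _ => (hRc i k).mul (hRc k j))).sub
      (((continuous_apply j).comp ((continuous_apply i).comp hVc)).continuousOn.const_smul s)
  have hsymm : ∀ x ∈ Icc a b, (R x).IsHermitian := fun x hx => by
    have e : R x = kd κ - (kd κ - R x) := (sub_sub_cancel _ _).symm
    rw [e]
    exact (Matrix.isHermitian_diagonal κ).sub (hbox x hx).1.1
  have hcorner : Calib.diagC κ * Calib.diagC κ = Calib.diagC fun i => κ i ^ 2 :=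
    Calib.diagC_sq κ
  have hae : ∀ᵐ x : ℝ, x ≠ a ∧ x ≠ b :=
    (Measure.ae_ne volume a).and (Measure.ae_ne volume b)
  have hpath : Calib.IsPath κ Re Ve := by
    refine ⟨fun x => toC_isHermitian (hsymm _ (clamp_mem hab.le x)),
      fun u v i j => ac_clamp hab.le (fun x hx => hode x hx i j) (hrhs i j) u v, ?_, ?_, ?_⟩
    · filter_upwards [hae] with x hx
      refine ⟨?_, fun i j => ?_⟩
      · by_cases h : x ∈ Ioo a b
        · rw [show Ve x = toC (s • V x) from indicator_of_mem h _]
          exact Frame.toC_posSemidef ((hV x).smul hs)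
        · rw [show Ve x = 0 from indicator_of_notMem h _]
          exact PosSemidef.zero
      rcases lt_trichotomy x a with h | h | h
      · have e1 : Re x = Calib.diagC κ := by
          simp only [Re]; rw [clamp_left hab.le h.le, hRa, toC_kd]
        have e2 : Ve x = 0 := indicator_of_notMem (fun hh => absurd hh.1 h.le.not_gt) _
        rw [e1, e2, hcorner, sub_self, sub_zero]
        refine (hasDerivAt_const x (Calib.diagC κ i j)).congr_of_eventuallyEq ?_
        filter_upwards [Iio_mem_nhds h] with y hy
        simp only [Re]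
        rw [clamp_left hab.le (le_of_lt hy), hRa, toC_kd]
      · exact absurd h hx.1
      rcases lt_trichotomy x b with h' | h' | h'
      · have hm : x ∈ Ioo a b := ⟨h, h'⟩
        have e1 : Re x = toC (R x) := by
          simp only [Re]; rw [clamp_self (Ioo_subset_Icc_self hm)]
        rw [e1, show Ve x = toC (s • V x) from indicator_of_mem hm _, ← toC_ld, ← toC_mul,
          ← toC_sub, ← toC_sub]
        refine (((hode x (Ioo_subset_Icc_self hm) i j).hasDerivAt
          (Icc_mem_nhds h h')).ofReal_comp).congr_of_eventuallyEq ?_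
        filter_upwards [Ioo_mem_nhds h h'] with y hy
        simp only [Re, clamp_self (Ioo_subset_Icc_self hy)]
        rfl
      · exact absurd h' hx.2
      · have e1 : Re x = -Calib.diagC κ := by
          simp only [Re]; rw [clamp_right hab.le h'.le, hRb, toC_neg, toC_kd]
        have e2 : Ve x = 0 := indicator_of_notMem (fun hh => absurd hh.2 h'.le.not_gt) _
        rw [e1, e2, neg_mul_neg, hcorner, sub_self, sub_zero]
        refine (hasDerivAt_const x ((-Calib.diagC κ) i j)).congr_of_eventuallyEq ?_
        filter_upwards [Ioi_mem_nhds h'] with y hy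
        simp only [Re]
        rw [clamp_right hab.le (le_of_lt hy), hRb, toC_neg, toC_kd]
    · refine tendsto_nhds_of_eventually_eq ?_
      filter_upwards [eventually_le_atBot a] with x hx
      simp only [Re]
      rw [clamp_left hab.le hx, hRa, toC_kd]
    · refine tendsto_nhds_of_eventually_eq ?_
      filter_upwards [eventually_ge_atTop b] with x hx
      simp only [Re]
      rw [clamp_right hab.le hx, hRb, toC_neg, toC_kd]
  set Vc : ℝ → Calib.CMat n := fun x => toC (V (clamp a b x))
  have hVcc : Continuous Vc :=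
    continuous_toC.comp (hVc.comp (lipschitz_clamp a b).continuous)
  have hVcp : ∀ x, (Vc x).PosSemidef := fun x => Frame.toC_posSemidef (hV _)
  obtain ⟨M, hM⟩ := (isCompact_Icc (a := a) (b := b)).exists_bound_of_continuousOn
    ((Calib.continuous_trR.comp (continuous_toC.comp hVc)).continuousOn)
  have hcont : Continuous fun x => trPow (1 + α) (Vc x) :=
    Calib.continuous_trPow hVcc hVcp
      (fun x => (le_abs_self _).trans (hM _ (clamp_mem hab.le x))) (by linarith)
  set g : ℝ → ℝ := (Ioo a b).indicator fun x => s ^ (1 + α) * trPow (1 + α) (Vc x)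
  have hg : Integrable g :=
    (((hcont.const_mul _).integrableOn_Icc).mono_set Ioo_subset_Icc_self).integrable_indicator
      measurableSet_Ioo
  have hVg : ∀ᵐ x, trPow (1 + α) (Ve x) ≤ g x := by
    refine Eventually.of_forall fun x => ?_
    by_cases h : x ∈ Ioo a b
    · rw [show Ve x = toC (s • V x) from indicator_of_mem h _,
        show g x = s ^ (1 + α) * trPow (1 + α) (Vc x) from indicator_of_mem h _]
      simp only [Vc, clamp_self (Ioo_subset_Icc_self h)]
      rw [toC_smul, trPow_smul hs (Frame.toC_posSemidef (hV x))]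
    · rw [show Ve x = 0 from indicator_of_notMem h _, show g x = 0 from indicator_of_notMem h _]
      simp [trPow, Real.zero_rpow (show (1 + α) ≠ 0 by linarith)]
  refine (hpath.sum_rpow_le h0 h1 (fun i => (hκ i).le) hg hVg).trans (le_of_eq ?_)
  rw [mul_assoc]
  congr 1
  rw [integral_indicator measurableSet_Ioo, integral_const_mul,
    intervalIntegral.integral_of_le hab.le, integral_Ioc_eq_integral_Ioo]
  congr 1
  refine setIntegral_congr_fun measurableSet_Ioo fun x hx => ?_
  simp only [Vc, clamp_self (Ioo_subset_Icc_self hx)]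
  rfl

/-- The quotient of the two constants is the one state constant. -/
theorem oneState_eq_youngC (γ : ℝ) (hγ : 1 / 2 < γ) :
    Gamma.youngC (γ + 1 / 2) 1 / Calib.jconst (γ - 1 / 2) = Gamma.oneState γ :=
  Calib.youngC_div_jconst hγ

end Vale.Agent.P371.Lift
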