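import Vale.Agent.P371.Lift.Threshold

/-!
# P371: continuity of the critical mismatch in parameters
-/

namespace Vale.Agent.P371.Lift

open Matrix MeasureTheory Set Filter
open scoped Topology NNReal

variable {n : ℕ}

theorem isClosed_psd : IsClosed {M : RMat n | M.PosSemidef} := by
  have e : {M : RMat n | M.PosSemidef} =
      {M | Mᴴ = M} ∩ ⋂ x : Fin n → ℝ, {M | 0 ≤ star x ⬝ᵥ (M *ᵥ x)} := by
    ext M
    simp only [mem_setOf_eq, mem_inter_iff, mem_iInter]
    exact posSemidef_iff_dotProduct_mulVec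
  rw [e]
  refine (isClosed_eq (by fun_prop) continuous_id).inter (isClosed_iInter fun x => ?_)
  exact isClosed_le continuous_const
    (by simp only [dotProduct, mulVec]; fun_prop)

/-- Close potentials and couplings give close fields. -/
theorem ricF_close (κ : Fin n → ℝ) {s s' ε M S : ℝ} {V V' : ℝ → RMat n} {t : ℝ} (R : St n)
    (hs : |s| ≤ S) (hV : ∀ i j, |V t i j - V' t i j| ≤ ε) (hM : ∀ i j, |V' t i j| ≤ M)
    (hε : 0 ≤ ε) (hM0 : 0 ≤ M) :
    dist (ricF κ s V t R) (ricF κ s' V' t R) ≤ S * ε + |s - s'| * M := by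
  have hS : 0 ≤ S := (abs_nonneg s).trans hs
  rw [dist_eq_norm]
  refine (pi_norm_le_iff_of_nonneg (by positivity)).2 fun i =>
    (pi_norm_le_iff_of_nonneg (by positivity)).2 fun j => ?_
  simp only [ricF, Pi.sub_apply, Real.norm_eq_abs]
  calc |_| = |s * (V t i j - V' t i j) + (s - s') * V' t i j| := by
        rw [← abs_neg]; congr 1; ring
    _ ≤ |s * (V t i j - V' t i j)| + |(s - s') * V' t i j| := abs_add_le _ _
    _ ≤ _ := by
        rw [abs_mul, abs_mul]
        exact add_le_add (mul_le_mul hs (hV i j) (abs_nonneg _) hS)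
          (mul_le_mul_of_nonneg_left (hM i j) (abs_nonneg _))

/-- The polynomial testBump in one channel. -/
def testBump (a b : ℝ) (i : Fin n) (j : Fin n) (x : ℝ) : ℝ :=
  if j = i then (x - a) * (b - x) else 0

theorem coupled_gain {a b : ℝ} {V : ℝ → RMat n} (hV : Continuous V)
    (hp : ∀ x, (V x).PosSemidef) (hc : Coupled a b V) : ∃ i,
    0 < ∫ x in a..b, (fun j => testBump a b i j x) ⬝ᵥ V x *ᵥ fun j => testBump a b i j x := by
  obtain ⟨x₀, hx₀, hne⟩ := hc
  obtain ⟨i, hi⟩ : ∃ i, 0 < V x₀ i i := by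
    by_contra h
    push Not at h
    refine hne ((hp x₀).trace_eq_zero_iff.1 ?_)
    exact Finset.sum_eq_zero fun i _ => le_antisymm (h i) ((hp x₀).diag_nonneg)
  refine ⟨i, ?_⟩
  have e : ∀ x, ((fun j => testBump a b i j x) ⬝ᵥ V x *ᵥ fun j => testBump a b i j x) =
      ((x - a) * (b - x)) ^ 2 * V x i i := fun x => by
    simp only [testBump, dotProduct, mulVec, mul_ite, mul_zero, ite_mul, zero_mul,
      Finset.sum_ite_eq', Finset.mem_univ, if_true]
    ring
  simp only [e]
  have hab : a < b := hx₀.1.trans hx₀.2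
  refine intervalIntegral.integral_pos hab ((by fun_prop :
      Continuous fun x : ℝ => ((x - a) * (b - x)) ^ 2).mul (hV.matrix_elem i i)).continuousOn
    (fun x _ => mul_nonneg (sq_nonneg _) ((hp x).diag_nonneg)) ⟨x₀, Ioo_subset_Icc_self hx₀, ?_⟩
  have : 0 < (x₀ - a) * (b - x₀) := mul_pos (by linarith [hx₀.1]) (by linarith [hx₀.2])
  positivity

/-- Bounded critical couplings with converging data converge to the critical data. -/
theorem crit_limit {κ : Fin n → ℝ} {a b : ℝ} (hab : a < b) (hκ : ∀ i, 0 < κ i)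
    {V : ℕ → ℝ → RMat n} {V₀ : ℝ → RMat n} (hV₀ : Continuous V₀)
    (hp₀ : ∀ x, (V₀ x).PosSemidef) {s : ℕ → ℝ} {σ s₀ : ℝ} {R : ℕ → ℝ → RMat n}
    {R₀ : ℝ → RMat n} (hR : ∀ k, IsCrit κ a b (V k) (s k) (R k))
    (h₀ : IsCrit κ a b V₀ s₀ R₀)
    (hV : ∀ ε, 0 < ε → ∀ᶠ k in atTop, ∀ t ∈ Icc a b, ∀ i j, |V k t i j - V₀ t i j| ≤ ε)
    (hs : Tendsto s atTop (𝓝 σ)) : Tendsto (fun k => R k b) atTop (𝓝 (R₀ b)) := by
  obtain ⟨P, hP0, hP⟩ := exists_cut hab.le κ σ hV₀
  obtain ⟨M, hM0, hM⟩ := potential_bound (a := a) (b := b) hV₀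
  set L : ℝ≥0 := ricK κ
  have hlim : ∀ t ∈ Icc a b, Tendsto (β := St n) (fun k => R k t) atTop (𝓝 (P t)) := by
    intro t ht
    let Q : ℕ → St n := fun k => R k t
    change Tendsto Q atTop (𝓝 (P t))
    refine tendsto_iff_dist_tendsto_zero.2 ?_
    refine squeeze_zero' (Eventually.of_forall fun _ => dist_nonneg) (g := fun k =>
      dist (α := St n) (R k t) (P t)) (Eventually.of_forall fun _ => le_rfl) ?_
    rw [Metric.tendsto_atTop]
    intro η hη
    have hg : Tendsto (fun e : ℝ => gronwallBound 0 L e (b - a)) (𝓝 0) (𝓝 0) := by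
      have := (gronwallBound_continuous_ε 0 L (b - a)).tendsto 0
      rwa [gronwallBound_ε0_δ0] at this
    obtain ⟨e, he, hge⟩ := Metric.tendsto_nhds_nhds.1 hg η hη
    set S : ℝ := |σ| + 1
    have hS : 0 < S := by positivity
    obtain ⟨N, hN⟩ := eventually_atTop.1 (((hV (e / (4 * S)) (by positivity)).and
      (hs.eventually (Metric.ball_mem_nhds σ (show 0 < min 1 (e / (4 * (M + 1))) by positivity)))))
    refine ⟨N, fun k hk => ?_⟩
    obtain ⟨hv, hsk⟩ := hN k hk
    rw [Real.dist_eq, lt_min_iff] at hsk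
    have hε : ∀ x ∈ Icc a b, ∀ Q : St n,
        dist (ricF κ σ V₀ x Q) (ricF κ (s k) (V k) x Q) ≤ e / 2 := fun x hx Q => by
      rw [dist_comm]
      refine (ricF_close κ (S := S) (ε := e / (4 * S)) (M := M) Q ?_ (hv x hx) (hM x hx)
        (by positivity) hM0).trans ?_
      · have := abs_sub_abs_le_abs_sub (s k) σ
        simp only [S]; linarith [hsk.1]
      · have h1 : S * (e / (4 * S)) = e / 4 := by field_simp
        have h2 : |s k - σ| * M ≤ e / (4 * (M + 1)) * (M + 1) :=
          mul_le_mul hsk.2.le (by linarith) hM0 (by positivity)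
        have h3 : e / (4 * (M + 1)) * (M + 1) = e / 4 := by field_simp
        linarith
    have hd := dist_solvesOn_le (fun x _ => ricF_lipschitz κ (s k) (V k) x)
      ((hR k).2.1.solvesOn (hR k).abs_le) hP (by rw [hP0]; exact (hR k).2.1.1)
      (fun x hx => hε x hx (P x)) ht
    rw [Real.dist_eq, sub_zero, abs_of_nonneg (by exact dist_nonneg)]
    refine hd.trans_lt ?_
    have := hge (x := e / 2) (by rw [Real.dist_eq, sub_zero, abs_of_pos (by positivity)]; linarith)
    rw [Real.dist_eq, sub_zero] at this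
    exact (le_abs_self _).trans_lt this
  have hb := right_mem_Icc.2 hab.le
  have hclosed : ∀ {K : Set (RMat n)}, IsClosed K → ∀ t ∈ Icc a b, (∀ k, R k t ∈ K) →
      Matrix.of (P t) ∈ K := fun hK t ht h => hK.mem_of_tendsto (hlim t ht) (Eventually.of_forall h)
  have hbox : ∀ x ∈ Icc a b,
      (kd κ - Matrix.of (P x)).PosSemidef ∧ (kd κ + Matrix.of (P x)).PosSemidef := fun x hx =>
    ⟨hclosed (isClosed_psd.preimage (by fun_prop : Continuous fun M : RMat n => kd κ - M)) x hx
      fun k => ((hR k).2.2.1 x hx).1,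
    hclosed (isClosed_psd.preimage (by fun_prop : Continuous fun M : RMat n => kd κ + M)) x hx
      fun k => ((hR k).2.2.1 x hx).2⟩
  have habs : ∀ x ∈ Icc a b, ∀ i j, |P x i j| ≤ boxB κ := fun x hx i j =>
    (box_abs_le (R := Matrix.of (P x)) (hbox x hx).1 (hbox x hx).2 i j).trans (by linarith)
  have hric := isRiccati_of_cut hP0 hP habs
  have hdet : (Matrix.of (P b) + kd κ).det = 0 :=
    hclosed (K := {M : RMat n | (M + kd κ).det = 0})
      (isClosed_eq (by fun_prop) continuous_const) b hb fun k => (hR k).2.2.2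
  have hσ : 0 ≤ σ := ge_of_tendsto hs (Eventually.of_forall fun k => (hR k).1.le)
  have hσ' : 0 < σ := by
    refine hσ.lt_of_ne fun h => ?_
    subst h
    have hc : SolvesOn (ricF κ 0 V₀) a b fun _ => (kd κ : St n) := fun x _ => by
      refine (hasDerivWithinAt_const x (Icc a b) _).congr_deriv (funext fun i => funext fun j => ?_)
      rw [ricF_eq fun i j => ?_]
      · simp [ld, kd, diagonal_mul_diagonal, sq]
      · rcases eq_or_ne i j with rfl | hij
        · dsimp only
          rw [kd, diagonal_apply_eq, boxB]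
          linarith [Finset.single_le_sum (fun k _ => abs_nonneg (κ k)) (Finset.mem_univ i)]
        · dsimp only
          rw [kd, diagonal_apply_ne _ hij, abs_zero]
          exact (boxB_pos κ).le
    have e := solvesOn_unique (fun x _ => ricF_lipschitz κ 0 V₀ x) hP hc hP0 hb
    have e' : Matrix.of (P b) = kd κ := e
    rw [e', kd, diagonal_add, det_diagonal, Finset.prod_eq_zero_iff] at hdet
    obtain ⟨i, -, hi⟩ := hdet
    linarith [hκ i]
  have hu := crit_unique κ a b V₀ σ s₀ _ R₀ hab hκ hV₀ hp₀ ⟨hσ', hric, hbox, hdet⟩ h₀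
  rw [← hu.2 hb]
  exact hlim b hb

/-- The right end of the critical path depends continuously on parameters. -/
theorem crit_continuousOn {n : ℕ} {X : Type} [MetricSpace X] (S : Set X) (κ : Fin n → ℝ)
    (a b : ℝ) (V : X → ℝ → RMat n) (s : X → ℝ) (R : X → ℝ → RMat n) (hab : a < b)
    (hκ : ∀ i, 0 < κ i) (hS : IsCompact S)
    (hV : ContinuousOn (fun q : X × ℝ => V q.1 q.2) (S ×ˢ univ))
    (hp : ∀ z ∈ S, ∀ x, (V z x).PosSemidef) (hc : ∀ z ∈ S, Coupled a b (V z))
    (hR : ∀ z ∈ S, IsCrit κ a b (V z) (s z) (R z)) : ContinuousOn (fun z => R z b) S := by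
  have hVz : ∀ z ∈ S, Continuous (V z) := fun z hz =>
    hV.comp_continuous (f := fun x : ℝ => (z, x)) (by fun_prop) fun x => ⟨hz, mem_univ x⟩
  intro z₀ hz₀
  have hunif : ∀ ε, 0 < ε → ∃ δ, 0 < δ ∧ ∀ z ∈ S, dist z z₀ < δ →
      ∀ t ∈ Icc a b, ∀ i j, |V z t i j - V z₀ t i j| ≤ ε := by
    intro ε hε
    have hu := (hS.prod isCompact_Icc).uniformContinuousOn_of_continuous
      (hV.mono (prod_mono subset_rfl (subset_univ (Icc a b))))
    have hu' : ∀ i j, ∃ δ, 0 < δ ∧ ∀ z ∈ S, dist z z₀ < δ →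
        ∀ t ∈ Icc a b, |V z t i j - V z₀ t i j| ≤ ε := fun i j => by
      have := (Pi.uniformContinuous_proj (fun _ : Fin n => ℝ) j).comp_uniformContinuousOn
        ((Pi.uniformContinuous_proj (fun _ : Fin n => Fin n → ℝ) i).comp_uniformContinuousOn hu)
      obtain ⟨δ, hδ, hd⟩ := Metric.uniformContinuousOn_iff.1 this ε hε
      exact ⟨δ, hδ, fun z hz hzd t ht => (hd (z, t) ⟨hz, ht⟩ (z₀, t) ⟨hz₀, ht⟩
        (by simpa [Prod.dist_eq] using hzd)).le⟩
    choose δ hδ hd using hu'
    have hd' : ∀ᶠ r in 𝓝[>] (0 : ℝ), ∀ i j, r ≤ δ i j := eventually_all.2 fun i =>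
      eventually_all.2 fun j => nhdsWithin_le_nhds (Iic_mem_nhds (hδ i j))
    obtain ⟨r, hr, hr0⟩ := (hd'.and self_mem_nhdsWithin).exists
    exact ⟨r, hr0, fun z hz hzd t ht i j => hd i j z hz (hzd.trans_le (hr i j)) t ht⟩
  rw [ContinuousWithinAt, tendsto_iff_seq_tendsto]
  intro u hu
  obtain ⟨hu1, hu2⟩ := tendsto_nhdsWithin_iff.1 hu
  refine tendsto_of_subseq_tendsto fun ns hns => ?_
  obtain ⟨N, hN⟩ := eventually_atTop.1 (hns.eventually hu2)
  set w : ℕ → X := fun k => u (ns (k + N))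
  have hwS : ∀ k, w k ∈ S := fun k => hN _ (Nat.le_add_left N k)
  have hw : Tendsto w atTop (𝓝 z₀) :=
    hu1.comp (hns.comp (tendsto_add_atTop_nat N))
  obtain ⟨i, hi⟩ := coupled_gain (hVz z₀ hz₀) (hp z₀ hz₀) (hc z₀ hz₀)
  set I : X → ℝ := fun z =>
    ∫ x in a..b, (fun j => testBump a b i j x) ⬝ᵥ V z x *ᵥ fun j => testBump a b i j x
  have hI : ContinuousWithinAt I S z₀ := by
    have hb' : ContinuousOn (fun q : X × ℝ =>
        (fun j => testBump a b i j q.2) ⬝ᵥ V q.1 q.2 *ᵥ fun j => testBump a b i j q.2) (S ×ˢ univ) := by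
      have hg : ∀ j, Continuous fun x => testBump a b i j x := fun j => by
        unfold testBump; split_ifs <;> fun_prop
      simp only [dotProduct, mulVec]
      exact continuousOn_finsetSum _ fun j _ => ((hg j).comp continuous_snd).continuousOn.mul
        (continuousOn_finsetSum _ fun k _ =>
          ((continuousOn_pi.1 (continuousOn_pi.1 hV j) k)).mul
            ((hg k).comp continuous_snd).continuousOn)
    refine (continuousOn_iff_continuous_domRestrict.2 ?_ : ContinuousOn I S) z₀ hz₀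
    exact intervalIntegral.continuous_parametric_intervalIntegral_of_continuous'
      (f := fun (z : S) x => (fun j => testBump a b i j x) ⬝ᵥ V z x *ᵥ fun j => testBump a b i j x)
      (hb'.comp_continuous (f := fun q : S × ℝ => ((q.1 : X), q.2)) (by fun_prop)
        fun q => ⟨q.1.2, mem_univ _⟩) a b
  have hIw : ∀ᶠ k in atTop, I z₀ / 2 < I (w k) :=
    (hI.tendsto.comp (tendsto_nhdsWithin_iff.2 ⟨hw, Eventually.of_forall hwS⟩)).eventually
      (Ioi_mem_nhds (half_lt_self hi))
  obtain ⟨M, hM⟩ := eventually_atTop.1 hIw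
  set E := energy κ a b (testBump a b i) fun j x => if j = i then b + a - 2 * x else 0
  have hsb : ∀ k, s (w (k + M)) ∈ Icc (0 : ℝ) (E / (I z₀ / 2)) := fun k => by
    have hk := hR _ (hwS (k + M))
    refine ⟨hk.1.le, ?_⟩
    rw [le_div_iff₀ (half_pos hi)]
    refine le_trans (mul_le_mul_of_nonneg_left (hM _ (Nat.le_add_left M k)).le hk.1.le) ?_
    refine crit_test κ a b _ _ _ (testBump a b i) (fun j x => if j = i then b + a - 2 * x else 0)
      hab hκ (hVz _ (hwS _)) hk (fun j x => ?_) (fun j => ?_) (fun j => ?_) fun j => ?_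
    · unfold testBump
      split_ifs
      · exact (((hasDerivAt_id x).sub_const a).mul ((hasDerivAt_id x).const_sub b)).congr_deriv
          (by simp; ring)
      · exact hasDerivAt_const x 0
    · split_ifs <;> fun_prop
    · simp [testBump]
    · simp [testBump]
  obtain ⟨σ, -, φ, hφ, hσ⟩ := isCompact_Icc.tendsto_subseq hsb
  refine ⟨fun k => φ k + M + N, crit_limit (V := fun k => V (w (φ k + M)))
    (R := fun k => R (w (φ k + M))) hab hκ (hVz z₀ hz₀) (hp z₀ hz₀)
    (fun k => hR _ (hwS _)) (hR z₀ hz₀) (fun ε hε => ?_) hσ⟩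
  obtain ⟨δ, hδ, hd⟩ := hunif ε hε
  have hm : Tendsto (fun k => φ k + M) atTop atTop :=
    (tendsto_add_atTop_nat M).comp hφ.tendsto_atTop
  filter_upwards [(hw.comp hm).eventually (Metric.ball_mem_nhds z₀ hδ)] with k hk
  exact hd _ (hwS _) hk

end Vale.Agent.P371.Lift
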