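import Vale.Agent.P371.Lift.Sign.Model
import Vale.Agent.P371.Lift.Defs
/-
P371 lifting: the sign lemma (elementary parity proof, parts in Lift/Sign/) and the equivariant zero theorem.
-/
namespace Vale.Agent.P371.Lift.Sign

open Finset Filter
open scoped Topology

variable {n : ℕ}

/-- lower triangular arrays with every row of sup norm one -/
def RowsDom (n : ℕ) : Set (Fin n → Fin n → ℝ) :=
  {a | (∀ i j, i < j → a i j = 0) ∧ (∀ i j, |a i j| ≤ 1) ∧ ∀ i, ∃ j, |a i j| = 1}

/-- the unit cube -/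
def Cube (n : ℕ) : Set (Fin n → ℝ) := Set.Icc 0 1

/-- negate one row -/
def negRow (k : Fin n) (a : Fin n → Fin n → ℝ) : Fin n → Fin n → ℝ :=
  fun i j => if i = k then -a i j else a i j

lemma isCompact_rowsDom : IsCompact (RowsDom n) := by
  have hc : ∀ i j, Continuous fun a : Fin n → Fin n → ℝ => a i j := fun i j =>
    (continuous_apply j).comp (continuous_apply i)
  have hcl : IsClosed (RowsDom n) := by
    have e : RowsDom n = (⋂ i, ⋂ j, {a : Fin n → Fin n → ℝ | i < j → a i j = 0}) ∩
        ((⋂ i, ⋂ j, {a : Fin n → Fin n → ℝ | |a i j| ≤ 1}) ∩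
          ⋂ i, ⋃ j, {a : Fin n → Fin n → ℝ | |a i j| = 1}) := by
      ext a
      simp only [RowsDom, Set.mem_inter_iff, Set.mem_iInter, Set.mem_iUnion, Set.mem_setOf_eq]
    rw [e]
    refine (isClosed_iInter fun i => isClosed_iInter fun j => ?_).inter
      ((isClosed_iInter fun i => isClosed_iInter fun j => isClosed_le (hc i j).abs continuous_const).inter
        (isClosed_iInter fun i => isClosed_iUnion_of_finite fun j =>
          isClosed_eq (hc i j).abs continuous_const))
    by_cases h : i < j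
    · simpa [h] using isClosed_eq (hc i j) continuous_const
    · simp [h]
  refine IsCompact.of_isClosed_subset (isCompact_Icc (a := fun _ _ => (-1 : ℝ)) (b := fun _ _ => 1)) hcl ?_
  intro a ha
  exact ⟨fun i j => (abs_le.1 (ha.2.1 i j)).1, fun i j => (abs_le.1 (ha.2.1 i j)).2⟩

/-- the array of a lattice point -/
noncomputable def rA (K : ℕ) (v : Pt n) : Fin n → Fin n → ℝ :=
  fun i j => (v (Sum.inl (i, j)) : ℝ) / (mm K : ℝ)

/-- the cube point of a lattice point -/
noncomputable def rQ (K : ℕ) (v : Pt n) : Fin n → ℝ :=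
  fun q => (v (Sum.inr q) : ℝ) / (2 * mm K : ℝ)

lemma mm_pos (K : ℕ) : (0 : ℝ) < mm K := by
  have := two_le_mm K
  exact_mod_cast (by omega : (0 : ℤ) < mm K)

lemma rA_mem {K : ℕ} {v : Pt n} (h : IsPt K v) : rA K v ∈ RowsDom n := by
  have hM := mm_pos K
  refine ⟨fun i j hij => ?_, fun i j => ?_, fun i => ?_⟩
  · have := h.1 (Sum.inl (i, j))
    simp only [lo, hi, hij, ite_true] at this
    simp [rA, show v (Sum.inl (i, j)) = 0 by omega]
  · have hb : |v (Sum.inl (i, j))| ≤ mm K := by
      have := h.1 (Sum.inl (i, j))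
      have := two_le_mm K
      simp only [lo, hi] at *
      rw [abs_le]
      split_ifs at * <;> omega
    rw [rA, abs_div, abs_of_pos hM, div_le_one hM]
    exact_mod_cast hb
  · obtain ⟨j, -, hj⟩ := h.2 i
    refine ⟨j, ?_⟩
    rw [rA, abs_div, abs_of_pos hM, div_eq_one_iff_eq hM.ne']
    rcases hj with e | e <;> simp [e, abs_of_pos hM]

lemma rQ_mem {K : ℕ} {v : Pt n} (h : IsPt K v) : rQ K v ∈ Cube n := by
  have hM := mm_pos K
  refine ⟨fun q => ?_, fun q => ?_⟩
  · have := (h.1 (Sum.inr q)).1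
    simp only [lo] at this
    exact div_nonneg (Int.cast_nonneg this) (by positivity)
  · have := (h.1 (Sum.inr q)).2
    simp only [hi] at this
    rw [rQ, Pi.one_apply, div_le_one (by positivity)]
    have h' : ((v (Sum.inr q) : ℤ) : ℝ) ≤ ((2 * mm K : ℤ) : ℝ) := Int.cast_le.2 this
    push_cast at h'
    exact h'

lemma rA_flip (K : ℕ) (i : Fin n) (v : Pt n) : rA K (flipP i v) = negRow i (rA K v) := by
  funext r s
  simp only [rA, negRow, flipP]
  split_ifs <;> simp [neg_div]

lemma rQ_flip (K : ℕ) (i : Fin n) (v : Pt n) : rQ K (flipP i v) = rQ K v := rfl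

/-- along a flag every coordinate changes at most once, by one -/
lemma flag_close {K : ℕ} {v : Fin (dd n + 1) → Pt n} (h : IsFlag K v) (l : Fin (dd n + 1)) (c : Crd n) :
    |v l c - v 0 c| ≤ 1 := by
  induction l using Fin.induction with
  | zero => simp
  | succ m ih =>
    by_cases hc : c = moved h m
    · subst hc
      obtain ⟨he, hs, -⟩ := moved_spec h m
      rw [back h (Fin.zero_le _) he, abs_le]
      omega
    · rwa [(moved_spec h m).2.2 c hc]

lemma rA_close {K : ℕ} {v : Fin (dd n + 1) → Pt n} (h : IsFlag K v) (l : Fin (dd n + 1)) (i j : Fin n) :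
    |rA K (v l) i j - rA K (v 0) i j| ≤ 1 / (mm K : ℝ) := by
  have hM := mm_pos K
  rw [rA, rA, ← sub_div, abs_div, abs_of_pos hM]
  gcongr
  exact_mod_cast flag_close h l (Sum.inl (i, j))

lemma rQ_close {K : ℕ} {v : Fin (dd n + 1) → Pt n} (h : IsFlag K v) (l : Fin (dd n + 1)) (q : Fin n) :
    |rQ K (v l) q - rQ K (v 0) q| ≤ 1 / (mm K : ℝ) := by
  have hM := mm_pos K
  rw [rQ, rQ, ← sub_div, abs_div, abs_of_pos (by positivity : (0 : ℝ) < 2 * mm K)]
  calc |((v l (Sum.inr q) : ℤ) : ℝ) - (v 0 (Sum.inr q) : ℝ)| / (2 * mm K)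
      ≤ 1 / (2 * mm K) := by
        gcongr
        exact_mod_cast flag_close h l (Sum.inr q)
    _ ≤ 1 / mm K := by
        gcongr
        linarith

section main

variable (O : (Fin n → Fin n → ℝ) → (Fin n → ℝ) → Fin n → Fin n → ℝ)
  (g : (Fin n → Fin n → ℝ) → (Fin n → ℝ) → Fin n → ℝ)

/-- a sign bit with a prescribed tie -/
noncomputable def zsgn (x : ℝ) (m : ZMod 2) : ZMod 2 := if x = 0 then m else if x < 0 then 1 else 0

lemma zsgn_neg (x : ℝ) (m : ZMod 2) : zsgn (-x) (m + 1) = zsgn x m + 1 := by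
  unfold zsgn
  rcases lt_trichotomy x 0 with h | h | h
  · rw [if_neg (by linarith : ¬ -x = 0), if_neg (by linarith : ¬ -x < 0), if_neg h.ne, if_pos h]
    exact (CharTwo.add_self_eq_zero _).symm
  · simp [h]
  · rw [if_neg (by linarith : ¬ -x = 0), if_pos (by linarith : -x < 0), if_neg h.ne',
      if_neg (by linarith : ¬ x < 0)]
    simp

lemma zsgn_sign (x : ℝ) (m : ZMod 2) : (zsgn x m = 0 → 0 ≤ x) ∧ (zsgn x m = 1 → x ≤ 0) := by
  unfold zsgn
  split_ifs with h0 h1
  · simp [h0]
  · exact ⟨fun e => absurd e one_ne_zero, fun _ => h1.le⟩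
  · exact ⟨fun _ => not_lt.1 h1, fun e => absurd e zero_ne_one⟩

/-- the value of an equation -/
def val : Slot n → (Fin n → Fin n → ℝ) × (Fin n → ℝ) → ℝ
  | Sum.inl p, x => O x.1 x.2 p.1.1 p.1.2
  | Sum.inr q, x => g x.1 x.2 q

/-- the sign pattern of the equations on the lattice -/
noncomputable def pat (K : ℕ) (s : Slot n) (v : Pt n) : ZMod 2 :=
  match s with
  | Sum.inl p => zsgn (val O g (Sum.inl p) (rA K v, rQ K v)) (model K (Sum.inl p) v)
  | Sum.inr q =>
      if v (Sum.inr q) = 0 then 0 else if v (Sum.inr q) = 2 * mm K then 1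
      else zsgn (val O g (Sum.inr q) (rA K v, rQ K v)) (model K (Sum.inr q) v)

variable {O g}
variable (hOflip : ∀ a ∈ RowsDom n, ∀ q ∈ Cube n, ∀ k i j, j < i →
    O (negRow k a) q i j = if k = i ∨ k = j then -(O a q i j) else O a q i j)
  (hgflip : ∀ a ∈ RowsDom n, ∀ q ∈ Cube n, ∀ k i, g (negRow k a) q i = g a q i)
  (hg0 : ∀ a ∈ RowsDom n, ∀ q ∈ Cube n, ∀ i, q i = 0 → 0 ≤ g a q i)
  (hg1 : ∀ a ∈ RowsDom n, ∀ q ∈ Cube n, ∀ i, q i = 1 → g a q i ≤ 0)

include hOflip hgflip in
lemma adm_pat (K : ℕ) : Adm K (pat O g K) := by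
  have h2 := two_le_mm K
  refine ⟨fun s i v hv => ?_, fun q v _ e => ?_, fun q v _ e => ?_⟩
  · have hm := (adm_model (n := n) K).flip s i v hv
    rcases s with ⟨⟨a, b⟩, hab⟩ | q
    · simp only [pat, val, rA_flip, rQ_flip, hm]
      rw [hOflip _ (rA_mem hv) _ (rQ_mem hv) i a b hab]
      simp only [chi]
      by_cases hi : i = a ∨ i = b
      · simp only [if_pos hi]
        exact zsgn_neg _ _
      · simp only [if_neg hi, add_zero]
    · simp only [pat, val, rA_flip, rQ_flip, chi, add_zero] at hm ⊢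
      rw [hgflip _ (rA_mem hv) _ (rQ_mem hv) i q, hm]
      rfl
  · simp only [pat, e, if_pos]
  · simp only [pat, e, if_neg (by omega : ¬ (2 * mm K = 0)), if_pos]

include hg0 hg1 in
lemma pat_sign (K : ℕ) (s : Slot n) (v : Pt n) (hv : IsPt K v) :
    (pat O g K s v = 0 → 0 ≤ val O g s (rA K v, rQ K v)) ∧
      (pat O g K s v = 1 → val O g s (rA K v, rQ K v) ≤ 0) := by
  have hM := mm_pos K
  rcases s with p | q
  · exact zsgn_sign _ _
  · simp only [pat]
    split_ifs with hb ht
    · exact ⟨fun _ => hg0 _ (rA_mem hv) _ (rQ_mem hv) q (by simp [rQ, hb]),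
        fun e => absurd e zero_ne_one⟩
    · refine ⟨fun e => absurd e one_ne_zero, fun _ => hg1 _ (rA_mem hv) _ (rQ_mem hv) q ?_⟩
      simp only [rQ, ht]
      push_cast
      exact div_self (by positivity)
    · exact zsgn_sign _ _

include hOflip hgflip hg0 hg1 in
/-- one small simplex on which every equation changes sign -/
lemma exists_cell (K : ℕ) : ∃ v : Fin (dd n + 1) → Pt n, IsFlag K v ∧ ∀ k : Fin (dd n),
    val O g (slot n k) (rA K (v k.castSucc), rQ K (v k.castSucc)) *
      val O g (slot n k) (rA K (v k.succ), rQ K (v k.succ)) ≤ 0 := by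
  have hc : count K (pat O g K) = 1 :=
    (count_const K _ _ (adm_pat hOflip hgflip K) (adm_model K)).trans (count_model K)
  rw [← count_eq_edges] at hc
  obtain ⟨v, hv, hne⟩ := Finset.exists_ne_zero_of_sum_ne_zero (hc.trans_ne one_ne_zero)
  have h := mem_flags.1 hv
  refine ⟨v, h, fun k => ?_⟩
  have hk := Finset.prod_ne_zero_iff.1 hne k (Finset.mem_univ k)
  obtain ⟨a0, a1⟩ := pat_sign hg0 hg1 K (slot n k) _ (h.1 k.castSucc)
  obtain ⟨b0, b1⟩ := pat_sign hg0 hg1 K (slot n k) _ (h.1 k.succ)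
  have hz : ∀ x : ZMod 2, x = 0 ∨ x = 1 := by decide
  rcases hz (pat O g K (slot n k) (v k.castSucc)) with e | e <;>
    rcases hz (pat O g K (slot n k) (v k.succ)) with e' | e'
  · exact absurd (by rw [e, e']; rfl) hk
  · exact mul_nonpos_of_nonneg_of_nonpos (a0 e) (b1 e')
  · exact mul_nonpos_of_nonpos_of_nonneg (a1 e) (b0 e')
  · exact absurd (by rw [e, e']; rfl) hk

include hOflip hgflip hg0 hg1 in
/-- SIGN LEMMA: equivariant equations on (rows) x (cube) have a common zero -/
theorem sign_lemma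
    (hO : ∀ i j, j < i → ContinuousOn (fun x : (Fin n → Fin n → ℝ) × (Fin n → ℝ) => O x.1 x.2 i j)
      (RowsDom n ×ˢ Cube n))
    (hg : ∀ i, ContinuousOn (fun x : (Fin n → Fin n → ℝ) × (Fin n → ℝ) => g x.1 x.2 i)
      (RowsDom n ×ˢ Cube n)) :
    ∃ a ∈ RowsDom n, ∃ q ∈ Cube n, (∀ i j, j < i → O a q i j = 0) ∧ ∀ i, g a q i = 0 := by
  choose v hflag hprod using exists_cell hOflip hgflip hg0 hg1
  set pt : ℕ → Fin (dd n + 1) → (Fin n → Fin n → ℝ) × (Fin n → ℝ) :=
    fun K l => (rA K (v K l), rQ K (v K l)) with hpt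
  have hmem : ∀ K l, pt K l ∈ RowsDom n ×ˢ Cube n := fun K l =>
    ⟨rA_mem ((hflag K).1 l), rQ_mem ((hflag K).1 l)⟩
  obtain ⟨x, hx, φ, hφ, hlim⟩ :=
    (isCompact_rowsDom.prod isCompact_Icc).tendsto_subseq (x := fun K => pt K 0) fun K => hmem K 0
  have hsmall : Tendsto (fun K => 1 / (mm (φ K) : ℝ)) atTop (𝓝 0) := by
    refine squeeze_zero (fun K => by have := mm_pos (φ K); positivity) (fun K => ?_)
      (tendsto_one_div_add_atTop_nhds_zero_nat (𝕜 := ℝ))
    refine one_div_le_one_div_of_le (by positivity) ?_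
    have h1 : K ≤ φ K := hφ.id_le K
    have h2 : ((K : ℤ) : ℝ) ≤ ((φ K : ℤ) : ℝ) := by exact_mod_cast h1
    simp only [mm, Int.cast_mul, Int.cast_ofNat, Int.cast_add, Int.cast_one, Int.cast_natCast] at *
    linarith
  have hl : ∀ l, Tendsto (fun K => pt (φ K) l) atTop (𝓝[RowsDom n ×ˢ Cube n] x) := by
    intro l
    refine tendsto_nhdsWithin_iff.2 ⟨?_, Eventually.of_forall fun K => hmem _ l⟩
    refine Tendsto.prodMk_nhds ?_ ?_
    · refine tendsto_pi_nhds.2 fun i => tendsto_pi_nhds.2 fun j => ?_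
      have hc : Continuous fun y : (Fin n → Fin n → ℝ) × (Fin n → ℝ) => y.1 i j := by fun_prop
      have h0 : Tendsto (fun K => rA (φ K) (v (φ K) 0) i j) atTop (𝓝 (x.1 i j)) :=
        (hc.tendsto x).comp hlim
      refine tendsto_of_tendsto_of_dist h0 (squeeze_zero (fun K => dist_nonneg) (fun K => ?_) hsmall)
      rw [dist_comm, Real.dist_eq]
      exact rA_close (hflag _) l i j
    · refine tendsto_pi_nhds.2 fun q => ?_
      have hc : Continuous fun y : (Fin n → Fin n → ℝ) × (Fin n → ℝ) => y.2 q := by fun_prop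
      have h0 : Tendsto (fun K => rQ (φ K) (v (φ K) 0) q) atTop (𝓝 (x.2 q)) :=
        (hc.tendsto x).comp hlim
      refine tendsto_of_tendsto_of_dist h0 (squeeze_zero (fun K => dist_nonneg) (fun K => ?_) hsmall)
      rw [dist_comm, Real.dist_eq]
      exact rQ_close (hflag _) l q
  have hzero : ∀ s, val O g s x = 0 := by
    intro s
    have hcont : ContinuousWithinAt (val O g s) (RowsDom n ×ˢ Cube n) x := by
      rcases s with p | q
      · exact hO p.1.1 p.1.2 p.2 x hx
      · exact hg q x hx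
    set k := (slot n).symm s with hk
    have hs : slot n k = s := by simp [hk]
    have h2 : Tendsto (fun K => val O g s (pt (φ K) k.castSucc) * val O g s (pt (φ K) k.succ)) atTop
        (𝓝 (val O g s x * val O g s x)) :=
      (hcont.tendsto.comp (hl _)).mul (hcont.tendsto.comp (hl _))
    have h3 : val O g s x * val O g s x ≤ 0 :=
      le_of_tendsto' h2 fun K => hs ▸ hprod (φ K) k
    exact mul_self_eq_zero.1 (le_antisymm h3 (mul_self_nonneg _))
  exact ⟨x.1, hx.1, x.2, hx.2, fun i j hij => hzero (Sum.inl ⟨(i, j), hij⟩),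
    fun i => hzero (Sum.inr i)⟩

end main

end Vale.Agent.P371.Lift.Sign

namespace Vale.Agent.P371.Lift

open Finset Sign

variable {n : ℕ}

/-- the weight of a row by stick breaking -/
def stick (q : Fin n → ℝ) (i : Fin n) : ℝ :=
  (if (i : ℕ) + 1 = n then 1 else q i) * ∏ j ∈ Iio i, (1 - q j)

/-- rows and weights to an array -/
def wArr (a : Fin n → Fin n → ℝ) (q : Fin n → ℝ) : Fin n → Fin n → ℝ := fun i j => stick q i * a i j

/-- the Frobenius norm -/
noncomputable def frob (B : Fin n → Fin n → ℝ) : ℝ := Real.sqrt (∑ i, ∑ j, B i j ^ 2)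

/-- normalisation -/
noncomputable def normArr (B : Fin n → Fin n → ℝ) : Fin n → Fin n → ℝ := fun i j => B i j / frob B

lemma exists_stick (hn : 0 < n) (q : Fin n → ℝ) : ∃ i, stick q i ≠ 0 := by
  set l : Fin n := ⟨n - 1, by omega⟩ with hl
  by_cases h : (univ.filter fun i : Fin n => (i : ℕ) + 1 ≠ n ∧ q i = 1).Nonempty
  · set i := (univ.filter fun i : Fin n => (i : ℕ) + 1 ≠ n ∧ q i = 1).min' h with hi
    obtain ⟨h1, h2⟩ := (Finset.mem_filter.1 (Finset.min'_mem _ h)).2
    refine ⟨i, ?_⟩
    rw [← hi] at h1 h2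
    simp only [stick, if_neg h1, h2, one_mul]
    refine Finset.prod_ne_zero_iff.2 fun j hj e => ?_
    rw [Finset.mem_Iio, Fin.lt_def] at hj
    have : i ≤ j := Finset.min'_le _ j (Finset.mem_filter.2
      ⟨Finset.mem_univ j, by omega, by linarith⟩)
    rw [Fin.le_def] at this
    omega
  · refine ⟨l, ?_⟩
    simp only [stick, if_pos (by simp [hl]; omega : (l : ℕ) + 1 = n), one_mul]
    refine Finset.prod_ne_zero_iff.2 fun j hj e => h ⟨j, Finset.mem_filter.2 ⟨Finset.mem_univ j, ?_, by linarith⟩⟩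
    rw [Finset.mem_Iio, Fin.lt_def] at hj
    simp [hl] at hj
    omega

lemma frob_wArr_pos (hn : 0 < n) {a : Fin n → Fin n → ℝ} (ha : a ∈ RowsDom n) (q : Fin n → ℝ) :
    0 < frob (wArr a q) := by
  obtain ⟨i, hi⟩ := exists_stick hn q
  obtain ⟨j, hj⟩ := ha.2.2 i
  refine Real.sqrt_pos.2 ?_
  have hne : wArr a q i j ≠ 0 := mul_ne_zero hi (fun e => by simp [e] at hj)
  refine Finset.sum_pos' (fun i _ => Finset.sum_nonneg fun j _ => sq_nonneg _)
    ⟨i, Finset.mem_univ i, Finset.sum_pos' (fun j _ => sq_nonneg _) ⟨j, Finset.mem_univ j, by positivity⟩⟩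

/-- The equivariant zero theorem: some triangular array makes `S` a multiple of the identity. -/
theorem equivariant_zero {n : ℕ} (S : (Fin n → Fin n → ℝ) → RMat n) (hn : 0 < n)
    (hS : ContinuousOn S (Dom n)) (hsym : ∀ A ∈ Dom n, (S A).IsSymm)
    (hflip : ∀ A ∈ Dom n, ∀ i, S (flipRow i A) = flipConj i (S A))
    (hle : ∀ A ∈ Dom n, ∀ i, S A i i ≤ 1)
    (hdead : ∀ A ∈ Dom n, ∀ i, (∀ k, A i k = 0) → S A i i = 1) :
    ∃ A ∈ Dom n, (∀ i j, i ≠ j → S A i j = 0) ∧ ∀ i j, S A i i = S A j j := by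
  set T : (Fin n → Fin n → ℝ) → (Fin n → ℝ) → Fin n → Fin n → ℝ :=
    fun a q => normArr (wArr a q) with hT
  have hTmem : ∀ a ∈ RowsDom n, ∀ q, T a q ∈ Dom n := by
    intro a ha q
    refine ⟨fun i j hij => by simp [hT, normArr, wArr, ha.1 i j hij], ?_⟩
    simp only [hT, normArr, div_pow, ← Finset.sum_div]
    rw [frob, Real.sq_sqrt (Finset.sum_nonneg fun i _ => Finset.sum_nonneg fun j _ => sq_nonneg _)]
    exact div_self (Real.sqrt_pos.1 (frob_wArr_pos hn ha q)).ne'
  have hTflip : ∀ a q k, T (negRow k a) q = flipRow k (T a q) := by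
    intro a q k
    have hw : ∀ i j, wArr (negRow k a) q i j = sgnAt k i * wArr a q i j := fun i j => by
      simp only [wArr, negRow, sgnAt]
      split_ifs <;> ring
    have hf : frob (wArr (negRow k a) q) = frob (wArr a q) := by
      simp only [frob, hw]
      congr 1
      refine Finset.sum_congr rfl fun i _ => Finset.sum_congr rfl fun j _ => ?_
      simp only [sgnAt]
      split_ifs <;> ring
    funext i j
    simp only [hT, normArr, flipRow, hf, hw, mul_div_assoc]
  set O : (Fin n → Fin n → ℝ) → (Fin n → ℝ) → Fin n → Fin n → ℝ :=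
    fun a q i j => S (T a q) i j with hO
  set g : (Fin n → Fin n → ℝ) → (Fin n → ℝ) → Fin n → ℝ := fun a q i =>
    if (i : ℕ) + 1 = n then 1 / 2 - q i
    else ((Ioi i).card : ℝ) * S (T a q) i i - ∑ j ∈ Ioi i, S (T a q) j j with hg
  have hcontT : ContinuousOn (fun x : (Fin n → Fin n → ℝ) × (Fin n → ℝ) => T x.1 x.2)
      (RowsDom n ×ˢ Cube n) := by
    have hw : Continuous fun x : (Fin n → Fin n → ℝ) × (Fin n → ℝ) => wArr x.1 x.2 := by
      refine continuous_pi fun i => continuous_pi fun j => ?_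
      simp only [wArr, stick]
      refine Continuous.mul (Continuous.mul ?_ (continuous_finsetProd _ fun k _ =>
        continuous_const.sub ((continuous_apply k).comp continuous_snd))) ?_
      · by_cases h : (i : ℕ) + 1 = n
        · simpa [h] using continuous_const
        · simp only [if_neg h]; fun_prop
      · exact (continuous_apply j).comp ((continuous_apply i).comp continuous_fst)
    refine continuousOn_pi.2 fun i => continuousOn_pi.2 fun j => ?_
    have hij : Continuous fun x : (Fin n → Fin n → ℝ) × (Fin n → ℝ) => wArr x.1 x.2 i j :=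
      (continuous_apply j).comp ((continuous_apply i).comp hw)
    refine hij.continuousOn.div (Continuous.continuousOn ?_) fun x hx => (frob_wArr_pos hn hx.1 x.2).ne'
    exact Real.continuous_sqrt.comp (continuous_finsetSum _ fun k _ => continuous_finsetSum _ fun l _ =>
      (((continuous_apply l).comp ((continuous_apply k).comp hw))).pow 2)
  have hcS : ∀ i j, ContinuousOn (fun x : (Fin n → Fin n → ℝ) × (Fin n → ℝ) => S (T x.1 x.2) i j)
      (RowsDom n ×ˢ Cube n) := fun i j =>
    continuousOn_pi.1 (continuousOn_pi.1 (hS.comp hcontT fun x hx => hTmem _ hx.1 _) i) j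
  obtain ⟨a, ha, q, hq, hoff, hdiag⟩ := sign_lemma (O := O) (g := g)
    (fun a ha q _ k i j hji => by
      have hne : j ≠ i := hji.ne
      simp only [hO, hTflip, hflip _ (hTmem a ha q), flipConj, Matrix.of_apply, sgnAt]
      by_cases h1 : i = k
      · subst h1; simp [hne]
      · by_cases h2 : j = k
        · subst h2; simp [h1]
        · simp [h1, h2, Ne.symm h1, Ne.symm h2])
    (fun a ha q _ k i => by
      have hd : ∀ j, S (T (negRow k a) q) j j = S (T a q) j j := fun j => by
        rw [hTflip, hflip _ (hTmem a ha q)]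
        simp only [flipConj, Matrix.of_apply, sgnAt]
        split_ifs <;> ring
      simp only [hg, hd])
    (fun a ha q _ i hi => by
      simp only [hg]
      split_ifs with h
      · rw [hi]; norm_num
      · rw [hdead _ (hTmem a ha q) i fun k => by simp [hT, normArr, wArr, stick, h, hi], mul_one, sub_nonneg]
        calc ∑ j ∈ Ioi i, S (T a q) j j ≤ ∑ j ∈ Ioi i, (1 : ℝ) :=
              Finset.sum_le_sum fun j _ => hle _ (hTmem a ha q) j
          _ = _ := by simp)
    (fun a ha q _ i hi => by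
      simp only [hg]
      split_ifs with h
      · rw [hi]; norm_num
      · have e : ∀ j ∈ Ioi i, S (T a q) j j = 1 := fun j hj => by
          refine hdead _ (hTmem a ha q) j fun k => ?_
          have : ∏ l ∈ Iio j, (1 - q l) = 0 :=
            Finset.prod_eq_zero (Finset.mem_Iio.2 (Finset.mem_Ioi.1 hj)) (by rw [hi]; ring)
          simp [hT, normArr, wArr, stick, this]
        rw [Finset.sum_congr rfl e, Finset.sum_const, nsmul_eq_mul, mul_one]
        nlinarith [hle _ (hTmem a ha q) i, (Nat.cast_nonneg (Ioi i).card : (0 : ℝ) ≤ _)])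
    (fun i j _ => hcS i j)
    (fun i => by
      simp only [hg]
      by_cases h : (i : ℕ) + 1 = n
      · simp only [if_pos h]
        exact (continuous_const.sub ((continuous_apply i).comp continuous_snd)).continuousOn
      · simp only [if_neg h]
        exact (continuousOn_const.mul (hcS i i)).sub (continuousOn_finsetSum _ fun j _ => hcS j j))
  have hA := hTmem a ha q
  refine ⟨T a q, hA, fun i j hij => ?_, ?_⟩
  · rcases lt_or_gt_of_ne hij with h | h
    · exact (hsym _ hA).apply i j ▸ hoff j i h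
    · exact hoff i j h
  · set l : Fin n := ⟨n - 1, by omega⟩ with hl
    suffices h : ∀ d : ℕ, ∀ i : Fin n, n - 1 - (i : ℕ) = d → S (T a q) i i = S (T a q) l l from
      fun i j => (h _ i rfl).trans (h _ j rfl).symm
    intro d
    induction d using Nat.strong_induction_on with
    | _ d ih =>
      intro i hi
      by_cases hlast : (i : ℕ) + 1 = n
      · rw [show i = l from Fin.ext (by simp [hl]; omega)]
      · have h0 := hdiag i
        simp only [hg, if_neg hlast] at h0
        have e : ∀ j ∈ Ioi i, S (T a q) j j = S (T a q) l l := fun j hj => by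
          have := Finset.mem_Ioi.1 hj
          rw [Fin.lt_def] at this
          exact ih (n - 1 - (j : ℕ)) (by omega) j rfl
        rw [Finset.sum_congr rfl e, Finset.sum_const, nsmul_eq_mul, ← mul_sub, mul_eq_zero] at h0
        rcases h0 with h0 | h0
        · exfalso
          have hlI : l ∈ Ioi i := Finset.mem_Ioi.2 (Fin.lt_def.2 (by simp [hl]; omega))
          simp only [Nat.cast_eq_zero, Finset.card_eq_zero] at h0
          simp [h0] at hlI
        · linarith

end Vale.Agent.P371.Lift
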