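import Vale.Agent.P371.Lift.Riccati

/-!
# P371: the critical coupling of the lift
-/

namespace Vale.Agent.P371.Lift

open Matrix Set MeasureTheory Filter
open scoped Topology NNReal

variable {n : ℕ} {κ : Fin n → ℝ} {a b s : ℝ} {V R : ℝ → RMat n}

theorem isSymm_of_posSemidef {M : RMat n} (h : M.PosSemidef) : M.IsSymm := h.1

/-- The bound on a coupling given by a trial function vanishing at both ends. -/
theorem test_le (hab : a < b) (hV : Continuous V) (h : IsRiccati κ a b s V R)
    (hR : ∀ x ∈ Icc a b, (R x).IsSymm) (g dg : Fin n → ℝ → ℝ)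
    (hg : ∀ i x, HasDerivAt (g i) (dg i x) x) (hdg : ∀ i, Continuous (dg i))
    (ha : ∀ i, g i a = 0) (hb : ∀ i, g i b = 0) :
    s * (∫ x in a..b, (fun i => g i x) ⬝ᵥ V x *ᵥ fun i => g i x) ≤ energy κ a b g dg := by
  have hgc : ∀ i, Continuous (g i) := fun i =>
    continuous_iff_continuousAt.2 fun x => (hg i x).continuousAt
  have hp := picone (u := fun x i => g i x) (du := fun x i => dg i x) hab.le hV h hR
    (fun x _ i => (hg i x).hasDerivWithinAt) (fun i => (hdg i).continuousOn)
  have e0 : (fun i => g i a) = 0 := funext ha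
  have e1 : (fun i => g i b) = 0 := funext hb
  simp only [e0, e1, zero_dotProduct, sub_zero, add_zero] at hp
  have h0 : 0 ≤ ∫ x in a..b, ∑ i, (dg i x - (R x *ᵥ fun j => g j x) i) ^ 2 :=
    intervalIntegral.integral_nonneg hab.le fun x _ => Finset.sum_nonneg fun i _ => sq_nonneg _
  rw [← hp] at h0
  have c1 : IntervalIntegrable (fun x => ∑ i, (dg i x ^ 2 + κ i ^ 2 * g i x ^ 2)) volume a b :=
    (continuous_finsetSum _ fun i _ => ((hdg i).pow 2).add
      (continuous_const.mul ((hgc i).pow 2))).intervalIntegrable a b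
  have c2 : IntervalIntegrable (fun x => s * ((fun i => g i x) ⬝ᵥ V x *ᵥ fun i => g i x))
      volume a b :=
    (continuousOn_const.mul (continuousOn_quad (fun i j => (hV.matrix_elem i j).continuousOn)
      fun i => (hgc i).continuousOn)).intervalIntegrable_of_Icc hab.le
  simp only [qDens] at h0
  rw [intervalIntegral.integral_sub c1 c2, intervalIntegral.integral_const_mul] at h0
  simpa [energy] using sub_nonneg.1 h0

theorem IsCrit.symm (h : IsCrit κ a b V s R) : ∀ x ∈ Icc a b, (R x).IsSymm := fun x hx => by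
  have h2 := (h.2.2.1 x hx).2.1
  have h3 : (kd κ + R x - kd κ).IsHermitian := h2.sub (isHermitian_diagonal _)
  rwa [add_sub_cancel_left] at h3

/-- A test function bounds the critical coupling. -/
theorem crit_test {n : ℕ} (κ : Fin n → ℝ) (a b : ℝ) (V : ℝ → RMat n) (s : ℝ) (R : ℝ → RMat n)
    (g dg : Fin n → ℝ → ℝ) (hab : a < b) (_hκ : ∀ i, 0 < κ i) (hV : Continuous V)
    (h : IsCrit κ a b V s R) (hg : ∀ i x, HasDerivAt (g i) (dg i x) x)
    (hdg : ∀ i, Continuous (dg i)) (ha : ∀ i, g i a = 0) (hb : ∀ i, g i b = 0) :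
    s * (∫ x in a..b, (fun i => g i x) ⬝ᵥ V x *ᵥ fun i => g i x) ≤ energy κ a b g dg :=
  test_le hab hV h.2.1 h.symm g dg hg hdg ha hb

/-- The entries of a critical path are bounded. -/
theorem IsCrit.abs_le (h : IsCrit κ a b V s R) :
    ∀ x ∈ Icc a b, ∀ i j, |R x i j| ≤ boxB κ := fun x hx i j =>
  (box_abs_le (h.2.2.1 x hx).1 (h.2.2.1 x hx).2 i j).trans (by linarith)

/-- A path in the box cannot have a larger coupling than a critical one. -/
theorem le_of_crit (hab : a < b) (hκ : ∀ i, 0 < κ i) (hV : Continuous V)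
    (hpsd : ∀ x, (V x).PosSemidef) (h : IsCrit κ a b V s R) {s' : ℝ} {R' : ℝ → RMat n}
    (h' : IsRiccati κ a b s' V R') (hR' : ∀ x ∈ Icc a b, (R' x).IsSymm)
    (hb' : (kd κ + R' b).PosSemidef) : s' ≤ s := by
  by_contra hlt
  rw [not_le] at hlt
  obtain ⟨z, hz0, hz⟩ := exists_mulVec_eq_zero_iff.2 h.2.2.2
  obtain ⟨u, hub, hu⟩ := exists_linear hab.le R h.2.1.continuousOn z
  have huc : ∀ i, ContinuousOn (fun x => u x i) (Icc a b) := fun i x hx =>
    (hu x hx i).continuousWithinAt
  set du : ℝ → Fin n → ℝ := fun x => R x *ᵥ u x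
  have hdu : ∀ i, ContinuousOn (fun x => du x i) (Icc a b) := fun i => by
    simp only [du, mulVec, dotProduct]
    exact continuousOn_finsetSum _ fun j _ => (h.2.1.continuousOn i j).mul (huc j)
  have hp := picone (du := du) hab.le hV h.2.1 h.symm hu hdu
  have hp' := picone (du := du) hab.le hV h' hR' hu hdu
  simp only [du, sub_self, ne_eq, OfNat.ofNat_ne_zero, not_false_eq_true, zero_pow,
    Finset.sum_const_zero, intervalIntegral.integral_zero, zero_add] at hp
  rw [h.2.1.1] at hp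
  rw [h'.1] at hp'
  have hsq : 0 ≤ ∫ x in a..b, ∑ i, (du x i - (R' x *ᵥ u x) i) ^ 2 :=
    intervalIntegral.integral_nonneg hab.le fun x _ => Finset.sum_nonneg fun i _ => sq_nonneg _
  have hf : ContinuousOn (fun x => u x ⬝ᵥ (V x *ᵥ u x)) (Icc a b) :=
    continuousOn_quad (fun i j => (hV.matrix_elem i j).continuousOn) huc
  have hc : ContinuousOn (fun x => ∑ i, (du x i ^ 2 + κ i ^ 2 * u x i ^ 2)) (Icc a b) :=
    continuousOn_finsetSum _ fun i _ =>
      ((hdu i).pow 2).add (continuousOn_const.mul ((huc i).pow 2))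
  have hsplit : ∀ σ : ℝ, ∫ x in a..b, qDens κ σ V u du x =
      (∫ x in a..b, ∑ i, (du x i ^ 2 + κ i ^ 2 * u x i ^ 2)) -
        σ * ∫ x in a..b, u x ⬝ᵥ (V x *ᵥ u x) := fun σ => by
    simp only [qDens]
    rw [intervalIntegral.integral_sub (hc.intervalIntegrable_of_Icc hab.le)
      ((hf.intervalIntegrable_of_Icc hab.le).const_mul σ), intervalIntegral.integral_const_mul]
  rw [hsplit] at hp hp'
  have hbz : R b *ᵥ z = -(kd κ *ᵥ z) := eq_neg_of_add_eq_zero_left (by rwa [← add_mulVec])
  have hb2 := hb'.dotProduct_mulVec_nonneg z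
  rw [star_trivial, add_mulVec, dotProduct_add] at hb2
  rw [hub, hbz, dotProduct_neg] at hp
  rw [hub] at hp'
  have hvn : ∀ x, 0 ≤ u x ⬝ᵥ (V x *ᵥ u x) := fun x => by
    simpa using (hpsd x).dotProduct_mulVec_nonneg (u x)
  have hint0 : ∫ x in a..b, u x ⬝ᵥ (V x *ᵥ u x) = 0 := by
    have h1 : 0 ≤ ∫ x in a..b, u x ⬝ᵥ (V x *ᵥ u x) :=
      intervalIntegral.integral_nonneg hab.le fun x _ => hvn x
    nlinarith
  have hzero : ∀ x ∈ Icc a b, u x ⬝ᵥ (V x *ᵥ u x) = 0 := by
    by_contra hne
    simp only [not_forall] at hne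
    obtain ⟨x, hx, hne⟩ := hne
    have := intervalIntegral.integral_pos hab hf (fun y _ => hvn y)
      ⟨x, hx, lt_of_le_of_ne (hvn x) (Ne.symm hne)⟩
    linarith
  have hVu : ∀ x ∈ Icc a b, V x *ᵥ u x = 0 := fun x hx =>
    ((hpsd x).dotProduct_mulVec_zero_iff (u x)).1 (by simpa using hzero x hx)
  refine hz0 (funext fun i => ?_)
  set φ : ℝ → ℝ := fun x => Real.exp (κ i * x) * ((R x *ᵥ u x) i - κ i * u x i)
  have hφ : ∀ x ∈ Icc a b, HasDerivWithinAt φ 0 (Icc a b) x := by
    intro x hx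
    have hd : HasDerivWithinAt (fun y => (R y *ᵥ u y) i) (κ i ^ 2 * u x i) (Icc a b) x := by
      simp only [mulVec, dotProduct]
      refine (HasDerivWithinAt.fun_sum fun j _ =>
        (h.2.1.2 x hx i j).mul (hu x hx j)).congr_deriv ?_
      rw [Finset.sum_add_distrib]
      change ((ld κ - R x * R x - s • V x) *ᵥ u x) i + (R x *ᵥ (R x *ᵥ u x)) i = _
      rw [sub_mulVec, sub_mulVec, smul_mulVec, hVu x hx, smul_zero, sub_zero, mulVec_mulVec,
        Pi.sub_apply, sub_add_cancel, ld, mulVec_diagonal]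
    refine ((((hasDerivWithinAt_id x _).const_mul (κ i)).exp).mul
      (hd.sub ((hu x hx i).const_mul (κ i)))).congr_deriv ?_
    simp only [Pi.sub_apply, id_eq]
    ring
  have hconst := constant_of_has_deriv_right_zero
    (fun x hx => (hφ x hx).continuousWithinAt)
    (fun x hx => (hφ x (Ico_subset_Icc_self hx)).mono_of_mem_nhdsWithin
      (Filter.mem_of_superset (Icc_mem_nhdsGE hx.2) (Icc_subset_Icc_left hx.1)))
    b (right_mem_Icc.2 hab.le)
  simp only [φ, h.2.1.1, hub, hbz, kd, mulVec_diagonal, sub_self, mul_zero, Pi.neg_apply] at hconst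
  rcases mul_eq_zero.1 hconst with hh | hh
  · exact absurd hh (Real.exp_pos _).ne'
  · simp only [Pi.zero_apply]
    have : κ i * z i = 0 := by linarith
    exact (mul_eq_zero.1 this).resolve_left (hκ i).ne'

/-- The critical coupling and its path are unique. -/
theorem crit_unique {n : ℕ} (κ : Fin n → ℝ) (a b : ℝ) (V : ℝ → RMat n) (s s' : ℝ)
    (R R' : ℝ → RMat n) (hab : a < b) (hκ : ∀ i, 0 < κ i) (hV : Continuous V)
    (hpsd : ∀ x, (V x).PosSemidef) (h : IsCrit κ a b V s R) (h' : IsCrit κ a b V s' R') :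
    s = s' ∧ EqOn R R' (Icc a b) := by
  have hb := right_mem_Icc.2 hab.le
  have e : s = s' := le_antisymm
    (le_of_crit hab hκ hV hpsd h' h.2.1 h.symm (h.2.2.1 b hb).2)
    (le_of_crit hab hκ hV hpsd h h'.2.1 h'.symm (h'.2.2.1 b hb).2)
  subst e
  exact ⟨rfl, fun x hx => solvesOn_unique (fun t _ => ricF_lipschitz κ s V t)
    (h.2.1.solvesOn h.abs_le) (h'.2.1.solvesOn h'.abs_le) (h.2.1.1.trans h'.2.1.1.symm) hx⟩

theorem flipConj_eq (i : Fin n) (M : RMat n) :
    flipConj i M = diagonal (sgnAt i) * M * diagonal (sgnAt i) := by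
  ext j l
  simp only [flipConj, of_apply, diagonal_mul, mul_diagonal]
  ring

theorem sgnAt_mul_self (i j : Fin n) : sgnAt i j * sgnAt i j = 1 := by
  unfold sgnAt; split_ifs <;> norm_num

theorem flipConj_diagonal (i : Fin n) (d : Fin n → ℝ) : flipConj i (diagonal d) = diagonal d := by
  rw [flipConj_eq, diagonal_mul_diagonal, diagonal_mul_diagonal]
  congr 1
  funext j
  rw [mul_comm (sgnAt i j), mul_assoc, sgnAt_mul_self, mul_one]

theorem flipConj_mul (i : Fin n) (M N : RMat n) :
    flipConj i (M * N) = flipConj i M * flipConj i N := by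
  have h : diagonal (sgnAt i) * diagonal (sgnAt i) = (1 : RMat n) := by
    rw [diagonal_mul_diagonal, ← diagonal_one]
    exact congrArg _ (funext (sgnAt_mul_self i))
  simp only [flipConj_eq]
  calc diagonal (sgnAt i) * (M * N) * diagonal (sgnAt i)
      = diagonal (sgnAt i) * M * 1 * N * diagonal (sgnAt i) := by simp [mul_assoc]
    _ = _ := by rw [← h]; simp only [mul_assoc]

theorem flipConj_posSemidef (i : Fin n) {M : RMat n} (h : M.PosSemidef) :
    (flipConj i M).PosSemidef := by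
  rw [flipConj_eq]
  simpa using h.mul_mul_conjTranspose_same (diagonal (sgnAt i))

theorem flipConj_add (i : Fin n) (M N : RMat n) :
    flipConj i (M + N) = flipConj i M + flipConj i N := by
  simp only [flipConj_eq, mul_add, add_mul]

theorem flipConj_sub (i : Fin n) (M N : RMat n) :
    flipConj i (M - N) = flipConj i M - flipConj i N := by
  simp only [flipConj_eq, mul_sub, sub_mul]

/-- Flipping a channel carries critical data to critical data. -/
theorem crit_flip {n : ℕ} (κ : Fin n → ℝ) (a b : ℝ) (V : ℝ → RMat n) (s : ℝ) (R : ℝ → RMat n)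
    (i : Fin n) (h : IsCrit κ a b V s R) :
    IsCrit κ a b (fun x => flipConj i (V x)) s fun x => flipConj i (R x) := by
  have hk : flipConj i (kd κ) = kd κ := flipConj_diagonal i κ
  have hl : flipConj i (ld κ) = ld κ := flipConj_diagonal i _
  refine ⟨h.1, ⟨by simp only [h.2.1.1, hk], fun x hx j l => ?_⟩, fun x hx => ⟨?_, ?_⟩, ?_⟩
  · have e : ld κ - flipConj i (R x) * flipConj i (R x) - s • flipConj i (V x) =
        flipConj i (ld κ - R x * R x - s • V x) := by
      simp only [flipConj_sub, hl, flipConj_mul]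
      simp only [flipConj_eq, mul_smul_comm, smul_mul_assoc]
    rw [e]
    exact (h.2.1.2 x hx j l).const_mul (sgnAt i j * sgnAt i l)
  · rw [← hk, ← flipConj_sub]; exact flipConj_posSemidef i (h.2.2.1 x hx).1
  · rw [← hk, ← flipConj_add]; exact flipConj_posSemidef i (h.2.2.1 x hx).2
  · rw [← hk, ← flipConj_add, flipConj_eq, det_mul, det_mul, h.2.2.2, mul_zero, zero_mul]

/-- A channel without coupling keeps its free value. -/
theorem crit_dead {n : ℕ} (κ : Fin n → ℝ) (a b : ℝ) (V : ℝ → RMat n) (s : ℝ) (R : ℝ → RMat n)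
    (i : Fin n) (hab : a < b) (_hκ : ∀ i, 0 < κ i) (_hV : Continuous V)
    (_hpsd : ∀ x, (V x).PosSemidef) (hz : ∀ x j, V x i j = 0) (h : IsCrit κ a b V s R) :
    R b i i = κ i := by
  set r : ℝ → Fin n → ℝ := fun x j => R x i j - kd κ i j
  set r' : ℝ → Fin n → ℝ := fun x j => -(κ i * r x j) - ∑ l, r x l * R x l j
  have hd : ∀ x ∈ Icc a b, HasDerivWithinAt r (r' x) (Icc a b) x := fun x hx =>
    hasDerivWithinAt_pi.2 fun j => by
      refine ((h.2.1.2 x hx i j).sub_const (kd κ i j)).congr_deriv ?_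
      simp only [r', r, Matrix.sub_apply, Matrix.smul_apply, Matrix.mul_apply, hz, smul_zero,
        sub_zero, sub_mul, Finset.sum_sub_distrib]
      rcases eq_or_ne i j with rfl | hij
      · simp [kd, ld, diagonal_apply, Finset.sum_ite_eq, ite_mul]
        ring
      · simp [kd, ld, diagonal_apply, Finset.sum_ite_eq, ite_mul, hij]
        ring
  have hz0 := eq_zero_of_abs_deriv_le_mul_abs_self_of_eq_zero_right
    (K := |κ i| + n * boxB κ) (fun x hx => (hd x hx).continuousWithinAt)
    (fun x hx => (hd x (Ico_subset_Icc_self hx)).mono_of_mem_nhdsWithin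
      (Filter.mem_of_superset (Icc_mem_nhdsGE hx.2) (Icc_subset_Icc_left hx.1)))
    (funext fun j => by simp [r, h.2.1.1]) (fun x hx => ?_) b (right_mem_Icc.2 hab.le)
  · have := congrFun hz0 i
    simp only [r, kd, diagonal_apply_eq, Pi.zero_apply] at this
    linarith
  · have hB := (boxB_pos κ).le
    refine (pi_norm_le_iff_of_nonneg (by positivity)).2 fun j => ?_
    rw [Real.norm_eq_abs]
    refine (abs_sub _ _).trans ?_
    rw [add_mul]
    refine add_le_add ?_ ?_
    · rw [abs_neg, abs_mul]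
      exact mul_le_mul_of_nonneg_left (norm_le_pi_norm (r x) j) (abs_nonneg _)
    · refine (Finset.abs_sum_le_sum_abs _ _).trans ?_
      calc _ ≤ ∑ _l : Fin n, ‖r x‖ * boxB κ := Finset.sum_le_sum fun l _ => by
            rw [abs_mul]
            exact mul_le_mul (norm_le_pi_norm (r x) l)
              (h.abs_le x (Ico_subset_Icc_self hx) l j) (abs_nonneg _) (norm_nonneg _)
        _ = _ := by rw [Finset.sum_const, Finset.card_univ, Fintype.card_fin, nsmul_eq_mul]; ring

/-- A positive matrix stays nonnegative under small changes of its entries. -/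
theorem posSemidef_nearby {M : RMat n} (hM : M.PosDef) :
    ∃ η, 0 < η ∧ ∀ N : RMat n, N.IsSymm → (∀ i j, |N i j - M i j| ≤ η) → N.PosSemidef := by
  set S : Set (Fin n → ℝ) := Metric.sphere 0 1
  have hc : Continuous fun x : Fin n → ℝ => x ⬝ᵥ (M *ᵥ x) := by
    simp only [dotProduct, mulVec]; fun_prop
  obtain ⟨c, hc0, hcl⟩ : ∃ c, 0 < c ∧ ∀ x ∈ S, c ≤ x ⬝ᵥ (M *ᵥ x) := by
    rcases S.eq_empty_or_nonempty with he | hne
    · exact ⟨1, one_pos, fun x hx => by simp [he] at hx⟩
    · obtain ⟨x, hx, hmin⟩ := (isCompact_sphere _ _).exists_isMinOn hne hc.continuousOn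
      refine ⟨_, ?_, fun y hy => hmin hy⟩
      have hx0 : x ≠ 0 := fun h => by simp [h] at hx
      simpa using hM.dotProduct_mulVec_pos hx0
  refine ⟨c / ((n : ℝ) * n + 1), by positivity, fun N hN hnear => ?_⟩
  refine PosSemidef.of_dotProduct_mulVec_nonneg hN fun y => ?_
  rw [star_trivial]
  rcases eq_or_ne y 0 with rfl | hy
  · simp
  set x := ‖y‖⁻¹ • y with hx
  have hxS : x ∈ S := by simp [S, x, norm_smul, hy]
  have hd : |x ⬝ᵥ ((N - M) *ᵥ x)| ≤ n * n * (c / ((n : ℝ) * n + 1)) := by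
    simp only [dotProduct, mulVec, Finset.mul_sum]
    refine (Finset.abs_sum_le_sum_abs _ _).trans ?_
    calc _ ≤ ∑ _i : Fin n, ∑ _j : Fin n, c / ((n : ℝ) * n + 1) := Finset.sum_le_sum fun i _ =>
          (Finset.abs_sum_le_sum_abs _ _).trans (Finset.sum_le_sum fun j _ => by
            have h1 : ∀ l, |x l| ≤ 1 := fun l =>
              (norm_le_pi_norm x l).trans_eq (mem_sphere_zero_iff_norm.1 hxS)
            rw [abs_mul, abs_mul, Matrix.sub_apply]
            calc |x i| * (|N i j - M i j| * |x j|) ≤ 1 * (|N i j - M i j| * 1) :=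
                  mul_le_mul (h1 i) (mul_le_mul_of_nonneg_left (h1 j) (abs_nonneg _))
                    (by positivity) zero_le_one
              _ ≤ _ := by simpa using hnear i j)
      _ = _ := by simp [Finset.sum_const, mul_assoc]
  have hlt : (n : ℝ) * n * (c / ((n : ℝ) * n + 1)) ≤ c := by
    rw [← mul_div_assoc, div_le_iff₀ (by positivity)]; nlinarith
  have h2 : 0 ≤ x ⬝ᵥ (N *ᵥ x) := by
    have := (abs_le.1 hd).1
    rw [sub_mulVec, dotProduct_sub] at this
    linarith [hcl x hxS]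
  rw [hx, mulVec_smul, smul_dotProduct, dotProduct_smul, smul_smul, smul_eq_mul] at h2
  exact (mul_nonneg_iff_of_pos_left (by positivity)).1 h2

/-- The paths of nearby couplings are uniformly near. -/
theorem cut_near (hV : Continuous V) {R₀ : ℝ → St n} {σ₀ : ℝ}
    (h0 : R₀ a = (kd κ : St n)) (h : SolvesOn (ricF κ σ₀ V) a b R₀) {η : ℝ} (hη : 0 < η) :
    ∃ δ, 0 < δ ∧ ∀ σ, |σ - σ₀| ≤ δ → ∀ R : ℝ → St n, R a = (kd κ : St n) →
      SolvesOn (ricF κ σ V) a b R → ∀ x ∈ Icc a b, ∀ i j, |R x i j - R₀ x i j| ≤ η := by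
  obtain ⟨M, hM0, hM⟩ := potential_bound (a := a) (b := b) hV
  have ht : Tendsto (fun δ => gronwallBound 0 (ricK κ) (δ * M) (b - a)) (𝓝 0) (𝓝 0) := by
    have h := ((gronwallBound_continuous_ε 0 (ricK κ) (b - a)).comp
      (continuous_id.mul continuous_const (g := fun _ => M))).tendsto 0
    simpa [Function.comp_def, gronwallBound_ε0_δ0] using h
  obtain ⟨d, hd, hball⟩ := Metric.eventually_nhds_iff.1 (ht.eventually (eventually_le_nhds hη))
  refine ⟨d / 2, by linarith, fun σ hσ R hR hs x hx i j => ?_⟩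
  have key := dist_solvesOn_le (ε := d / 2 * M) (fun t _ => ricF_lipschitz κ σ₀ V t) h hs
    (h0.trans hR.symm) (fun t ht => by
      rw [dist_eq_norm]
      refine (pi_norm_le_iff_of_nonneg (by positivity)).2 fun p =>
        (pi_norm_le_iff_of_nonneg (by positivity)).2 fun q => ?_
      simp only [Pi.sub_apply, ricF, Real.norm_eq_abs, sub_sub_sub_cancel_left]
      rw [← sub_mul, abs_mul, abs_sub_comm]
      exact mul_le_mul hσ (hM t ht p q) (abs_nonneg _) (by linarith)) hx
  rw [dist_eq_norm] at key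
  have e := (norm_le_pi_norm ((R₀ x - R x) i) j).trans (norm_le_pi_norm (R₀ x - R x) i)
  rw [Pi.sub_apply, Pi.sub_apply, Real.norm_eq_abs, abs_sub_comm] at e
  refine e.trans (key.trans (hball ?_))
  rw [Real.dist_eq, sub_zero, abs_of_pos (by linarith)]
  linarith

/-- There is a critical coupling. -/
theorem exists_crit {n : ℕ} (κ : Fin n → ℝ) (a b : ℝ) (V : ℝ → RMat n) (hab : a < b)
    (hκ : ∀ i, 0 < κ i) (hV : Continuous V) (hpsd : ∀ x, (V x).PosSemidef)
    (hcpl : Coupled a b V) : ∃ s R, IsCrit κ a b V s R := by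
  have hVs : ∀ x, (V x).IsSymm := fun x => isSymm_of_posSemidef (hpsd x)
  choose P hPa hP using fun σ : ℝ => exists_cut hab.le κ σ hV
  set G : Set ℝ := {σ | 0 ≤ σ ∧ ∀ x ∈ Icc a b,
    (kd κ - Matrix.of (P σ x)).PosSemidef ∧ (kd κ + Matrix.of (P σ x)).PosSemidef}
  have hsym : ∀ σ, ∀ x ∈ Icc a b, (Matrix.of (P σ x)).IsSymm := fun σ x hx =>
    IsSymm.ext fun i j => cut_symm hVs (hPa σ) (hP σ) hx i j
  have hric : ∀ σ, (∀ x ∈ Icc a b, ∀ i j, |P σ x i j| ≤ boxB κ) →
      IsRiccati κ a b σ V fun x => Matrix.of (P σ x) := fun σ hB =>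
    isRiccati_of_cut (hPa σ) (hP σ) hB
  have hbox : ∀ σ ∈ G, ∀ x ∈ Icc a b, ∀ i j, |P σ x i j| ≤ boxB κ - 1 := fun σ hσ x hx i j =>
    box_abs_le (R := Matrix.of (P σ x)) (hσ.2 x hx).1 (hσ.2 x hx).2 i j
  have hricG : ∀ σ ∈ G, IsRiccati κ a b σ V fun x => Matrix.of (P σ x) := fun σ hσ =>
    hric σ fun x hx i j => (hbox σ hσ x hx i j).trans (by linarith)
  -- zero coupling
  have hR0 : IsRiccati κ a b 0 V fun _ => kd κ := ⟨rfl, fun x _ i j =>
    (hasDerivWithinAt_const x _ (kd κ i j)).congr_deriv (by simp [kd, ld, sq])⟩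
  have hkk : (kd κ + kd κ).PosDef := by
    rw [kd, diagonal_add]
    exact PosDef.diagonal fun i => by linarith [hκ i]
  have hk0 : ∀ x ∈ Icc a b, P 0 x = (kd κ : St n) := by
    have hb0 : ∀ i j, |kd κ i j| ≤ boxB κ := fun i j =>
      (box_abs_le (by rw [sub_self]; exact PosSemidef.zero) hkk.posSemidef i j).trans
        (by linarith)
    exact fun x hx => solvesOn_unique (fun t _ => ricF_lipschitz κ 0 V t) (hP 0)
      (hR0.solvesOn fun x _ => hb0) (hPa 0) hx
  have h0G : (0 : ℝ) ∈ G := ⟨le_rfl, fun x hx => by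
    rw [hk0 x hx]
    refine ⟨?_, hkk.posSemidef⟩
    rw [show Matrix.of (kd κ : St n) = kd κ from rfl, sub_self]
    exact PosSemidef.zero⟩
  -- upper bound
  have hbdd : BddAbove G := by
    obtain ⟨x₀, hx₀, hne⟩ := hcpl
    obtain ⟨i, hi⟩ : ∃ i, 0 < V x₀ i i := by
      by_contra hcon
      simp only [not_exists, not_lt] at hcon
      refine hne ((hpsd x₀).trace_eq_zero_iff.1 ?_)
      exact Finset.sum_eq_zero fun i _ => le_antisymm (hcon i) (hpsd x₀).diag_nonneg
    set g : Fin n → ℝ → ℝ := fun j x => if j = i then (x - a) * (b - x) else 0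
    set dg : Fin n → ℝ → ℝ := fun j x => if j = i then a + b - 2 * x else 0
    have hg : ∀ j x, HasDerivAt (g j) (dg j x) x := fun j x => by
      by_cases h : j = i
      · simp only [g, dg, if_pos h]
        exact (((hasDerivAt_id x).sub_const a).mul ((hasDerivAt_id x).const_sub b)).congr_deriv
          (by simp; ring)
      · simp only [g, dg, if_neg h]
        exact hasDerivAt_const x 0
    have e : (fun x => (fun j => g j x) ⬝ᵥ V x *ᵥ fun j => g j x) =
        fun x => ((x - a) * (b - x)) ^ 2 * V x i i := by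
      funext x
      simp only [g, dotProduct, mulVec, ite_mul, mul_ite, zero_mul, mul_zero,
        Finset.sum_ite_eq', Finset.mem_univ, if_true]
      ring
    have hfc : Continuous fun x => ((x - a) * (b - x)) ^ 2 * V x i i :=
      (by fun_prop : Continuous fun x : ℝ => ((x - a) * (b - x)) ^ 2).mul (hV.matrix_elem i i)
    have hpos : 0 < ∫ x in a..b, (fun j => g j x) ⬝ᵥ V x *ᵥ fun j => g j x := by
      rw [e]
      refine intervalIntegral.integral_pos hab hfc.continuousOn
        (fun x _ => mul_nonneg (sq_nonneg _) (hpsd x).diag_nonneg)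
        ⟨x₀, Ioo_subset_Icc_self hx₀, mul_pos (pow_pos (mul_pos ?_ ?_) 2) hi⟩
      · linarith [hx₀.1]
      · linarith [hx₀.2]
    refine ⟨energy κ a b g dg / ∫ x in a..b, (fun j => g j x) ⬝ᵥ V x *ᵥ fun j => g j x,
      fun σ hσ => ?_⟩
    rw [le_div_iff₀ hpos]
    refine test_le hab hV (hricG σ hσ) (hsym σ) g dg hg (fun j => ?_) (fun j => by simp [g])
      (fun j => by simp [g])
    by_cases h : j = i
    · simp only [dg, if_pos h]; fun_prop
    · simp only [dg, if_neg h]; exact continuous_const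
  -- closed
  have hcont : ∀ x ∈ Icc a b, ∀ i j, Continuous fun σ => P σ x i j := fun x hx i j =>
    continuous_iff_continuousAt.2 fun σ₀ => Metric.continuousAt_iff.2 fun ε hε => by
      obtain ⟨δ, hδ, hn⟩ := cut_near hV (hPa σ₀) (hP σ₀) (half_pos hε)
      refine ⟨δ, hδ, fun σ hσ => ?_⟩
      rw [Real.dist_eq] at hσ ⊢
      linarith [hn σ hσ.le (P σ) (hPa σ) (hP σ) x hx i j]
  have hclosed : IsClosed G := by
    have : G = Ici 0 ∩ ⋂ x ∈ Icc a b, ⋂ v : Fin n → ℝ,
        {σ | 0 ≤ v ⬝ᵥ ((kd κ - Matrix.of (P σ x)) *ᵥ v) ∧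
          0 ≤ v ⬝ᵥ ((kd κ + Matrix.of (P σ x)) *ᵥ v)} := by
      ext σ
      simp only [G, mem_inter_iff, mem_Ici, mem_iInter, mem_ofPred_eq]
      refine and_congr_right fun _ => forall_congr' fun x => forall_congr' fun hx => ?_
      have hk : (kd κ).IsHermitian := isHermitian_diagonal _
      constructor
      · exact fun h v => ⟨by simpa using h.1.dotProduct_mulVec_nonneg v,
          by simpa using h.2.dotProduct_mulVec_nonneg v⟩
      · exact fun h => ⟨PosSemidef.of_dotProduct_mulVec_nonneg (hk.sub (hsym σ x hx))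
          (by simpa using fun v => (h v).1),
          PosSemidef.of_dotProduct_mulVec_nonneg (hk.add (hsym σ x hx))
          (by simpa using fun v => (h v).2)⟩
    rw [this]
    refine isClosed_Ici.inter (isClosed_biInter fun x hx => isClosed_iInter fun v => ?_)
    have hcm : Continuous fun σ => Matrix.of (P σ x) :=
      continuous_pi fun i => continuous_pi fun j => hcont x hx i j
    exact (isClosed_le continuous_const (continuous_const.dotProduct
      ((continuous_const.sub hcm).matrix_mulVec continuous_const))).inter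
      (isClosed_le continuous_const (continuous_const.dotProduct
        ((continuous_const.add hcm).matrix_mulVec continuous_const)))
  set σ := sSup G
  have hσ : σ ∈ G := hclosed.csSup_mem ⟨0, h0G⟩ hbdd
  have hb := right_mem_Icc.2 hab.le
  have hdet : (Matrix.of (P σ b) + kd κ).det = 0 := by
    by_contra hne
    have hpd : (kd κ + Matrix.of (P σ b)).PosDef := by
      refine ((hσ.2 b hb).2).posDef_iff_isUnit.2 ((isUnit_iff_isUnit_det _).2 ?_)
      rwa [add_comm, isUnit_iff_ne_zero]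
    obtain ⟨η, hη, hnear⟩ := posSemidef_nearby hpd
    obtain ⟨δ, hδ, hn⟩ := cut_near hV (hPa σ) (hP σ) (lt_min hη one_pos)
    have hn' := hn (σ + δ) (by simp [abs_of_pos hδ]) (P (σ + δ)) (hPa _) (hP _)
    have hmem : σ + δ ∈ G := by
      refine ⟨by linarith [hσ.1], box_of_endpoint (by linarith [hσ.1]) hpsd
        (hric _ fun x hx i j => ?_) (hsym _) (hnear _ ?_ fun i j => ?_)⟩
      · linarith [abs_sub_abs_le_abs_sub (P (σ + δ) x i j) (P σ x i j), hn' x hx i j,
          min_le_right η 1, hbox σ hσ x hx i j]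
      · exact IsSymm.add (isSymm_diagonal _) (hsym _ b hb)
      · simpa using (hn' b hb i j).trans (min_le_left _ _)
    linarith [le_csSup hbdd hmem]
  refine ⟨σ, fun x => Matrix.of (P σ x), lt_of_le_of_ne hσ.1 fun h => ?_, hricG σ hσ, hσ.2, hdet⟩
  rw [← h, hk0 b hb] at hdet
  exact hkk.det_pos.ne' hdet

end Vale.Agent.P371.Lift
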