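import Vale.Agent.P371.Lift.Frame
import Vale.Agent.P371.Lift.Threshold
import Vale.Agent.P371.Lift.Continuity
import Vale.Agent.P371.Lift.Sign
import Vale.Agent.P371.Lift.Calculus
import Vale.Agent.P371.Lift.Approx
import Vale.Agent.P371.Calib.Final
import Vale.Agent.P371.Calib.Cont

/-!
# P371: the exact constant for every exponent between one half and three halves
-/

namespace Vale.Agent.P371.Lift

open Matrix MeasureTheory Set Filter
open scoped Topology

variable {n m : ℕ}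

theorem continuous_trP {V : ℝ → RMat n} (hV : Continuous V) (hp : ∀ x, (V x).PosSemidef) {p : ℝ}
    (h0 : 0 ≤ p) : Continuous fun x => trP p (V x) := by
  have hc : Continuous fun x => toC (V x) := continuous_matrix fun i j => by
    exact Complex.continuous_ofReal.comp (hV.matrix_elem i j)
  have h := (Calib.continuousOn_cfc (n := n) (Real.continuous_rpow_const h0).continuousOn
    (s := Ici (0 : ℝ))).comp_continuous hc fun x =>
      Calib.mem_specIn_of_posSemidef (toC_posSemidef (hp x))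
  exact Complex.continuous_re.comp h.matrix_trace

theorem trP_nonneg {A : RMat n} (hA : A.PosSemidef) (p : ℝ) : 0 ≤ trP p A :=
  LT.trPow_nonneg (toC_posSemidef hA) p

theorem isCompact_dom (n : ℕ) : IsCompact (Dom n) := by
  have hb : IsCompact (Icc (fun _ _ => (-1 : ℝ)) (fun _ _ => 1) : Set (Fin n → Fin n → ℝ)) :=
    isCompact_Icc
  refine hb.of_isClosed_subset ?_ fun A hA => ?_
  · have e : Dom n = (⋂ i, ⋂ j, {A : Fin n → Fin n → ℝ | i < j → A i j = 0}) ∩
        {A | ∑ i, ∑ j, A i j ^ 2 = 1} := by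
      ext A; simp [Dom]
    rw [e]
    refine (isClosed_iInter fun i => isClosed_iInter fun j => ?_).inter ?_
    · by_cases h : i < j
      · simpa [h] using isClosed_eq (continuous_apply_apply i j) continuous_const
      · simp [h]
    · exact isClosed_eq (by fun_prop) continuous_const
  · have h1 : ∀ i j, A i j ^ 2 ≤ 1 := fun i j => hA.2 ▸
      ((Finset.single_le_sum (fun k _ => sq_nonneg (A i k)) (Finset.mem_univ j)).trans
        (Finset.single_le_sum (f := fun i => ∑ j, A i j ^ 2)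
          (fun k _ => Finset.sum_nonneg fun l _ => sq_nonneg _) (Finset.mem_univ i)))
    have h2 : ∀ i j, |A i j| ≤ 1 := fun i j => by
      rw [← sq_le_one_iff_abs_le_one]; exact h1 i j
    exact ⟨fun i j => (abs_le.1 (h2 i j)).1, fun i j => (abs_le.1 (h2 i j)).2⟩

theorem flipRow_mem {A : Fin n → Fin n → ℝ} (hA : A ∈ Dom n) (i : Fin n) :
    flipRow i A ∈ Dom n := by
  refine ⟨fun j k h => by simp [flipRow, hA.1 j k h], ?_⟩
  refine Eq.trans (Finset.sum_congr rfl fun j _ => Finset.sum_congr rfl fun k _ => ?_) hA.2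
  simp only [flipRow, sgnAt]
  split_ifs <;> ring

/-- The mismatch at the right end, scaled into `[0, 1]`. -/
noncomputable def misM (κ : Fin n → ℝ) (M : RMat n) : RMat n :=
  Matrix.of fun j k => (M + kd κ) j k / (2 * √(κ j * κ k))

theorem misM_diag {κ : Fin n → ℝ} (hκ : ∀ i, 0 < κ i) (M : RMat n) (i : Fin n) :
    misM κ M i i = (M i i + κ i) / (2 * κ i) := by
  simp [misM, kd, Real.sqrt_mul_self (hκ i).le]

theorem misM_symm {κ : Fin n → ℝ} {M : RMat n} (hM : (kd κ + M).PosSemidef) :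
    (misM κ M).IsSymm := by
  have := hM.isHermitian
  ext j k
  have e := congrFun (congrFun this j) k
  simp only [conjTranspose_apply, star_trivial] at e
  simp only [misM, transpose_apply, of_apply, add_comm M, e, mul_comm (κ k)]

theorem misM_flip {κ : Fin n → ℝ} (M : RMat n) (i : Fin n) :
    misM κ (flipConj i M) = flipConj i (misM κ M) := by
  ext j k
  simp only [misM, flipConj, of_apply, Matrix.add_apply]
  rcases eq_or_ne j k with rfl | hjk
  · simp only [sgnAt]; split_ifs <;> ring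
  · simp [kd, diagonal_apply_ne _ hjk, mul_div_assoc]

theorem misM_le {κ : Fin n → ℝ} (hκ : ∀ i, 0 < κ i) {M : RMat n} (hM : (kd κ - M).PosSemidef)
    (i : Fin n) : misM κ M i i ≤ 1 := by
  have := hM.diag_nonneg (i := i)
  simp only [kd, Matrix.sub_apply, diagonal_apply_eq] at this
  rw [misM_diag hκ, div_le_one (by linarith [hκ i])]
  linarith

theorem eq_neg_kd {κ : Fin n → ℝ} (hκ : ∀ i, 0 < κ i) {M : RMat n}
    (hdet : (M + kd κ).det = 0) (hoff : ∀ i j, i ≠ j → misM κ M i j = 0)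
    (heq : ∀ i j, misM κ M i i = misM κ M j j) : M = -kd κ := by
  have hs : ∀ j k, (2 : ℝ) * √(κ j * κ k) ≠ 0 := fun j k => by
    have := hκ j; have := hκ k; positivity
  have hD : M + kd κ = diagonal fun i => (M + kd κ) i i := by
    ext j k
    rcases eq_or_ne j k with rfl | hjk
    · simp
    · have := hoff j k hjk
      simp only [misM, of_apply, div_eq_zero_iff, hs, or_false] at this
      simp [diagonal_apply_ne _ hjk, this]
  rw [hD, det_diagonal, Finset.prod_eq_zero_iff] at hdet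
  obtain ⟨i0, -, hi0⟩ := hdet
  refine eq_neg_of_add_eq_zero_left ?_
  rw [hD, diagonal_eq_zero]
  funext i
  have e := heq i i0
  simp only [misM, of_apply, hi0, zero_div, div_eq_zero_iff, hs, or_false] at e
  exact e

theorem misM_continuousOn {X : Type*} [TopologicalSpace X] {S : Set X} {κ : Fin n → ℝ}
    {M : X → RMat n} (h : ContinuousOn M S) : ContinuousOn (fun x => misM κ (M x)) S :=
  continuousOn_pi.2 fun j => continuousOn_pi.2 fun k =>
    (((continuousOn_pi.1 (continuousOn_pi.1 h j) k)).add continuousOn_const).div_const _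

/-- The critical data of every triangular combination, continuous at the right end. -/
theorem exists_family {κ : Fin n → ℝ} {a b c ε : ℝ} {W : ℝ → RMat m}
    {Ψ dΨ : ℝ → Matrix (Fin n) (Fin m) ℝ} (h : IsTrial κ a b c W Ψ dΨ) (hε : 0 < ε)
    (hco : ∀ A ∈ Dom n, Coupled a b (liftV ε W Ψ A)) :
    ∃ (s : (Fin n → Fin n → ℝ) → ℝ) (R : (Fin n → Fin n → ℝ) → ℝ → RMat n),
      (∀ A, Continuous (liftV ε W Ψ A)) ∧
      (∀ A ∈ Dom n, IsCrit κ a b (liftV ε W Ψ A) (s A) (R A)) ∧
      ContinuousOn (fun A => R A b) (Dom n) := by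
  have hΨ : Continuous Ψ := continuous_matrix fun i k =>
    continuous_iff_continuousAt.2 fun x => (h.hderiv x i k).continuousAt
  have hjoint := liftV_continuousOn ε W Ψ hε h.hW hΨ
  have hVc : ∀ A, Continuous (liftV ε W Ψ A) := fun A =>
    Continuous.comp (g := fun q : (Fin n → Fin n → ℝ) × ℝ => liftV ε W Ψ q.1 q.2)
      (f := fun x : ℝ => (A, x)) hjoint (continuous_const.prodMk continuous_id)
  have hVp : ∀ A x, (liftV ε W Ψ A x).PosSemidef := fun A x => liftV_psd ε W Ψ A x hε (h.psd x)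
  have hex : ∀ A, ∃ q : ℝ × (ℝ → RMat n),
      A ∈ Dom n → IsCrit κ a b (liftV ε W Ψ A) q.1 q.2 := fun A => by
    by_cases hA : A ∈ Dom n
    · obtain ⟨s, R, hsR⟩ := exists_crit κ a b _ h.hab h.kpos (hVc A) (hVp A) (hco A hA)
      exact ⟨(s, R), fun _ => hsR⟩
    · exact ⟨(0, 0), fun h' => absurd h' hA⟩
  choose q hq using hex
  exact ⟨fun A => (q A).1, fun A => (q A).2, hVc, hq,
    crit_continuousOn (Dom n) κ a b (fun A => liftV ε W Ψ A) (fun A => (q A).1) (fun A => (q A).2)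
      h.hab h.kpos (isCompact_dom n) hjoint.continuousOn (fun A _ => hVp A) hco hq⟩

theorem crit_flipRow {κ : Fin n → ℝ} {a b c ε : ℝ} {W : ℝ → RMat m}
    {Ψ dΨ : ℝ → Matrix (Fin n) (Fin m) ℝ} (h : IsTrial κ a b c W Ψ dΨ) (hε : 0 < ε)
    {A : Fin n → Fin n → ℝ} {i : Fin n} {s s' : ℝ} {R R' : ℝ → RMat n}
    (hV : Continuous (liftV ε W Ψ (flipRow i A)))
    (hR : IsCrit κ a b (liftV ε W Ψ A) s R)
    (hR' : IsCrit κ a b (liftV ε W Ψ (flipRow i A)) s' R') : R' b = flipConj i (R b) := by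
  have e : liftV ε W Ψ (flipRow i A) = fun x => flipConj i (liftV ε W Ψ A x) :=
    funext fun x => liftV_flip ε W Ψ A x i hε
  have hc := crit_flip κ a b _ _ _ i hR
  rw [← e] at hc
  exact (crit_unique κ a b _ _ _ _ _ h.hab h.kpos hV
    (fun x => liftV_psd ε W Ψ _ x hε (h.psd x)) hR' hc).2 (right_mem_Icc.2 h.hab.le)

/-- Some triangular combination lifts the potential with coupling at most `1 + θ`. -/
theorem exists_lift {κ : Fin n → ℝ} {a b c θ : ℝ} {W : ℝ → RMat m}
    {Ψ dΨ : ℝ → Matrix (Fin n) (Fin m) ℝ} (h : IsTrial κ a b c W Ψ dΨ) (hn : 0 < n)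
    (hθ : 0 < θ) : ∃ (ε : ℝ) (A : Fin n → Fin n → ℝ) (s : ℝ) (R : ℝ → RMat n),
      0 < ε ∧ Continuous (liftV ε W Ψ A) ∧ s ≤ 1 + θ ∧
        IsCrit κ a b (liftV ε W Ψ A) s R ∧ R b = -kd κ := by
  obtain ⟨ε, hε, hf⟩ := frame_bound κ a b c θ W Ψ dΨ h hθ
  obtain ⟨s, R, hVc, hR, hcont⟩ := exists_family h hε fun A hA => (hf A hA).1
  have hb : b ∈ Icc a b := right_mem_Icc.2 h.hab.le
  obtain ⟨A, hA, hoff, heq⟩ := equivariant_zero (fun A => misM κ (R A b)) hn
    (misM_continuousOn hcont) (fun A hA => misM_symm (((hR A hA).2.2.1 b hb).2))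
    (fun A hA i => by
      simp only [crit_flipRow h hε (hVc _) (hR A hA) (hR _ (flipRow_mem hA i)), misM_flip])
    (fun A hA i => misM_le h.kpos (((hR A hA).2.2.1 b hb).1) i)
    (fun A hA i hi => by
      have := crit_dead κ a b _ _ _ i h.hab h.kpos (hVc A)
        (fun x => liftV_psd ε W Ψ A x hε (h.psd x))
        (fun x j => liftV_dead ε W Ψ A x i j hi) (hR A hA)
      rw [misM_diag h.kpos, this, div_eq_one_iff_eq (by linarith [h.kpos i])]
      ring)
  exact ⟨ε, A, s A, R A, hε, hVc A, (hf A hA).2 _ (hR A hA).1.le fun g dg h1' h2 h3 h4 =>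
    crit_test κ a b _ _ _ g dg h.hab h.kpos (hVc A) (hR A hA) h1' h2 h3 h4, hR A hA,
    eq_neg_kd h.kpos (hR A hA).2.2.2 hoff heq⟩

theorem youngC_one_pos {α : ℝ} (h0 : 0 < α) : 0 < Gamma.youngC (1 + α) 1 := by
  simp only [Gamma.youngC, show 1 + α - 1 = α by ring]
  positivity

/-- The bound for trial functions. -/
theorem lift_bound {κ : Fin n → ℝ} {a b c α θ : ℝ} {W : ℝ → RMat m}
    {Ψ dΨ : ℝ → Matrix (Fin n) (Fin m) ℝ} (h : IsTrial κ a b c W Ψ dΨ) (hn : 0 < n)
    (h0 : 0 < α) (h1 : α < 1) (hθ : 0 < θ) :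
    Calib.jconst α * ∑ i, κ i ^ (2 * α + 1) ≤
      Gamma.youngC (1 + α) 1 * (1 + θ) ^ (1 + α) * ∫ x in a..b, trP (1 + α) (W x) := by
  obtain ⟨ε, A, s, R, hε, hVc, hs, ⟨hs0, hric, hbd, -⟩, hend⟩ := exists_lift h hn hθ
  have hVp : ∀ x, (liftV ε W Ψ A x).PosSemidef := fun x => liftV_psd ε W Ψ A x hε (h.psd x)
  refine (path_bound α κ a b s _ _ h0 h1 h.hab h.kpos hs0.le hVc hVp hric hbd hend).trans ?_
  have hC := (youngC_one_pos h0).le
  refine mul_le_mul (mul_le_mul_of_nonneg_left (Real.rpow_le_rpow hs0.le hs (by linarith)) hC) ?_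
    (intervalIntegral.integral_nonneg h.hab.le fun x _ => trP_nonneg (hVp x) _)
    (mul_nonneg hC (Real.rpow_nonneg (by linarith) _))
  exact intervalIntegral.integral_mono_on h.hab.le
    ((continuous_trP hVc hVp (by linarith)).intervalIntegrable _ _)
    ((continuous_trP h.hW h.psd (by linarith)).intervalIntegrable _ _)
    fun x _ => liftV_trP (1 + α) ε W Ψ A x (by linarith) hε (h.psd x)

theorem le_oneState {γ : ℝ} (h1 : 1 / 2 < γ) (h2 : γ < 3 / 2) {r : ℝ}
    (hr : r ∈ Calib.ratiosPow γ m) : r ≤ Gamma.oneState γ := by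
  obtain ⟨W, N, μ, ψ, hW, hpos, heig, ho, rfl⟩ := hr
  set I := ∫ x, LT.trPow (γ + 1 / 2) (W x)
  have hα : 0 < γ - 1 / 2 := by linarith
  have hJ := Calib.jconst_pos hα
  set J := Calib.jconst (γ - 1 / 2)
  set C := Gamma.youngC (γ + 1 / 2) 1
  have hC : 0 < C := by
    simp only [C, Gamma.youngC, show γ + 1 / 2 - 1 = γ - 1 / 2 by ring]
    positivity
  rw [← oneState_eq_youngC γ h1]
  rcases Nat.eq_zero_or_pos N with rfl | hN
  · simp only [Finset.univ_eq_empty, Finset.sum_empty, zero_div]; positivity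
  have key : ∀ θ : ℝ, 0 < θ →
      J * (2 * (∑ i, |μ i| ^ γ) - θ) ≤ C * (1 + θ) ^ (γ + 1 / 2) * (2 * I + θ) := by
    intro θ hθ
    obtain ⟨κ, a, b, c, W', Ψ, dΨ, ht, hI, hS⟩ :=
      exists_trial γ θ W μ ψ h1 h2 hθ hW heig ho
    have hb := lift_bound (ht hN) (by omega) hα (show γ - 1 / 2 < 1 by linarith) hθ
    simp only [show 1 + (γ - 1 / 2) = γ + 1 / 2 by ring,
      show 2 * (γ - 1 / 2) + 1 = 2 * γ by ring] at hb
    exact (mul_le_mul_of_nonneg_left hS hJ.le).trans (hb.trans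
      (mul_le_mul_of_nonneg_left hI (by positivity)))
  have hlim : J * (2 * ∑ i, |μ i| ^ γ) ≤ C * (2 * I) := by
    refine le_of_tendsto_of_tendsto (f := fun θ => J * (2 * (∑ i, |μ i| ^ γ) - θ))
      (g := fun θ => C * (1 + θ) ^ (γ + 1 / 2) * (2 * I + θ)) (b := 𝓝[>] (0 : ℝ)) ?_ ?_ ?_
    · have : Continuous fun θ : ℝ => J * (2 * (∑ i, |μ i| ^ γ) - θ) := by fun_prop
      simpa using (this.tendsto 0).mono_left nhdsWithin_le_nhds
    · have : Continuous fun θ : ℝ => C * (1 + θ) ^ (γ + 1 / 2) * (2 * I + θ) :=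
        (continuous_const.mul ((continuous_const.add continuous_id).rpow_const
          fun _ => Or.inr (by linarith))).mul (continuous_const.add continuous_id)
      simpa using (this.tendsto 0).mono_left nhdsWithin_le_nhds
    · exact eventually_nhdsWithin_of_forall key
  rw [div_le_div_iff₀ hpos hJ]
  nlinarith

theorem isGreatest_ratiosPow {γ : ℝ} (h1 : 1 / 2 < γ) (h2 : γ < 3 / 2) (hm : 1 ≤ m) :
    IsGreatest (Calib.ratiosPow γ m) (Gamma.oneState γ) :=
  ⟨Calib.ratiosPow_of_scalar h1 hm (Gamma.oneState_mem_ratios h1), fun _ hr => le_oneState h1 h2 hr⟩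

end Vale.Agent.P371.Lift
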