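import Mathlib

/-!
# P371: differential equations on a compact interval

Existence, uniqueness and dependence for globally Lipschitz bounded fields, linear systems, and
positivity of matrices under `E' + K E + E K ≥ 0`.
-/

namespace Vale.Agent.P371.Lift

open Set Metric Matrix
open scoped NNReal Topology

variable {X : Type} [NormedAddCommGroup X] [NormedSpace ℝ X]

/-- `u` solves `u' = f t u` on `[a, b]`. -/
def SolvesOn (f : ℝ → X → X) (a b : ℝ) (u : ℝ → X) : Prop :=
  ∀ t ∈ Icc a b, HasDerivWithinAt u (f t (u t)) (Icc a b) t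

variable {f g : ℝ → X → X} {a b : ℝ} {u v : ℝ → X}

theorem SolvesOn.continuousOn (hu : SolvesOn f a b u) : ContinuousOn u (Icc a b) :=
  fun t ht => (hu t ht).continuousWithinAt

theorem SolvesOn.derivIci (hu : SolvesOn f a b u) {t : ℝ} (ht : t ∈ Ico a b) :
    HasDerivWithinAt u (f t (u t)) (Ici t) t :=
  (hu t (Ico_subset_Icc_self ht)).mono_of_mem_nhdsWithin
    (Filter.mem_of_superset (Icc_mem_nhdsGE ht.2) (Icc_subset_Icc_left ht.1))

/-- A bounded Lipschitz field has a solution on `[a, b]` through every point. -/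
theorem exists_solvesOn [CompleteSpace X] {K M : ℝ≥0} {t₀ : ℝ} (ht₀ : t₀ ∈ Icc a b)
    (hc : ∀ x, ContinuousOn (fun t => f t x) (Icc a b))
    (hl : ∀ t ∈ Icc a b, LipschitzWith K (f t)) (hb : ∀ t ∈ Icc a b, ∀ x, ‖f t x‖ ≤ M) (x₀ : X) :
    ∃ u, u t₀ = x₀ ∧ SolvesOn f a b u := by
  have hab : 0 ≤ b - a := by linarith [ht₀.1, ht₀.2]
  have hPL : IsPicardLindelof f (tmin := a) (tmax := b) ⟨t₀, ht₀⟩ x₀ (M * (b - a).toNNReal) 0 M K :=
    { lipschitzOnWith := fun t ht => (hl t ht).lipschitzOnWith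
      continuousOn := fun x _ => hc x
      norm_le := fun t ht x _ => hb t ht x
      mul_max_le := by
        simp only [NNReal.coe_mul, Real.coe_toNNReal _ hab, NNReal.coe_zero, sub_zero]
        exact mul_le_mul_of_nonneg_left (max_le (by linarith [ht₀.1]) (by linarith [ht₀.2])) M.2 }
  exact hPL.exists_eq_forall_mem_Icc_hasDerivWithinAt₀

/-- Solutions of nearby fields stay near. -/
theorem dist_solvesOn_le {K : ℝ≥0} {ε : ℝ} (hl : ∀ t ∈ Icc a b, LipschitzWith K (f t))
    (hu : SolvesOn f a b u) (hv : SolvesOn g a b v) (h0 : u a = v a)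
    (hfg : ∀ t ∈ Icc a b, dist (g t (v t)) (f t (v t)) ≤ ε) {t : ℝ} (ht : t ∈ Icc a b) :
    dist (u t) (v t) ≤ gronwallBound 0 K ε (b - a) := by
  have hε : 0 ≤ ε := dist_nonneg.trans (hfg t ht)
  have h := dist_le_of_approx_trajectories_ODE_of_mem (v := f) (s := fun _ => univ) (K := K)
    (δ := 0) (εf := 0) (εg := ε) (fun s hs => (hl s (Ico_subset_Icc_self hs)).lipschitzOnWith)
    hu.continuousOn (fun s hs => hu.derivIci hs) (fun s _ => by simp) (fun s _ => trivial)
    hv.continuousOn (fun s hs => hv.derivIci hs) (fun s hs => hfg s (Ico_subset_Icc_self hs))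
    (fun s _ => trivial) (by rw [h0, dist_self]) t ht
  rw [zero_add] at h
  exact h.trans (gronwallBound_mono le_rfl hε K.2 (by linarith [ht.2]))

/-- Solutions are unique. -/
theorem solvesOn_unique {K : ℝ≥0} (hl : ∀ t ∈ Icc a b, LipschitzWith K (f t))
    (hu : SolvesOn f a b u) (hv : SolvesOn f a b v) (h0 : u a = v a) {t : ℝ} (ht : t ∈ Icc a b) :
    u t = v t := by
  have h := dist_solvesOn_le (ε := 0) hl hu hv h0 (fun s _ => by simp) ht
  rw [gronwallBound_ε0_δ0] at h
  exact dist_le_zero.1 h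

variable {n : ℕ}

/-- A linear system has a solution through every end value. -/
theorem exists_linear (hab : a ≤ b) (A : ℝ → Matrix (Fin n) (Fin n) ℝ)
    (hA : ∀ i j, ContinuousOn (fun t => A t i j) (Icc a b)) (z : Fin n → ℝ) :
    ∃ u : ℝ → Fin n → ℝ, u b = z ∧
      ∀ t ∈ Icc a b, ∀ i, HasDerivWithinAt (fun t => u t i) ((A t *ᵥ u t) i) (Icc a b) t := by
  have hB : ∀ i j, ∃ c : ℝ, 0 ≤ c ∧ ∀ t ∈ Icc a b, |A t i j| ≤ c := fun i j => by
    obtain ⟨c, hc⟩ := isCompact_Icc.exists_bound_of_continuousOn (hA i j)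
    exact ⟨max c 0, le_max_right _ _, fun t ht => (hc t ht).trans (le_max_left _ _)⟩
  choose c hc0 hc using hB
  set Kr : ℝ := ∑ i, ∑ j, c i j with hKr
  have hKr0 : 0 ≤ Kr := Finset.sum_nonneg fun i _ => Finset.sum_nonneg fun j _ => hc0 i j
  have hlin : ∀ t ∈ Icc a b, ∀ y : Fin n → ℝ, ‖A t *ᵥ y‖ ≤ Kr * ‖y‖ := by
    intro t ht y
    refine (pi_norm_le_iff_of_nonneg (by positivity)).2 fun i => ?_
    rw [Real.norm_eq_abs, mulVec, dotProduct]
    refine (Finset.abs_sum_le_sum_abs _ _).trans ?_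
    calc ∑ j, |A t i j * y j| ≤ ∑ j, c i j * ‖y‖ := Finset.sum_le_sum fun j _ => by
          rw [abs_mul]
          exact mul_le_mul (hc i j t ht) (norm_le_pi_norm y j) (abs_nonneg _) (hc0 i j)
      _ = (∑ j, c i j) * ‖y‖ := (Finset.sum_mul _ _ _).symm
      _ ≤ Kr * ‖y‖ := by
          gcongr
          exact Finset.single_le_sum (f := fun i => ∑ j, c i j)
            (fun i _ => Finset.sum_nonneg fun j _ => hc0 i j) (Finset.mem_univ i)
  set M : ℝ := ‖z‖ * Real.exp (Kr * (b - a))
  have hM0 : 0 ≤ M := by positivity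
  set cl : (Fin n → ℝ) → Fin n → ℝ := fun y i => max (-M) (min M (y i))
  have hclip : ∀ p q : ℝ, |max (-M) (min M p) - max (-M) (min M q)| ≤ |p - q| := fun p q => by
    rcases le_total p q with h | h <;>
      simp only [max_def, min_def] <;> split_ifs <;>
      (rw [abs_le]; constructor <;>
        linarith [neg_abs_le (p - q), le_abs_self (p - q), abs_nonneg (p - q)])
  have hcl : LipschitzWith 1 cl := LipschitzWith.of_dist_le_mul fun p q => by
    rw [NNReal.coe_one, one_mul, dist_eq_norm, dist_eq_norm]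
    refine (pi_norm_le_iff_of_nonneg (norm_nonneg _)).2 fun i => ?_
    exact (hclip (p i) (q i)).trans (norm_le_pi_norm (p - q) i)
  have hclb : ∀ y, ‖cl y‖ ≤ M := fun y => (pi_norm_le_iff_of_nonneg hM0).2 fun i =>
    abs_le.2 ⟨le_max_left _ _, max_le (by linarith) (min_le_left _ _)⟩
  have hcls : ∀ y, ‖cl y‖ ≤ ‖y‖ := fun y => (pi_norm_le_iff_of_nonneg (norm_nonneg _)).2 fun i => by
    refine le_trans ?_ (norm_le_pi_norm y i)
    simpa [cl, min_eq_left, max_eq_right, hM0] using hclip (y i) 0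
  obtain ⟨u, hub, hu⟩ := exists_solvesOn (f := fun t y => A t *ᵥ cl y) (K := Kr.toNNReal)
    (M := (Kr * M).toNNReal) (right_mem_Icc.2 hab)
    (fun y => continuousOn_pi.2 fun i => by
      simp only [mulVec, dotProduct]
      exact continuousOn_finsetSum _ fun j _ => (hA i j).mul continuousOn_const)
    (fun t ht => LipschitzWith.of_dist_le_mul fun p q => by
      rw [Real.coe_toNNReal _ hKr0, dist_eq_norm, dist_eq_norm, ← mulVec_sub]
      refine (hlin t ht _).trans (mul_le_mul_of_nonneg_left ?_ hKr0)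
      simpa [dist_eq_norm] using hcl.dist_le_mul p q)
    (fun t ht y => by
      rw [Real.coe_toNNReal _ (by positivity)]
      exact (hlin t ht _).trans (mul_le_mul_of_nonneg_left (hclb y) hKr0)) z
  -- reverse time to bound the solution
  have hbd : ∀ t ∈ Icc a b, ‖u t‖ ≤ M := by
    intro t ht
    have hm : MapsTo (fun s => b + a - s) (Icc a b) (Icc a b) := fun s hs =>
      ⟨by linarith [hs.2], by linarith [hs.1]⟩
    have hw : SolvesOn (fun s y => -(A (b + a - s) *ᵥ cl y)) a b (fun s => u (b + a - s)) :=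
      fun s hs => by
        have := (hu (b + a - s) (hm hs)).scomp s
          (((hasDerivWithinAt_id s (Icc a b)).const_sub (b + a))) hm
        simpa [Function.comp_def] using this
    have h1 := norm_le_gronwallBound_of_norm_deriv_right_le (δ := ‖z‖) (K := Kr) (ε := 0)
      hw.continuousOn (fun s hs => hw.derivIci hs)
      (by simp [hub]) (fun s hs => by
        rw [norm_neg, add_zero]
        exact (hlin _ (hm (Ico_subset_Icc_self hs)) _).trans
          (mul_le_mul_of_nonneg_left (hcls _) hKr0))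
      (b + a - t) (hm ht)
    rw [sub_sub_cancel, gronwallBound_ε0] at h1
    refine h1.trans ?_
    refine mul_le_mul_of_nonneg_left (Real.exp_le_exp.2 ?_) (norm_nonneg z)
    exact mul_le_mul_of_nonneg_left (by linarith [ht.1]) hKr0
  refine ⟨u, hub, fun t ht i => ?_⟩
  have hfix : cl (u t) = u t := funext fun i => by
    have := (norm_le_pi_norm (u t) i).trans (hbd t ht)
    rw [Real.norm_eq_abs, abs_le] at this
    simp only [cl, min_eq_right this.2, max_eq_right this.1]
  have := hasDerivWithinAt_pi.1 (hu t ht) i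
  simpa [hfix] using this

/-- If `E' + K E + E K ≥ 0` with a constant diagonal `K` and `E a ≥ 0`, then `E ≥ 0`. -/
theorem psd_flow (k : Fin n → ℝ) (E E' : ℝ → Matrix (Fin n) (Fin n) ℝ)
    (hd : ∀ t ∈ Icc a b, ∀ i j, HasDerivWithinAt (fun t => E t i j) (E' t i j) (Icc a b) t)
    (hE : ∀ t ∈ Icc a b, (E t).IsHermitian) (h0 : (E a).PosSemidef)
    (hf : ∀ t ∈ Icc a b, ∀ x : Fin n → ℝ,
      0 ≤ x ⬝ᵥ ((E' t + (diagonal k * E t + E t * diagonal k)) *ᵥ x)) :
    ∀ t ∈ Icc a b, (E t).PosSemidef := by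
  intro t ht
  refine PosSemidef.of_dotProduct_mulVec_nonneg (hE t ht) fun y => ?_
  rw [star_trivial]
  set x : Fin n → ℝ := fun i => Real.exp (-(k i * t)) * y i with hx
  set φ : ℝ → ℝ := fun s => ∑ i, ∑ j,
    (Real.exp (k i * s) * x i) * E s i j * (Real.exp (k j * s) * x j)
  have hφ : ∀ s ∈ Icc a b, HasDerivWithinAt φ
      (∑ i, ∑ j, (Real.exp (k i * s) * x i) * (E' s i j + (k i * E s i j + E s i j * k j)) *
        (Real.exp (k j * s) * x j)) (Icc a b) s := by
    intro s hs
    refine HasDerivWithinAt.fun_sum fun i _ => HasDerivWithinAt.fun_sum fun j _ => ?_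
    have he : ∀ l, HasDerivWithinAt (fun s => Real.exp (k l * s) * x l)
        (Real.exp (k l * s) * (k l * 1) * x l) (Icc a b) s := fun l =>
      (((hasDerivWithinAt_id s _).const_mul (k l)).exp).mul_const (x l)
    refine (((he i).mul (hd s hs i j)).mul (he j)).congr_deriv ?_
    simp only [Pi.mul_apply]
    ring
  have hmono : MonotoneOn φ (Icc a b) := by
    refine monotoneOn_of_hasDerivWithinAt_nonneg (convex_Icc a b)
      (fun s hs => (hφ s hs).continuousWithinAt)
      (fun s hs => (hφ s (interior_subset hs)).mono interior_subset) fun s hs => ?_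
    refine (hf s (interior_subset hs) fun i => Real.exp (k i * s) * x i).trans_eq ?_
    simp only [dotProduct, mulVec, Matrix.add_apply, diagonal_mul, mul_diagonal, Finset.mul_sum,
      mul_assoc]
  have h1 := hmono (left_mem_Icc.2 (ht.1.trans ht.2)) ht ht.1
  have ha : 0 ≤ φ a := by
    have := h0.dotProduct_mulVec_nonneg fun i => Real.exp (k i * a) * x i
    simpa [φ, dotProduct, mulVec, Finset.mul_sum, mul_assoc] using this
  refine (ha.trans h1).trans_eq ?_
  have hy : ∀ i, Real.exp (k i * t) * x i = y i := fun i => by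
    rw [hx, ← mul_assoc, ← Real.exp_add, add_neg_cancel, Real.exp_zero, one_mul]
  simp only [φ, hy]
  simp only [dotProduct, mulVec, Finset.mul_sum, mul_assoc]

end Vale.Agent.P371.Lift
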