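import Vale.Agent.P371.Lift.Defs
import Vale.Agent.P371.Lift.Avg
import Vale.Agent.P371.Calib.Spec

/-!
# P371: real forms of complex matrices, and Jensen's inequality for trace powers of averages
-/

namespace Vale.Agent.P371.Lift

open Matrix MeasureTheory Set Filter
open scoped ComplexOrder MatrixOrder
open Vale.Agent.P371.Calib (Spec CMat exists_spec)

variable {m : ℕ}

/-- The two halves of `Fin (2 * m)`. -/
def halves (m : ℕ) : Fin (2 * m) ≃ Fin m ⊕ Fin m :=
  (finCongr (two_mul m)).trans finSumFinEquiv.symm

/-- Real and imaginary parts of a vector. -/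
def realV (v : Fin m → ℂ) : Fin (2 * m) → ℝ :=
  Sum.elim (fun i => (v i).re) (fun i => (v i).im) ∘ halves m

/-- The real matrix of a complex matrix. -/
def realM (A : CMat m) : RMat (2 * m) :=
  (fromBlocks (A.map Complex.re) (-A.map Complex.im) (A.map Complex.im) (A.map Complex.re)).submatrix
    (halves m) (halves m)

theorem realM_mulVec (A : CMat m) (v : Fin m → ℂ) :
    realM A *ᵥ realV v = realV (A *ᵥ v) := by
  rw [realM, realV, submatrix_mulVec_equiv, Function.comp_assoc, Equiv.self_comp_symm,
    Function.comp_id, fromBlocks_mulVec, realV]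
  congr 1
  funext k
  rcases k with i | i <;>
    simp [mulVec, dotProduct, Complex.re_sum, Complex.im_sum, Finset.sum_add_distrib,
      ← sub_eq_add_neg, Complex.mul_re, Complex.mul_im, Finset.sum_sub_distrib, add_comm]

theorem realV_dot (u v : Fin m → ℂ) : realV u ⬝ᵥ realV v = (star u ⬝ᵥ v).re := by
  rw [realV, realV, comp_equiv_dotProduct_comp_equiv, dotProduct, Fintype.sum_sum_type]
  simp [dotProduct, Complex.re_sum, ← Finset.sum_add_distrib]

theorem realV_form (A : CMat m) (u v : Fin m → ℂ) :
    realV u ⬝ᵥ realM A *ᵥ realV v = (star u ⬝ᵥ A *ᵥ v).re := by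
  rw [realM_mulVec, realV_dot]

theorem realM_mul (A B : CMat m) : realM (A * B) = realM A * realM B := by
  rw [realM, realM, realM, submatrix_mul_equiv, fromBlocks_multiply]
  congr 1
  ext i j
  rcases i with i | i <;> rcases j with j | j <;>
    simp [Matrix.mul_apply, Complex.re_sum, Complex.im_sum, Finset.sum_add_distrib,
      Complex.mul_re, Complex.mul_im, sub_eq_add_neg, add_comm]

theorem realM_conjTranspose (A : CMat m) : realM Aᴴ = (realM A)ᵀ := by
  ext i j
  simp only [realM, transpose_apply, submatrix_apply]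
  rcases halves m i with i | i <;> rcases halves m j with j | j <;> simp

theorem realM_diagonal (a : Fin m → ℝ) :
    realM (diagonal fun i => (a i : ℂ)) =
      diagonal fun i => Sum.elim a a (halves m i) := by
  ext i j
  simp only [realM, submatrix_apply, diagonal_apply, ← (halves m).injective.eq_iff]
  rcases halves m i with i | i <;> rcases halves m j with j | j <;>
    rcases eq_or_ne i j with h | h <;> simp [h]

theorem realM_one : realM (1 : CMat m) = 1 := by
  have h := realM_diagonal (fun _ : Fin m => (1 : ℝ))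
  simp only [Complex.ofReal_one, diagonal_one] at h
  rw [h, ← diagonal_one]
  congr 1
  funext i
  rcases halves m i with i | i <;> rfl

theorem abs_realM_apply_le {A : CMat m} {B : ℝ} (hA : ∀ a b, ‖A a b‖ ≤ B) (i j : Fin (2 * m)) :
    |realM A i j| ≤ B := by
  simp only [realM, submatrix_apply]
  rcases halves m i with i | i <;> rcases halves m j with j | j <;> simp <;>
    first
      | exact (Complex.abs_re_le_norm _).trans (hA i j)
      | exact (Complex.abs_im_le_norm _).trans (hA i j)

theorem realM_posSemidef {A : CMat m} (hA : A.PosSemidef) : (realM A).PosSemidef := by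
  refine PosSemidef.of_dotProduct_mulVec_nonneg ?_ fun x => ?_
  · rw [Matrix.IsHermitian, conjTranspose_eq_transpose_of_trivial, ← realM_conjTranspose,
      hA.1.eq]
  · set v : Fin m → ℂ := fun i =>
      ⟨x ((halves m).symm (Sum.inl i)), x ((halves m).symm (Sum.inr i))⟩
    have e : x = realV v := by
      funext k
      obtain ⟨s, rfl⟩ := (halves m).symm.surjective k
      rcases s with i | i <;> simp [realV, v]
    rw [star_trivial, e, realV_form]
    exact (Complex.le_def.1 (hA.dotProduct_mulVec_nonneg v)).1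

theorem toC_mul {n : ℕ} (A B : RMat n) : toC (A * B) = toC A * toC B :=
  Matrix.map_mul (f := Complex.ofRealHom)

theorem toC_conjTranspose {n : ℕ} (A : RMat n) : (toC A)ᴴ = toC Aᵀ := by
  ext i j
  simp [toC]

theorem toC_diagonal {n : ℕ} (d : Fin n → ℝ) : toC (diagonal d) = diagonal fun i => (d i : ℂ) := by
  simp [toC, diagonal_map]

theorem toC_one {n : ℕ} : toC (1 : RMat n) = 1 := by
  simp [toC]

theorem toC_posSemidef {n : ℕ} {A : RMat n} (hA : A.PosSemidef) : (toC A).PosSemidef := by
  obtain ⟨B, hB⟩ := CStarAlgebra.nonneg_iff_eq_star_mul_self.mp hA.nonneg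
  rw [hB, toC_mul, star_eq_conjTranspose, conjTranspose_eq_transpose_of_trivial,
    ← toC_conjTranspose]
  exact posSemidef_conjTranspose_mul_self _

/-- The trace powers of the real form are twice those of the matrix. -/
theorem trP_realM {A : CMat m} (hA : A.PosSemidef) (p : ℝ) :
    trP p (realM A) = 2 * Vale.Agent.LT.trPow p A := by
  obtain ⟨V, a, hV⟩ := exists_spec hA.1
  have hS : Spec (toC (realM A)) (toC (realM V)) fun i => Sum.elim a a (halves m i) := by
    refine ⟨?_, ?_, ?_⟩
    · rw [toC_conjTranspose, ← toC_mul, ← realM_conjTranspose, ← realM_mul, hV.1, realM_one,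
        toC_one]
    · rw [toC_conjTranspose, ← toC_mul, ← realM_conjTranspose, ← realM_mul, hV.2.1, realM_one,
        toC_one]
    · rw [← toC_diagonal, ← realM_diagonal, toC_conjTranspose, ← toC_mul, ← toC_mul,
        ← realM_conjTranspose, ← realM_mul, ← realM_mul, ← hV.2.2]
  show Calib.trF (fun t => t ^ p) (toC (realM A)) = 2 * Calib.trF (fun t => t ^ p) A
  rw [hS.trF_eq, hV.trF_eq, Equiv.sum_comp (halves m) (fun k => (Sum.elim a a k) ^ p),
    Fintype.sum_sum_type]
  simp [two_mul]

theorem rpow_tangent {p c d : ℝ} (hp : 1 < p) (hc : 0 ≤ c) (hd : 0 ≤ d) :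
    c ^ p + p * c ^ (p - 1) * (d - c) ≤ d ^ p := by
  rcases hc.eq_or_lt with rfl | hc
  · simp [Real.zero_rpow (by linarith : p ≠ 0), Real.zero_rpow (by linarith : p - 1 ≠ 0),
      Real.rpow_nonneg hd]
  · have h := one_add_mul_self_le_rpow_one_add
      (by linarith [div_nonneg hd hc.le] : -1 ≤ d / c - 1) hp.le
    rw [show 1 + (d / c - 1) = d / c by ring, Real.div_rpow hd hc.le,
      le_div_iff₀ (Real.rpow_pos_of_pos hc p)] at h
    calc c ^ p + p * c ^ (p - 1) * (d - c) = (1 + p * (d / c - 1)) * c ^ p := by
          rw [Real.rpow_sub_one hc.ne']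
          field_simp
      _ ≤ d ^ p := h

/-- The entrywise average of a matrix valued function. -/
noncomputable def avgM {n : ℕ} (h : ℝ) (W : ℝ → RMat n) (x : ℝ) : RMat n :=
  Matrix.of fun c d => avg h (fun t => W t c d) x

theorem avgM_continuous {n : ℕ} {h : ℝ} {W : ℝ → RMat n}
    (hW : ∀ c d a b, IntervalIntegrable (fun t => W t c d) volume a b) :
    Continuous (avgM h W) :=
  continuous_pi fun c => continuous_pi fun d => continuous_avg (hW c d)

theorem avgM_posSemidef {n : ℕ} {h : ℝ} (hh : 0 ≤ h) {W : ℝ → RMat n}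
    (hW : ∀ c d a b, IntervalIntegrable (fun t => W t c d) volume a b)
    (hp : ∀ t, (W t).PosSemidef) (x : ℝ) : (avgM h W x).PosSemidef := by
  refine PosSemidef.of_dotProduct_mulVec_nonneg ?_ fun v => ?_
  · ext c d
    simp only [avgM, conjTranspose_apply, of_apply, star_trivial]
    congr 1
    funext t
    simpa using (hp t).1.apply c d
  · have e : ∀ t, star v ⬝ᵥ W t *ᵥ v = ∑ cd : Fin n × Fin n, v cd.1 * v cd.2 * W t cd.1 cd.2 := by
      intro t
      rw [Fintype.sum_prod_type]
      simp only [dotProduct, mulVec, star_trivial, Finset.mul_sum]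
      exact Finset.sum_congr rfl fun c _ => Finset.sum_congr rfl fun d _ => by ring
    have e' : star v ⬝ᵥ avgM h W x *ᵥ v = avg h (fun t => star v ⬝ᵥ W t *ᵥ v) x := by
      simp only [e]
      rw [avg_sum Finset.univ (fun (cd : Fin n × Fin n) t => W t cd.1 cd.2) (fun cd _ => hW cd.1 cd.2 _ _),
        Fintype.sum_prod_type]
      simp only [dotProduct, mulVec, star_trivial, Finset.mul_sum, avgM, of_apply]
      exact Finset.sum_congr rfl fun c _ => Finset.sum_congr rfl fun d _ => by ring
    rw [e']
    exact avg_nonneg hh fun t => (hp t).dotProduct_mulVec_nonneg v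

/-- Jensen's inequality for trace powers. -/
theorem trP_avgM_le {n : ℕ} {p h : ℝ} (hp : 1 < p) (hh : 0 < h) {W : ℝ → RMat n}
    (hW : ∀ c d a b, IntervalIntegrable (fun t => W t c d) volume a b)
    (hpsd : ∀ t, (W t).PosSemidef)
    (hi : Integrable fun t => trP p (W t)) (x : ℝ) :
    trP p (avgM h W x) ≤ avg h (fun t => trP p (W t)) x := by
  have hY := toC_posSemidef (avgM_posSemidef hh.le hW hpsd x)
  obtain ⟨V, a, hV⟩ := exists_spec hY.1
  have ha := hV.posSemidef_iff.1 hY
  set coef : Fin n → Fin n × Fin n → ℝ :=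
    fun j cd => (star (V cd.1 j) * V cd.2 j).re
  set d : Fin n → ℝ → ℝ := fun j t => ∑ cd, coef j cd * W t cd.1 cd.2
  have hd : ∀ (M : RMat n) j, ((Vᴴ * toC M * V) j j).re = ∑ cd, coef j cd * M cd.1 cd.2 := by
    intro M j
    simp only [Matrix.mul_apply, Finset.sum_mul, Complex.re_sum, Fintype.sum_prod_type]
    rw [Finset.sum_comm]
    refine Finset.sum_congr rfl fun c _ => Finset.sum_congr rfl fun e _ => ?_
    simp only [coef, toC, map_apply, conjTranspose_apply, Complex.mul_re, Complex.mul_im,
      Complex.ofReal_re, Complex.ofReal_im]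
    ring
  have hdi : ∀ j a b, IntervalIntegrable (d j) volume a b := fun j a b => by
    have := IntervalIntegrable.sum Finset.univ
      (f := fun cd t => coef j cd * W t cd.1 cd.2) (a := a) (b := b) (μ := volume)
      fun cd _ => (hW cd.1 cd.2 a b).const_mul _
    simpa [d, Finset.sum_fn] using this
  have hd0 : ∀ j t, 0 ≤ d j t := fun j t => by
    rw [show d j t = ((Vᴴ * toC (W t) * V) j j).re from (hd (W t) j).symm]
    exact (Complex.le_def.1 ((toC_posSemidef (hpsd t)).conjTranspose_mul_mul_same V).diag_nonneg).1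
  have hsum : ∀ t, ∑ j, d j t ^ p ≤ trP p (W t) := by
    intro t
    have hX := toC_posSemidef (hpsd t)
    obtain ⟨Z, w, hZ⟩ := exists_spec hX.1
    have hw := hZ.posSemidef_iff.1 hX
    show _ ≤ Calib.trF (fun s => s ^ p) (toC (W t))
    rw [hZ.trF_eq]
    set Q := fun i j => Complex.normSq ((Zᴴ * V) i j) with hQ
    have hUu : (Zᴴ * V)ᴴ * (Zᴴ * V) = 1 := by
      rw [conjTranspose_mul, conjTranspose_conjTranspose, Matrix.mul_assoc, ← Matrix.mul_assoc Z,
        hZ.2.1, Matrix.one_mul, hV.1]
    have hUu' : (Zᴴ * V) * (Zᴴ * V)ᴴ = 1 := mul_eq_one_comm.1 hUu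
    have hSU : Spec (1 : CMat n) (Zᴴ * V) fun _ => 1 := ⟨hUu, hUu', by
      simp only [Complex.ofReal_one, diagonal_one, Matrix.mul_one]
      exact hUu'.symm⟩
    have hdQ : ∀ j, d j t = ∑ i, Q i j * w i := by
      intro j
      rw [show d j t = ((Vᴴ * toC (W t) * V) j j).re from (hd (W t) j).symm]
      have e : Vᴴ * toC (W t) * V = (Zᴴ * V)ᴴ * diagonal (fun i => (w i : ℂ)) * (Zᴴ * V) := by
        rw [conjTranspose_mul, conjTranspose_conjTranspose]
        conv_lhs => rw [hZ.2.2]
        simp only [Matrix.mul_assoc]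
      rw [e, Matrix.mul_apply, Complex.re_sum]
      refine Finset.sum_congr rfl fun i _ => ?_
      simp only [mul_diagonal, conjTranspose_apply, hQ, Complex.normSq_apply, RCLike.star_def,
        Complex.mul_re, Complex.mul_im, Complex.conj_re, Complex.conj_im, Complex.ofReal_re,
        Complex.ofReal_im]
      ring
    calc ∑ j, d j t ^ p = ∑ j, (∑ i, Q i j * w i) ^ p := by simp only [hdQ]
      _ ≤ ∑ j, ∑ i, Q i j * w i ^ p := Finset.sum_le_sum fun j _ =>
          Real.rpow_arith_mean_le_arith_mean_rpow _ _ _ (fun i _ => Complex.normSq_nonneg _)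
            (hSU.sum_normSq_col j) (fun i _ => hw i) hp.le
      _ = ∑ i, w i ^ p := by
          rw [Finset.sum_comm]
          refine Finset.sum_congr rfl fun i _ => ?_
          rw [← Finset.sum_mul, hSU.sum_normSq_row i, one_mul]
  have haj : ∀ j, a j = avg h (d j) x := by
    intro j
    have e := congrArg Complex.re (congrFun (congrFun hV.conj_self j) j)
    rw [diagonal_apply_eq, Complex.ofReal_re, hd] at e
    rw [← e, avg_sum Finset.univ (fun (cd : Fin n × Fin n) t => W t cd.1 cd.2) (fun cd _ => hW cd.1 cd.2 _ _)]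
    rfl
  have low : ∀ t, ∑ j, (a j ^ p + p * a j ^ (p - 1) * (d j t - a j)) ≤ trP p (W t) := fun t =>
    (Finset.sum_le_sum fun j _ => rpow_tangent hp (ha j) (hd0 j t)).trans (hsum t)
  have hli : IntervalIntegrable
      (fun t => ∑ j, (a j ^ p + p * a j ^ (p - 1) * (d j t - a j))) volume (x - h) (x + h) := by
    have := IntervalIntegrable.sum Finset.univ
      (f := fun j t => a j ^ p + p * a j ^ (p - 1) * (d j t - a j))
      (a := x - h) (b := x + h) (μ := volume)
      fun j _ => intervalIntegrable_const.add (((hdi j _ _).sub intervalIntegrable_const).const_mul _)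
    simpa [Finset.sum_fn] using this
  have hm := intervalIntegral.integral_mono_on (by linarith) hli hi.intervalIntegrable
    (fun t _ => low t)
  show Calib.trF (fun s => s ^ p) (toC (avgM h W x)) ≤ _
  rw [hV.trF_eq]
  refine le_trans (le_of_eq ?_) (mul_le_mul_of_nonneg_left hm (inv_nonneg.2 (by linarith)))
  rw [intervalIntegral.integral_finsetSum fun j _ => intervalIntegrable_const.add
    (((hdi j _ _).sub intervalIntegrable_const).const_mul _), Finset.mul_sum]
  refine Finset.sum_congr rfl fun j _ => ?_
  rw [intervalIntegral.integral_add intervalIntegrable_const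
      (((hdi j _ _).sub intervalIntegrable_const).const_mul _),
    intervalIntegral.integral_const_mul,
    intervalIntegral.integral_sub (hdi j _ _) intervalIntegrable_const,
    intervalIntegral.integral_const, intervalIntegral.integral_const]
  have e := haj j
  rw [avg, inv_mul_eq_div, eq_div_iff (by linarith)] at e
  rw [← e, smul_eq_mul, smul_eq_mul]
  field_simp
  ring

end Vale.Agent.P371.Lift
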