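import Vale.Agent.P371.Lift.Defs
import Vale.Agent.P371.Lift.Ode

/-!
# P371: the Riccati equation of the lift, cut off outside the box
-/

namespace Vale.Agent.P371.Lift

open Matrix Set MeasureTheory Filter
open scoped Topology NNReal

variable {n : ℕ}

/-- Arrays with the sup norm, the state space of the Riccati equation. -/
abbrev St (n : ℕ) : Type := Fin n → Fin n → ℝ

/-- One more than the largest possible entry in the box. -/
def boxB (κ : Fin n → ℝ) : ℝ := (∑ i, |κ i|) + 1

theorem boxB_pos (κ : Fin n → ℝ) : 0 < boxB κ := by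
  have := Finset.sum_nonneg (s := Finset.univ) fun i (_ : i ∈ Finset.univ) => abs_nonneg (κ i)
  unfold boxB; linarith

/-- Entrywise cut-off. -/
def clip (C : ℝ) (R : St n) : St n := fun i j => max (-C) (min C (R i j))

theorem clip_abs_le {C : ℝ} (hC : 0 ≤ C) (R : St n) (i j : Fin n) : |clip C R i j| ≤ C :=
  abs_le.2 ⟨le_max_left _ _, max_le (by linarith) (min_le_left _ _)⟩

theorem clip_eq {C : ℝ} {R : St n} (h : ∀ i j, |R i j| ≤ C) : clip C R = R := by
  funext i j
  have := abs_le.1 (h i j)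
  simp only [clip, min_eq_right this.2, max_eq_right this.1]

theorem clip_dist (C : ℝ) (R S : St n) (i j : Fin n) :
    |clip C R i j - clip C S i j| ≤ ‖R - S‖ := by
  have h1 : |R i j - S i j| ≤ ‖R - S‖ :=
    (norm_le_pi_norm ((R - S) i) j).trans (norm_le_pi_norm (R - S) i)
  refine le_trans ?_ h1
  calc |max (-C) (min C (R i j)) - max (-C) (min C (S i j))|
      ≤ |min C (R i j) - min C (S i j)| := by
        rw [max_comm (-C), max_comm (-C)]; exact abs_max_sub_max_le_abs _ _ _
    _ ≤ max |C - C| |R i j - S i j| := abs_min_sub_min_le_max _ _ _ _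
    _ = |R i j - S i j| := by simp

/-- The cut-off field of `R' = L - R² - s V`. -/
def ricF (κ : Fin n → ℝ) (s : ℝ) (V : ℝ → RMat n) (t : ℝ) (R : St n) : St n :=
  fun i j => ld κ i j - ∑ l, clip (boxB κ) R i l * clip (boxB κ) R l j - s * V t i j

/-- A Lipschitz constant of the cut-off field. -/
def ricK (κ : Fin n → ℝ) : ℝ≥0 := (2 * (n : ℝ) * boxB κ).toNNReal

theorem ricF_lipschitz (κ : Fin n → ℝ) (s : ℝ) (V : ℝ → RMat n) (t : ℝ) :
    LipschitzWith (ricK κ) (ricF κ s V t) := by
  have hB := (boxB_pos κ).le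
  refine LipschitzWith.of_dist_le_mul fun R S => ?_
  have h0 : (0 : ℝ) ≤ 2 * n * boxB κ := by positivity
  rw [ricK, Real.coe_toNNReal _ h0, dist_eq_norm, dist_eq_norm]
  refine (pi_norm_le_iff_of_nonneg (by positivity)).2 fun i =>
    (pi_norm_le_iff_of_nonneg (by positivity)).2 fun j => ?_
  have e : ricF κ s V t R i j - ricF κ s V t S i j = ∑ l, (clip (boxB κ) S i l *
      clip (boxB κ) S l j - clip (boxB κ) R i l * clip (boxB κ) R l j) := by
    simp only [ricF, Finset.sum_sub_distrib]; ring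
  rw [Pi.sub_apply, Pi.sub_apply, e, Real.norm_eq_abs]
  refine (Finset.abs_sum_le_sum_abs _ _).trans ?_
  calc _ ≤ ∑ _l : Fin n, 2 * boxB κ * ‖R - S‖ := Finset.sum_le_sum fun l _ => by
        have e' : ∀ x y u v : ℝ, u * v - x * y = (u - x) * v + x * (v - y) := fun _ _ _ _ => by ring
        rw [e']
        refine (abs_add_le _ _).trans ?_
        rw [abs_mul, abs_mul]
        have h1 := clip_dist (boxB κ) R S i l
        have h2 := clip_dist (boxB κ) R S l j
        rw [abs_sub_comm] at h1 h2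
        have := mul_le_mul h1 (clip_abs_le hB S l j) (abs_nonneg _) (norm_nonneg _)
        have := mul_le_mul (clip_abs_le hB R i l) h2 (abs_nonneg _) hB
        linarith
    _ = 2 * n * boxB κ * ‖R - S‖ := by
        rw [Finset.sum_const, Finset.card_univ, Fintype.card_fin, nsmul_eq_mul]; ring

theorem ricF_continuousOn {a b : ℝ} (κ : Fin n → ℝ) (s : ℝ) {V : ℝ → RMat n} (hV : Continuous V)
    (R : St n) : ContinuousOn (fun t => ricF κ s V t R) (Icc a b) :=
  continuousOn_pi.2 fun i => continuousOn_pi.2 fun j =>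
    (continuous_const.sub (continuous_const.mul (hV.matrix_elem i j))).continuousOn

theorem potential_bound {a b : ℝ} {V : ℝ → RMat n} (hV : Continuous V) :
    ∃ M, 0 ≤ M ∧ ∀ t ∈ Icc a b, ∀ i j, |V t i j| ≤ M := by
  have h : ∀ i j, ∃ c, ∀ t ∈ Icc a b, ‖V t i j‖ ≤ c := fun i j =>
    isCompact_Icc.exists_bound_of_continuousOn (hV.matrix_elem i j).continuousOn
  choose c hc using h
  refine ⟨∑ i, ∑ j, |c i j|, by positivity, fun t ht i j => ?_⟩
  refine ((hc i j t ht).trans (le_abs_self _)).trans ?_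
  refine le_trans ?_ (Finset.single_le_sum (f := fun i => ∑ j, |c i j|)
    (fun i _ => by positivity) (Finset.mem_univ i))
  exact Finset.single_le_sum (f := fun j => |c i j|) (fun j _ => abs_nonneg _) (Finset.mem_univ j)

/-- The cut-off equation has a solution from `diag κ`. -/
theorem exists_cut {a b : ℝ} (hab : a ≤ b) (κ : Fin n → ℝ) (s : ℝ) {V : ℝ → RMat n}
    (hV : Continuous V) : ∃ R, R a = (kd κ : St n) ∧ SolvesOn (ricF κ s V) a b R := by
  obtain ⟨M, hM0, hM⟩ := potential_bound (a := a) (b := b) hV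
  have hB := (boxB_pos κ).le
  set T : ℝ := (∑ i, |κ i ^ 2|) + n * boxB κ ^ 2 + |s| * M with hT
  have hT0 : 0 ≤ T := by positivity
  refine exists_solvesOn (M := T.toNNReal) (K := ricK κ) (left_mem_Icc.2 hab)
    (ricF_continuousOn κ s hV) (fun t _ => ricF_lipschitz κ s V t) (fun t ht R => ?_) _
  rw [Real.coe_toNNReal _ hT0]
  refine (pi_norm_le_iff_of_nonneg hT0).2 fun i => (pi_norm_le_iff_of_nonneg hT0).2 fun j => ?_
  rw [Real.norm_eq_abs, ricF]
  refine (abs_sub _ _).trans (add_le_add ((abs_sub _ _).trans (add_le_add ?_ ?_)) ?_)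
  · unfold ld
    rcases eq_or_ne i j with rfl | h
    · rw [diagonal_apply_eq]
      exact Finset.single_le_sum (f := fun i => |κ i ^ 2|) (fun i _ => abs_nonneg _)
        (Finset.mem_univ i)
    · rw [diagonal_apply_ne _ h, abs_zero]; positivity
  · refine (Finset.abs_sum_le_sum_abs _ _).trans ?_
    calc _ ≤ ∑ _l : Fin n, boxB κ ^ 2 := Finset.sum_le_sum fun l _ => by
          rw [abs_mul, sq]
          exact mul_le_mul (clip_abs_le hB R i l) (clip_abs_le hB R l j) (abs_nonneg _) hB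
      _ = _ := by rw [Finset.sum_const, Finset.card_univ, Fintype.card_fin, nsmul_eq_mul]
  · rw [abs_mul]
    exact mul_le_mul_of_nonneg_left (hM t ht i j) (abs_nonneg s)

/-- The box bounds the entries. -/
theorem box_abs_le {κ : Fin n → ℝ} {R : RMat n} (h1 : (kd κ - R).PosSemidef)
    (h2 : (kd κ + R).PosSemidef) (i j : Fin n) : |R i j| ≤ boxB κ - 1 := by
  have hsymm : R j i = R i j := by
    rcases eq_or_ne i j with rfl | h
    · rfl
    · have := h2.1.apply i j
      simpa [kd, h, h.symm] using this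
  have hk : ∀ l, κ l ≤ boxB κ - 1 := fun l => by
    have := Finset.single_le_sum (f := fun i => |κ i|) (fun i _ => abs_nonneg _)
      (Finset.mem_univ l)
    unfold boxB; linarith [le_abs_self (κ l)]
  rcases eq_or_ne i j with rfl | hij
  · have a1 := h1.diag_nonneg (i := i)
    have a2 := h2.diag_nonneg (i := i)
    simp only [kd, Matrix.sub_apply, Matrix.add_apply, diagonal_apply_eq] at a1 a2
    rw [abs_le]; constructor <;> linarith [hk i]
  · have q : ∀ (M : RMat n) (σ : ℝ), ((Pi.single i 1 : Fin n → ℝ) + σ • (Pi.single j 1 : Fin n → ℝ)) ⬝ᵥ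
        (M *ᵥ ((Pi.single i 1 : Fin n → ℝ) + σ • (Pi.single j 1 : Fin n → ℝ))) =
        M i i + σ * M i j + σ * M j i + σ * σ * M j j := fun M σ => by
      simp [mulVec_add, mulVec_smul, add_dotProduct, dotProduct_add, mulVec_single,
        single_dotProduct]
      ring
    have t1 := fun σ : ℝ => h1.dotProduct_mulVec_nonneg ((Pi.single i 1 : Fin n → ℝ) + σ • (Pi.single j 1 : Fin n → ℝ))
    have t2 := fun σ : ℝ => h2.dotProduct_mulVec_nonneg ((Pi.single i 1 : Fin n → ℝ) + σ • (Pi.single j 1 : Fin n → ℝ))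
    simp only [star_trivial, q, kd, Matrix.sub_apply, Matrix.add_apply, diagonal_apply_eq,
      diagonal_apply_ne _ hij, diagonal_apply_ne _ hij.symm, hsymm] at t1 t2
    rw [abs_le]
    constructor <;> linarith [t1 1, t1 (-1), t2 1, t2 (-1), hk i, hk j]

theorem IsRiccati.continuousOn {κ : Fin n → ℝ} {a b s : ℝ} {V R : ℝ → RMat n}
    (h : IsRiccati κ a b s V R) (i j : Fin n) : ContinuousOn (fun x => R x i j) (Icc a b) :=
  fun x hx => (h.2 x hx i j).continuousWithinAt

theorem ricF_eq {κ : Fin n → ℝ} {s : ℝ} {V : ℝ → RMat n} {t : ℝ} {R : RMat n}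
    (h : ∀ i j, |R i j| ≤ boxB κ) (i j : Fin n) :
    ricF κ s V t R i j = (ld κ - R * R - s • V t) i j := by
  simp only [ricF, clip_eq h, Matrix.sub_apply, Matrix.smul_apply, smul_eq_mul, Matrix.mul_apply]

/-- A bounded Riccati path solves the cut-off equation. -/
theorem IsRiccati.solvesOn {κ : Fin n → ℝ} {a b s : ℝ} {V R : ℝ → RMat n}
    (h : IsRiccati κ a b s V R) (hB : ∀ x ∈ Icc a b, ∀ i j, |R x i j| ≤ boxB κ) :
    SolvesOn (ricF κ s V) a b (fun x => (R x : St n)) :=
  fun x hx => hasDerivWithinAt_pi.2 fun i => hasDerivWithinAt_pi.2 fun j =>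
    (h.2 x hx i j).congr_deriv (ricF_eq (hB x hx) i j).symm

/-- A bounded solution of the cut-off equation is a Riccati path. -/
theorem isRiccati_of_cut {κ : Fin n → ℝ} {a b s : ℝ} {V : ℝ → RMat n} {R : ℝ → St n}
    (h0 : R a = (kd κ : St n)) (h : SolvesOn (ricF κ s V) a b R)
    (hB : ∀ x ∈ Icc a b, ∀ i j, |R x i j| ≤ boxB κ) :
    IsRiccati κ a b s V fun x => Matrix.of (R x) :=
  ⟨h0, fun x hx i j => (hasDerivWithinAt_pi.1 (hasDerivWithinAt_pi.1 (h x hx) i) j).congr_deriv
    (ricF_eq (R := Matrix.of (R x)) (hB x hx) i j)⟩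

/-- Solutions of the cut-off equation are symmetric. -/
theorem cut_symm {κ : Fin n → ℝ} {a b s : ℝ} {V : ℝ → RMat n} {R : ℝ → St n}
    (hV : ∀ x, (V x).IsSymm) (h0 : R a = (kd κ : St n)) (h : SolvesOn (ricF κ s V) a b R)
    {x : ℝ} (hx : x ∈ Icc a b) (i j : Fin n) : R x j i = R x i j := by
  have hT : SolvesOn (ricF κ s V) a b fun x i j => R x j i := fun y hy =>
    hasDerivWithinAt_pi.2 fun i => hasDerivWithinAt_pi.2 fun j => by
      refine (hasDerivWithinAt_pi.1 (hasDerivWithinAt_pi.1 (h y hy) j) i).congr_deriv ?_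
      simp only [ricF, clip, ld, (hV y).apply i j]
      rcases eq_or_ne i j with rfl | hij
      · simp [mul_comm]
      · simp [diagonal_apply_ne _ hij, diagonal_apply_ne _ hij.symm, mul_comm]
  have hinit : (fun i j => R a j i) = R a := by
    funext i j
    rw [h0, kd]
    rcases eq_or_ne i j with rfl | hij
    · rfl
    · simp [diagonal_apply_ne _ hij, diagonal_apply_ne _ hij.symm]
  exact congrFun₂ (solvesOn_unique (fun t _ => ricF_lipschitz κ s V t) hT h hinit hx) i j

theorem quad_sq {R : RMat n} (hR : R.IsSymm) (v : Fin n → ℝ) :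
    v ⬝ᵥ ((R * R) *ᵥ v) = ∑ i, (R *ᵥ v) i ^ 2 := by
  rw [← mulVec_mulVec, dotProduct_mulVec, ← mulVec_transpose, hR.eq]
  simp [dotProduct, sq]

/-- A symmetric bounded solution with `R b + diag κ ≥ 0` stays in the box. -/
theorem box_of_endpoint {κ : Fin n → ℝ} {a b s : ℝ} {V R : ℝ → RMat n}
    (hs : 0 ≤ s) (hV : ∀ x, (V x).PosSemidef) (h : IsRiccati κ a b s V R)
    (hR : ∀ x ∈ Icc a b, (R x).IsSymm) (hb : (kd κ + R b).PosSemidef) :
    ∀ x ∈ Icc a b, (kd κ - R x).PosSemidef ∧ (kd κ + R x).PosSemidef := by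
  have hk : (kd κ).IsHermitian := isHermitian_diagonal _
  have hld : kd κ * kd κ = ld κ := by simp [kd, ld, sq]
  have hsy : ∀ (M : RMat n), M.IsHermitian → M.IsSymm := fun M h => h
  have key : ∀ x, ∀ (E : RMat n), E.IsSymm → ∀ v : Fin n → ℝ,
      0 ≤ v ⬝ᵥ ((E * E + s • V x) *ᵥ v) := fun x E hE v => by
    rw [add_mulVec, dotProduct_add, quad_sq hE, smul_mulVec, dotProduct_smul, smul_eq_mul]
    have := (hV x).dotProduct_mulVec_nonneg v
    rw [star_trivial] at this
    positivity
  have hRh : ∀ x ∈ Icc a b, (R x).IsHermitian := fun x hx => hR x hx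
  intro x hx
  constructor
  · refine psd_flow κ (fun y => kd κ - R y) (fun y => -(ld κ - R y * R y - s • V y))
      (fun y hy i j => by simpa using (h.2 y hy i j).const_sub (kd κ i j))
      (fun y hy => hk.sub (hRh y hy))
      (by simp only [h.1, sub_self]; exact PosSemidef.zero) (fun y hy v => ?_) x hx
    refine (key y (kd κ - R y) (hsy _ (hk.sub (hRh y hy))) v).trans_eq ?_
    congr 2
    rw [← hld, kd]
    simp only [mul_sub, sub_mul]
    abel
  · have hm : ∀ y ∈ Icc a b, a + b - y ∈ Icc a b := fun y hy =>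
      ⟨by linarith [hy.2], by linarith [hy.1]⟩
    have := psd_flow κ (fun y => kd κ + R (a + b - y))
      (fun y => -(ld κ - R (a + b - y) * R (a + b - y) - s • V (a + b - y)))
      (fun y hy i j => by
        simpa [Function.comp_def] using (((h.2 (a + b - y) (hm y hy) i j)).scomp y
          (((hasDerivWithinAt_id y (Icc a b)).const_sub (a + b))) hm).const_add (kd κ i j))
      (fun y hy => hk.add (hRh _ (hm y hy))) (by simpa using hb) (fun y hy v => by
        refine (key (a + b - y) (kd κ + R (a + b - y))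
          (hsy _ (hk.add (hRh _ (hm y hy)))) v).trans_eq ?_
        congr 2
        rw [← hld, kd]
        simp only [mul_add, add_mul]
        abel) (a + b - x) (hm x hx)
    simpa using this

/-- The integrand `|u'|² + ⟨u, L u⟩ - s ⟨u, V u⟩`. -/
def qDens (κ : Fin n → ℝ) (s : ℝ) (V : ℝ → RMat n) (u du : ℝ → Fin n → ℝ) (x : ℝ) : ℝ :=
  (∑ i, (du x i ^ 2 + κ i ^ 2 * u x i ^ 2)) - s * (u x ⬝ᵥ (V x *ᵥ u x))

theorem continuousOn_quad {a b : ℝ} {M : ℝ → RMat n} {u : ℝ → Fin n → ℝ}
    (hM : ∀ i j, ContinuousOn (fun x => M x i j) (Icc a b))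
    (hu : ∀ i, ContinuousOn (fun x => u x i) (Icc a b)) :
    ContinuousOn (fun x => u x ⬝ᵥ (M x *ᵥ u x)) (Icc a b) := by
  simp only [dotProduct, mulVec]
  exact continuousOn_finsetSum _ fun i _ => (hu i).mul
    (continuousOn_finsetSum _ fun j _ => (hM i j).mul (hu j))

/-- Completing the square along a Riccati path. -/
theorem picone {κ : Fin n → ℝ} {a b s : ℝ} {V R : ℝ → RMat n} {u du : ℝ → Fin n → ℝ}
    (hab : a ≤ b) (hV : Continuous V) (h : IsRiccati κ a b s V R)
    (hR : ∀ x ∈ Icc a b, (R x).IsSymm)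
    (hu : ∀ x ∈ Icc a b, ∀ i, HasDerivWithinAt (fun y => u y i) (du x i) (Icc a b) x)
    (hdu : ∀ i, ContinuousOn (fun x => du x i) (Icc a b)) :
    ∫ x in a..b, qDens κ s V u du x =
      (∫ x in a..b, ∑ i, (du x i - (R x *ᵥ u x) i) ^ 2) +
        (u b ⬝ᵥ (R b *ᵥ u b) - u a ⬝ᵥ (R a *ᵥ u a)) := by
  have huc : ∀ i, ContinuousOn (fun x => u x i) (Icc a b) := fun i x hx =>
    (hu x hx i).continuousWithinAt
  have hVc : ∀ i j, ContinuousOn (fun x => V x i j) (Icc a b) := fun i j =>
    (hV.matrix_elem i j).continuousOn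
  have hsq : ContinuousOn (fun x => ∑ i, (du x i - (R x *ᵥ u x) i) ^ 2) (Icc a b) := by
    simp only [mulVec, dotProduct]
    exact continuousOn_finsetSum _ fun i _ => ((hdu i).sub (continuousOn_finsetSum _ fun j _ =>
      (h.continuousOn i j).mul (huc j))).pow 2
  have hq : ContinuousOn (qDens κ s V u du) (Icc a b) :=
    (continuousOn_finsetSum _ fun i _ =>
      ((hdu i).pow 2).add (continuousOn_const.mul ((huc i).pow 2))).sub
      (continuousOn_const.mul (continuousOn_quad hVc huc))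
  have hf : ContinuousOn (fun x => u x ⬝ᵥ (R x *ᵥ u x)) (Icc a b) :=
    continuousOn_quad h.continuousOn huc
  have hd : ∀ x ∈ Icc a b, HasDerivWithinAt (fun y => u y ⬝ᵥ (R y *ᵥ u y))
      (qDens κ s V u du x - ∑ i, (du x i - (R x *ᵥ u x) i) ^ 2) (Icc a b) x := by
    intro x hx
    have e : qDens κ s V u du x - ∑ i, (du x i - (R x *ᵥ u x) i) ^ 2 =
        du x ⬝ᵥ (R x *ᵥ u x) + u x ⬝ᵥ (R x *ᵥ du x) +
          u x ⬝ᵥ ((ld κ - R x * R x - s • V x) *ᵥ u x) := by
      have hsym : u x ⬝ᵥ (R x *ᵥ du x) = du x ⬝ᵥ (R x *ᵥ u x) := by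
        rw [dotProduct_mulVec, ← mulVec_transpose, (hR x hx).eq, dotProduct_comm]
      have hl : u x ⬝ᵥ (ld κ *ᵥ u x) = ∑ i, κ i ^ 2 * u x i ^ 2 := by
        simp only [dotProduct, ld, mulVec_diagonal]
        exact Finset.sum_congr rfl fun i _ => by ring
      rw [hsym, sub_mulVec, sub_mulVec, dotProduct_sub, dotProduct_sub, hl, quad_sq (hR x hx),
        smul_mulVec, dotProduct_smul, smul_eq_mul]
      simp only [qDens, dotProduct, Finset.sum_add_distrib, sub_sq, Finset.sum_sub_distrib,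
        mul_assoc, ← Finset.mul_sum]
      ring
    rw [e]
    simp only [dotProduct, mulVec, ← Finset.sum_add_distrib]
    refine HasDerivWithinAt.fun_sum fun i _ => ?_
    refine ((hu x hx i).mul (HasDerivWithinAt.fun_sum fun j _ =>
      (h.2 x hx i j).mul (hu x hx j))).congr_deriv ?_
    simp only [Pi.mul_apply, Finset.sum_add_distrib]
    rw [Finset.mul_sum, mul_add, Finset.mul_sum, Finset.mul_sum]
    abel
  have hi : ∀ {f : ℝ → ℝ}, ContinuousOn f (Icc a b) → IntervalIntegrable f volume a b :=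
    fun hf => hf.intervalIntegrable_of_Icc hab
  have hftc := intervalIntegral.integral_eq_sub_of_hasDerivAt_of_le hab hf
    (fun x hx => (hd x (Ioo_subset_Icc_self hx)).hasDerivAt (Icc_mem_nhds hx.1 hx.2))
    ((hi hq).sub (hi hsq))
  rw [intervalIntegral.integral_sub (hi hq) (hi hsq)] at hftc
  linarith

end Vale.Agent.P371.Lift
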