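import Vale.Agent.P371.Lift.Realify

/-!
# P371: smooth compactly supported trial data from real eigenfunctions
-/

namespace Vale.Agent.P371.Lift

open Matrix MeasureTheory Set Filter
open scoped Topology

variable {n m : ℕ}

/-- Real eigen-data of a measurable potential: orthonormal, with the form identities. -/
structure RealData (K : Fin n → ℝ) (W : ℝ → RMat m) (w : ℝ → ℝ) (M : ℝ)
    (u du : Fin n → Fin m → ℝ → ℝ) : Prop where
  meas : ∀ c d, Measurable fun x => W x c d
  psd : ∀ x, (W x).PosSemidef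
  wint : Integrable w
  Mnn : 0 ≤ M
  wle : ∀ x c d, |W x c d| ≤ w x + M
  cont : ∀ j c, Continuous (u j c)
  bdd : ∀ j c, ∃ B, ∀ x, |u j c x| ≤ B
  sq : ∀ j c, Integrable fun x => u j c x ^ 2
  dloc : ∀ j c a b, IntervalIntegrable (du j c) volume a b
  dmeas : ∀ j c, AEStronglyMeasurable (du j c) volume
  dsq : ∀ j c, Integrable fun x => du j c x ^ 2
  ftc : ∀ j c a b, ∫ t in a..b, du j c t = u j c b - u j c a
  orth : ∀ j k, ∑ c, ∫ x, u j c x * u k c x = if j = k then 1 else 0
  eigen : ∀ j k, (∑ c, ∫ x, du j c x * du k c x) -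
      ∫ x, ∑ c, ∑ d, u j c x * W x c d * u k d x = if j = k then -K j ^ 2 else 0

theorem integrable_mul_of_sq {f g : ℝ → ℝ} (hf : AEStronglyMeasurable f volume)
    (hg : AEStronglyMeasurable g volume) (hf2 : Integrable fun x => f x ^ 2)
    (hg2 : Integrable fun x => g x ^ 2) : Integrable fun x => f x * g x :=
  (hf2.add hg2).mono' (hf.mul hg) (Eventually.of_forall fun x => by
    rw [Real.norm_eq_abs, abs_mul, Pi.add_apply]
    nlinarith [sq_nonneg (|f x| - |g x|), sq_abs (f x), sq_abs (g x), abs_nonneg (f x),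
      abs_nonneg (g x)])

theorem intervalIntegral_le_integral {f : ℝ → ℝ} {a b : ℝ} (hab : a ≤ b) (hf : Integrable f)
    (h0 : ∀ x, 0 ≤ f x) : ∫ x in a..b, f x ≤ ∫ x, f x := by
  rw [intervalIntegral.integral_of_le hab]
  exact setIntegral_le_integral hf (Eventually.of_forall h0)

/-- A square of a combination, integrated. -/
theorem integral_combo_sq {ι : Type*} [Fintype ι] {F : ι → ℝ → ℝ}
    (hm : ∀ j, AEStronglyMeasurable (F j) volume) (h2 : ∀ j, Integrable fun x => F j x ^ 2)
    (a : ι → ℝ) :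
    Integrable (fun x => (∑ j, a j * F j x) ^ 2) ∧
      ∫ x, (∑ j, a j * F j x) ^ 2 = ∑ j, ∑ k, a j * a k * ∫ x, F j x * F k x := by
  have e : (fun x => (∑ j, a j * F j x) ^ 2) =
      fun x => ∑ j, ∑ k, a j * a k * (F j x * F k x) := by
    funext x
    rw [pow_two, Finset.sum_mul_sum]
    exact Finset.sum_congr rfl fun j _ => Finset.sum_congr rfl fun k _ => by ring
  have hjk : ∀ j k, Integrable fun x => a j * a k * (F j x * F k x) := fun j k =>
    (integrable_mul_of_sq (hm j) (hm k) (h2 j) (h2 k)).const_mul _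
  rw [e]
  refine ⟨integrable_finsetSum _ fun j _ => integrable_finsetSum _ fun k _ => hjk j k, ?_⟩
  rw [integral_finsetSum _ fun j _ => integrable_finsetSum _ fun k _ => hjk j k]
  refine Finset.sum_congr rfl fun j _ => ?_
  rw [integral_finsetSum _ fun k _ => hjk j k]
  exact Finset.sum_congr rfl fun k _ => integral_const_mul _ _

theorem sq_add_le_weight {η x y : ℝ} (hη : 0 < η) :
    (x + y) ^ 2 ≤ (1 + η) * x ^ 2 + (1 + η⁻¹) * y ^ 2 := by
  have h : 0 ≤ η⁻¹ * (η * x - y) ^ 2 := by positivity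
  have e : η⁻¹ * (η * x - y) ^ 2 = η * x ^ 2 - 2 * x * y + η⁻¹ * y ^ 2 := by
    field_simp
    ring
  nlinarith

theorem envelope {f df : ℝ → ℝ} (hf : Continuous f) {B : ℝ} (hB : ∀ x, |f x| ≤ B)
    (hf2 : Integrable fun x => f x ^ 2) (hdl : ∀ a b, IntervalIntegrable df volume a b)
    (hd2 : Integrable fun x => df x ^ 2) (hftc : ∀ a b, ∫ t in a..b, df t = f b - f a) :
    ∃ Φ : ℝ → ℝ, Continuous Φ ∧ Integrable (fun y => Φ y ^ 2) ∧ (∃ D, ∀ y, Φ y ^ 2 ≤ D) ∧
      (∀ y, |f y| ≤ Φ y) ∧
      ∀ h y z : ℝ, 0 < h → h ≤ 1 → |z - y| ≤ 1 → |avg h f z| ≤ Φ y := by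
  set g := fun t => |df t|
  have hg : ∀ a b, IntervalIntegrable g volume a b := fun a b => (hdl a b).abs
  have hg2 : Integrable fun t => g t ^ 2 := by simpa [g] using hd2
  obtain ⟨hi, _⟩ := integral_sq_avg_le two_pos hg hg2
  have havg0 : ∀ y, 0 ≤ avg 2 g y := fun y => avg_nonneg two_pos.le fun t => abs_nonneg _
  have key : ∀ y t, |t - y| ≤ 2 → |f t| ≤ |f y| + 4 * avg 2 g y := by
    intro y t ht
    obtain ⟨ht1, ht2⟩ := abs_le.1 ht
    have e : f t = f y + ∫ s in y..t, df s := by rw [hftc]; ring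
    have b : |∫ s in y..t, df s| ≤ ∫ s in (y - 2)..(y + 2), g s := by
      rw [← Real.norm_eq_abs]
      refine le_trans intervalIntegral.norm_integral_le_integral_norm_uIoc ?_
      rw [intervalIntegral.integral_of_le (by linarith : y - 2 ≤ y + 2)]
      refine setIntegral_mono_set (hg _ _).1 (Eventually.of_forall fun s => abs_nonneg _)
        (Eventually.of_forall ?_)
      intro s hs
      rcases mem_uIoc.1 hs with h | h <;> exact ⟨by linarith [h.1], by linarith [h.2]⟩
    rw [e]
    refine (abs_add_le _ _).trans ?_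
    rw [avg]
    linarith
  refine ⟨fun y => |f y| + 4 * avg 2 g y, hf.abs.add ((continuous_avg hg).const_smul (4:ℝ)),
    ?_, ⟨2 * B ^ 2 + 8 * ∫ t, df t ^ 2, fun y => ?_⟩,
    fun y => by linarith [havg0 y], fun h y z hh hh1 hz => ?_⟩
  · refine ((hf2.const_mul 2).add (hi.const_mul 32)).mono'
      ((hf.abs.add ((continuous_avg hg).const_smul (4:ℝ))).pow 2).aestronglyMeasurable
      (Eventually.of_forall fun y => ?_)
    rw [Real.norm_of_nonneg (sq_nonneg _), Pi.add_apply]
    nlinarith [sq_nonneg (|f y| - 4 * avg 2 g y), sq_abs (f y)]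
  · have h1 := sq_avg_le two_pos (hg (y - 2) (y + 2)) hg2.intervalIntegrable
    have h2 : avg 2 (fun t => g t ^ 2) y ≤ 4⁻¹ * ∫ t, df t ^ 2 := by
      have := intervalIntegral_le_integral (by linarith : y - 2 ≤ y + 2) hg2 fun t => sq_nonneg _
      simp only [g, sq_abs] at this ⊢
      rw [avg]
      norm_num
      linarith
    have h3 : f y ^ 2 ≤ B ^ 2 := sq_le_sq' (by linarith [abs_le.1 (hB y)]) (abs_le.1 (hB y)).2
    nlinarith [sq_nonneg (|f y| - 4 * avg 2 g y), sq_abs (f y)]
  · refine abs_avg_le hh (hf.intervalIntegrable _ _) fun t ht => key y t ?_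
    rw [abs_le] at hz ⊢
    constructor <;> linarith [hz.1, hz.2, ht.1, ht.2]

theorem trace_expand (a : Fin n → ℝ) (X : Matrix (Fin n) (Fin m) ℝ) (W : RMat m) :
    ∑ d, (∑ c, (∑ j, a j * X j c) * W c d) * (∑ l, a l * X l d) =
      ∑ j, ∑ l, a j * a l * ∑ c, ∑ d, X j c * W c d * X l d := by
  calc _ = ∑ d, ∑ c, ∑ j, ∑ l, a j * a l * (X j c * W c d * X l d) := by
        simp_rw [Finset.sum_mul, Finset.mul_sum]
        refine Finset.sum_congr rfl fun d _ => Finset.sum_congr rfl fun c _ =>
          Finset.sum_congr rfl fun j _ => Finset.sum_congr rfl fun l _ => by ring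
    _ = ∑ c, ∑ d, ∑ j, ∑ l, a j * a l * (X j c * W c d * X l d) := Finset.sum_comm
    _ = ∑ c, ∑ j, ∑ d, ∑ l, a j * a l * (X j c * W c d * X l d) :=
        Finset.sum_congr rfl fun c _ => Finset.sum_comm
    _ = ∑ j, ∑ c, ∑ d, ∑ l, a j * a l * (X j c * W c d * X l d) := Finset.sum_comm
    _ = ∑ j, ∑ c, ∑ l, ∑ d, a j * a l * (X j c * W c d * X l d) :=
        Finset.sum_congr rfl fun j _ => Finset.sum_congr rfl fun c _ => Finset.sum_comm
    _ = ∑ j, ∑ l, ∑ c, ∑ d, a j * a l * (X j c * W c d * X l d) :=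
        Finset.sum_congr rfl fun j _ => Finset.sum_comm
    _ = _ := by simp only [Finset.mul_sum]

/-- A fixed smooth cutoff. -/
noncomputable def bump : ContDiffBump (0 : ℝ) := ⟨1, 2, one_pos, one_lt_two⟩

theorem hasDerivAt_bump (x : ℝ) : HasDerivAt bump (deriv bump x) x :=
  ((bump.contDiff (n := 1)).differentiable (by norm_num) x).hasDerivAt

theorem continuous_deriv_bump : Continuous (deriv bump) :=
  (bump.contDiff (n := 1)).continuous_deriv le_rfl

theorem bump_zero {y : ℝ} (hy : 2 ≤ |y|) : bump y = 0 :=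
  bump.zero_of_le_dist (by simpa [bump] using hy)

theorem bump_one {y : ℝ} (hy : |y| ≤ 1) : bump y = 1 :=
  bump.one_of_mem_closedBall (by simpa [bump] using hy)

/-- The radius of the `k`-th cutoff. -/
noncomputable def rad (k : ℕ) : ℝ := (k : ℝ) + 1

/-- The averaging length of the `k`-th step. -/
noncomputable def len (k : ℕ) : ℝ := 1 / ((k : ℝ) + 1)

theorem rad_pos (k : ℕ) : 0 < rad k := by unfold rad; positivity

theorem len_pos (k : ℕ) : 0 < len k := by unfold len; positivity

theorem len_le_one (k : ℕ) : len k ≤ 1 := by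
  rw [len, div_le_one (by positivity)]
  linarith [(Nat.cast_nonneg k : (0:ℝ) ≤ k)]

/-- The `k`-th trial family. -/
noncomputable def trialP (u : Fin n → Fin m → ℝ → ℝ) (k : ℕ) (x : ℝ) : Matrix (Fin n) (Fin m) ℝ :=
  Matrix.of fun j c => bump (x / rad k) * avg (len k) (u j c) x

/-- Its derivative. -/
noncomputable def trialD (u du : Fin n → Fin m → ℝ → ℝ) (k : ℕ) (x : ℝ) :
    Matrix (Fin n) (Fin m) ℝ :=
  Matrix.of fun j c => deriv bump (x / rad k) * (1 / rad k) * avg (len k) (u j c) x +
    bump (x / rad k) * avg (len k) (du j c) x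

theorem trialP_zero (u : Fin n → Fin m → ℝ → ℝ) {k : ℕ} {x : ℝ} (hx : 2 * rad k ≤ |x|) :
    trialP u k x = 0 := by
  ext j c
  have : bump (x / rad k) = 0 := bump_zero (by
    rw [abs_div, abs_of_pos (rad_pos k), le_div_iff₀ (rad_pos k)]; exact hx)
  simp [trialP, this]

theorem trialP_zero_of_notMem (u : Fin n → Fin m → ℝ → ℝ) {k : ℕ} {x : ℝ}
    (hx : x ∉ Ioc (-(2 * rad k)) (2 * rad k)) : trialP u k x = 0 := by
  refine trialP_zero u ?_
  simp only [Set.mem_Ioc, not_and_or, not_lt, not_le] at hx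
  rcases hx with hx | hx
  · exact le_trans (by linarith) (neg_le_abs x)
  · exact le_trans hx.le (le_abs_self x)

section

variable {K : Fin n → ℝ} {W : ℝ → RMat m} {w : ℝ → ℝ} {M : ℝ} {u du : Fin n → Fin m → ℝ → ℝ}

theorem RealData.loc (hd : RealData K W w M u du) :
    ∀ c d a b, IntervalIntegrable (fun x => W x c d) volume a b := by
  intro c d a b
  refine (hd.wint.intervalIntegrable.add intervalIntegrable_const :
    IntervalIntegrable (fun x => w x + M) volume a b).mono_fun'
    (hd.meas c d).aestronglyMeasurable.restrict (Eventually.of_forall fun x => ?_)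
  exact hd.wle x c d

theorem trialP_continuous (hd : RealData K W w M u du) (k : ℕ) (j : Fin n) (c : Fin m) :
    Continuous fun x => trialP u k x j c :=
  (bump.continuous.comp (continuous_id.div_const _)).mul
    (continuous_avg fun a b => (hd.cont j c).intervalIntegrable a b)

theorem trial_hasDerivAt (hd : RealData K W w M u du) (k : ℕ) (x : ℝ) (j : Fin n) (c : Fin m) :
    HasDerivAt (fun y => trialP u k y j c) (trialD u du k x j c) x := by
  have h1 : HasDerivAt (fun y => bump (y / rad k)) (deriv bump (x / rad k) * (1 / rad k)) x :=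
    HasDerivAt.comp (h₂ := fun y => bump y) (h := fun y => y / rad k) x (hasDerivAt_bump _)
      ((hasDerivAt_id x).div_const (rad k))
  exact h1.mul (hasDerivAt_avg (hd.cont j c) (hd.ftc j c) x)

theorem trialD_continuous (hd : RealData K W w M u du) (k : ℕ) : Continuous (trialD u du k) :=
  continuous_pi fun j => continuous_pi fun c =>
    (((continuous_deriv_bump.comp (continuous_id.div_const _)).mul continuous_const).mul
      (continuous_avg fun a b => (hd.cont j c).intervalIntegrable a b)).add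
      ((bump.continuous.comp (continuous_id.div_const _)).mul (continuous_avg (hd.dloc j c)))

theorem trial_term_integrable (hd : RealData K W w M u du) (k : ℕ) (j l : Fin n) (c d : Fin m) :
    Integrable fun x => trialP u k x j c * avgM (len k) W x c d * trialP u k x l d :=
  (((trialP_continuous hd k j c).mul (continuous_avg (hd.loc c d))).mul
    (trialP_continuous hd k l d)).integrable_of_hasCompactSupport
    (HasCompactSupport.intro (isCompact_Icc (a := -(2 * rad k)) (b := 2 * rad k)) fun x hx => by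
      simp [trialP_zero_of_notMem u fun h => hx (Ioc_subset_Icc_self h)])

theorem trial_tendsto (hd : RealData K W w M u du) (j l : Fin n) :
    Tendsto (fun k => ∫ x, ∑ c, ∑ d,
        trialP u k x j c * avgM (len k) W x c d * trialP u k x l d) atTop
      (𝓝 (∫ x, ∑ c, ∑ d, u j c x * W x c d * u l d x)) := by
  choose Bu hBu using hd.bdd
  choose Φ hΦc hΦi hΦb hΦf hΦavg using fun j c =>
    envelope (hd.cont j c) (hBu j c) (hd.sq j c) (hd.dloc j c) (hd.dsq j c) (hd.ftc j c)
  choose D hD using hΦb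
  -- domination
  have hdom : ∀ j l c d, Integrable fun y => |W y c d| * (Φ j c y ^ 2 + Φ l d y ^ 2) := by
    intro j l c d
    refine (((hd.wint.abs).const_mul (D j c + D l d)).add
      (((hΦi j c).add (hΦi l d)).const_mul M)).mono'
      ((hd.meas c d).aestronglyMeasurable.norm.mul
        (((hΦc j c).pow 2).add ((hΦc l d).pow 2)).aestronglyMeasurable)
      (Eventually.of_forall fun y => ?_)
    simp only [Pi.add_apply]
    rw [Real.norm_of_nonneg (by positivity)]
    calc |W y c d| * (Φ j c y ^ 2 + Φ l d y ^ 2)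
        ≤ (|w y| + M) * (Φ j c y ^ 2 + Φ l d y ^ 2) :=
          mul_le_mul_of_nonneg_right (le_trans (hd.wle y c d) (by linarith [le_abs_self (w y)]))
            (by positivity)
      _ ≤ (D j c + D l d) * |w y| + M * (Φ j c y ^ 2 + Φ l d y ^ 2) := by
          rw [add_mul, mul_comm (|w y|)]
          exact add_le_add_left
            (mul_le_mul_of_nonneg_right (add_le_add (hD j c y) (hD l d y)) (abs_nonneg _)) _
  have hterm : ∀ j l c d, Integrable fun x => u j c x * W x c d * u l d x := by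
    intro j l c d
    refine (hdom j l c d).mono' (((hd.cont j c).aestronglyMeasurable.mul
      (hd.meas c d).aestronglyMeasurable).mul (hd.cont l d).aestronglyMeasurable)
      (Eventually.of_forall fun x => ?_)
    rw [Real.norm_eq_abs, abs_mul, abs_mul]
    have h1 := mul_le_mul (hΦf j c x) (hΦf l d x) (abs_nonneg _)
      (le_trans (abs_nonneg _) (hΦf j c x))
    nlinarith [mul_le_mul_of_nonneg_left h1 (abs_nonneg (W x c d)),
      sq_nonneg (Φ j c x - Φ l d x), abs_nonneg (W x c d), sq_nonneg (Φ j c x), sq_nonneg (Φ l d x)]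
  have hkterm := trial_term_integrable hd
  have hPc := trialP_continuous hd
  have hPΦ : ∀ k j c y z, |z - y| ≤ 1 → |trialP u k z j c| ≤ Φ j c y := fun k j c y z hz => by
    simp only [trialP, of_apply, abs_mul]
    calc |bump (z / rad k)| * |avg (len k) (u j c) z| ≤ 1 * Φ j c y := by
          refine mul_le_mul ?_ (hΦavg j c (len k) y z (len_pos k) (len_le_one k) hz) (abs_nonneg _)
            zero_le_one
          rw [abs_of_nonneg bump.nonneg]
          exact bump.le_one
      _ = _ := one_mul _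
  have e : ∀ k, (∫ x, ∑ c, ∑ d,
      trialP u k x j c * avgM (len k) W x c d * trialP u k x l d) =
      ∑ c, ∑ d, ∫ x, W x c d * avg (len k) (fun z => trialP u k z j c * trialP u k z l d) x := by
    intro k
    rw [integral_finsetSum _ fun c _ => integrable_finsetSum _ fun d _ => hkterm k j l c d]
    refine Finset.sum_congr rfl fun c _ => ?_
    rw [integral_finsetSum _ fun d _ => hkterm k j l c d]
    refine Finset.sum_congr rfl fun d _ => ?_
    rw [← integral_avg_mul (len_pos k) (hd.loc c d) (g := fun z => trialP u k z j c * trialP u k z l d)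
      ((hPc k j c).mul (hPc k l d)) (R := 2 * rad k) fun t ht => by simp [trialP_zero u ht]]
    exact integral_congr_ae (Eventually.of_forall fun x => by simp only [avgM, of_apply]; ring)
  have e0 : (∫ x, ∑ c, ∑ d, u j c x * W x c d * u l d x) = ∑ c, ∑ d, ∫ x, W x c d * (u j c x * u l d x) := by
    rw [integral_finsetSum _ fun c _ => integrable_finsetSum _ fun d _ => hterm j l c d]
    refine Finset.sum_congr rfl fun c _ => ?_
    rw [integral_finsetSum _ fun d _ => hterm j l c d]
    exact Finset.sum_congr rfl fun d _ => integral_congr_ae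
      (Eventually.of_forall fun x => by ring)
  simp only [e, e0]
  refine tendsto_finsetSum _ fun c _ => tendsto_finsetSum _ fun d _ => ?_
  refine tendsto_integral_of_dominated_convergence
    (fun y => |W y c d| * (Φ j c y ^ 2 + Φ l d y ^ 2))
    (fun k => (hd.meas c d).aestronglyMeasurable.mul (continuous_avg fun a b =>
      ((hPc k j c).mul (hPc k l d)).intervalIntegrable a b).aestronglyMeasurable)
    (hdom j l c d) (fun k => Eventually.of_forall fun y => ?_) (Eventually.of_forall fun y => ?_)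
  · rw [Real.norm_eq_abs, abs_mul]
    refine mul_le_mul_of_nonneg_left (abs_avg_le (len_pos k)
      (((hPc k j c).mul (hPc k l d)).intervalIntegrable _ _) fun t ht => ?_) (abs_nonneg _)
    have hty : |t - y| ≤ 1 := by
      rw [abs_le]; constructor <;> linarith [ht.1, ht.2, len_le_one k]
    rw [abs_mul]
    have h1 := hPΦ k j c y t hty
    have h2 := hPΦ k l d y t hty
    nlinarith [sq_nonneg (Φ j c y - Φ l d y), mul_le_mul h1 h2 (abs_nonneg _)
      (le_trans (abs_nonneg _) h1)]
  · refine Tendsto.const_mul _ (Metric.tendsto_atTop.2 fun ε hε => ?_)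
    obtain ⟨δ, hδ, hmul⟩ := Metric.continuousAt_iff.1
      (continuous_mul.continuousAt (x := (u j c y, u l d y))) (ε / 2) (by linarith)
    obtain ⟨δ₁, hδ₁, hu₁⟩ := Metric.continuousAt_iff.1 (hd.cont j c).continuousAt (δ / 2)
      (by linarith)
    obtain ⟨δ₂, hδ₂, hu₂⟩ := Metric.continuousAt_iff.1 (hd.cont l d).continuousAt (δ / 2)
      (by linarith)
    obtain ⟨N, hN⟩ := exists_nat_gt (max (|y| + 1) (2 / min δ₁ δ₂))
    refine ⟨N, fun k hk => ?_⟩
    have hkN : (N : ℝ) ≤ k := Nat.cast_le.2 hk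
    have hmin : 0 < min δ₁ δ₂ := lt_min hδ₁ hδ₂
    have hsmall : 2 * len k < min δ₁ δ₂ := by
      have : 2 / min δ₁ δ₂ < (k : ℝ) + 1 := by
        linarith [le_max_right (|y| + 1) (2 / min δ₁ δ₂)]
      rw [div_lt_iff₀ hmin] at this
      simp only [len, ← mul_div_assoc, mul_one]
      rw [div_lt_iff₀ (by positivity : (0:ℝ) < (k:ℝ) + 1)]
      linarith
    rw [Real.dist_eq]
    refine lt_of_le_of_lt (abs_avg_sub_le (len_pos k) (ε := ε / 2)
      (((hPc k j c).mul (hPc k l d)).intervalIntegrable _ _) fun z hz => ?_) (by linarith)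
    have hzy : |z - y| ≤ len k := by
      rw [abs_le]; constructor <;> linarith [hz.1, hz.2]
    have hz1 : bump (z / rad k) = 1 := bump_one (by
      rw [abs_div, abs_of_pos (rad_pos k), div_le_one (rad_pos k)]
      have h3 : |z| ≤ |y| + 1 := by
        have := abs_sub_abs_le_abs_sub z y
        linarith [len_le_one k]
      unfold rad
      linarith [le_max_left (|y| + 1) (2 / min δ₁ δ₂)])
    have close : ∀ (j : Fin n) (c : Fin m) (δ' : ℝ), 2 * len k < δ' →
        (∀ ⦃t : ℝ⦄, dist t y < δ' → dist (u j c t) (u j c y) < δ / 2) →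
        dist (trialP u k z j c) (u j c y) < δ := by
      intro j c δ' h2 hc
      simp only [trialP, of_apply, hz1, one_mul, Real.dist_eq]
      refine lt_of_le_of_lt (abs_avg_sub_le (len_pos k) (ε := δ / 2)
        ((hd.cont j c).intervalIntegrable _ _) fun t ht => ?_) (by linarith)
      have := hc (t := t) (by
        rw [Real.dist_eq]
        refine lt_of_le_of_lt ?_ h2
        rw [abs_le] at hzy ⊢
        constructor <;> linarith [ht.1, ht.2, hzy.1, hzy.2])
      rw [Real.dist_eq] at this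
      exact this.le
    have := hmul (x := (trialP u k z j c, trialP u k z l d)) (by
      rw [Prod.dist_eq, max_lt_iff]
      exact ⟨close j c δ₁ (lt_of_lt_of_le hsmall (min_le_left _ _)) hu₁,
        close l d δ₂ (lt_of_lt_of_le hsmall (min_le_right _ _)) hu₂⟩)
    rw [Real.dist_eq] at this
    exact this.le

/-- The cost of the `k`-th family. -/
theorem trial_cost_le (hd : RealData K W w M u du) (κ : Fin n → ℝ) {η Cd : ℝ} (hη0 : 0 < η)
    (hCd : ∀ y, ‖deriv bump y‖ ≤ Cd) (k : ℕ) (A : Fin n → Fin n → ℝ) :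
    cost κ (-(2 * rad k)) (2 * rad k) (trialP u k) (trialD u du k) A ≤
      ∑ c, ∑ i, ((1 + η) * (∫ x, (∑ j, A i j * du j c x) ^ 2) +
        (κ i ^ 2 + Cd ^ 2 * (1 + η⁻¹) * (1 / rad k) ^ 2) * ∫ x, (∑ j, A i j * u j c x) ^ 2) := by
  have hab : -(2 * rad k) ≤ 2 * rad k := by linarith [rad_pos k]
  set f : Fin n → Fin m → ℝ → ℝ := fun i c x => ∑ j, A i j * u j c x with hf
  set g : Fin n → Fin m → ℝ → ℝ := fun i c x => ∑ j, A i j * du j c x with hg
  have hfl : ∀ i c a b, IntervalIntegrable (f i c) volume a b := fun i c a b =>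
    (continuous_finsetSum _ fun j _ => (hd.cont j c).const_smul (A i j)).intervalIntegrable a b
  have hgl : ∀ i c a b, IntervalIntegrable (g i c) volume a b := fun i c a b => by
    have := IntervalIntegrable.sum Finset.univ (f := fun j x => A i j * du j c x) (a := a)
      (b := b) (μ := volume) fun j _ => (hd.dloc j c a b).const_mul _
    simpa [hg, Finset.sum_fn] using this
  have hf2 := fun i c => integral_combo_sq (F := fun j => u j c)
    (fun j => (hd.cont j c).aestronglyMeasurable) (fun j => hd.sq j c) (A i)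
  have hg2 := fun i c => integral_combo_sq (F := fun j => du j c)
    (fun j => hd.dmeas j c) (fun j => hd.dsq j c) (A i)
  have hXi : ∀ x i c, mix A (trialP u k) x i c = bump (x / rad k) * avg (len k) (f i c) x := by
    intro x i c
    rw [hf, avg_sum Finset.univ (fun j => u j c)
      (fun j _ => (hd.cont j c).intervalIntegrable _ _)]
    simp only [mix, trialP, Matrix.mul_apply, of_apply, Finset.mul_sum]
    exact Finset.sum_congr rfl fun j _ => by ring
  have hdXi : ∀ x i c, mix A (trialD u du k) x i c =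
      bump (x / rad k) * avg (len k) (g i c) x + deriv bump (x / rad k) * (1 / rad k) * avg (len k) (f i c) x := by
    intro x i c
    rw [hf, hg, avg_sum Finset.univ (fun j => u j c)
      (fun j _ => (hd.cont j c).intervalIntegrable _ _),
      avg_sum Finset.univ (fun j => du j c) (fun j _ => hd.dloc j c _ _)]
    simp only [mix, trialD, Matrix.mul_apply, of_apply, Finset.mul_sum, ← Finset.sum_add_distrib]
    exact Finset.sum_congr rfl fun j _ => by ring
  set τ := Cd ^ 2 * (1 + η⁻¹) * (1 / rad k) ^ 2 with hτ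
  have hpt : ∀ x i c, mix A (trialD u du k) x i c ^ 2 + κ i ^ 2 * mix A (trialP u k) x i c ^ 2 ≤
      (1 + η) * avg (len k) (g i c) x ^ 2 + (κ i ^ 2 + τ) * avg (len k) (f i c) x ^ 2 := by
    intro x i c
    rw [hXi, hdXi]
    refine le_trans (add_le_add (sq_add_le_weight hη0) le_rfl) ?_
    have c1 : bump (x / rad k) ^ 2 ≤ 1 := by
      nlinarith [bump.le_one (x := x / rad k), bump.nonneg (x := x / rad k)]
    have c2 : (deriv bump (x / rad k) * (1 / rad k)) ^ 2 ≤ Cd ^ 2 * (1 / rad k) ^ 2 := by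
      rw [mul_pow]
      refine mul_le_mul_of_nonneg_right ?_ (sq_nonneg _)
      exact sq_le_sq' (by linarith [abs_le.1 (hCd (x / rad k))]) (abs_le.1 (hCd (x / rad k))).2
    simp only [mul_pow] at c2 ⊢
    have t1 := mul_le_mul_of_nonneg_left (mul_le_mul_of_nonneg_right c1
      (sq_nonneg (avg (len k) (g i c) x))) (by linarith : (0:ℝ) ≤ 1 + η)
    have t2 := mul_le_mul_of_nonneg_left (mul_le_mul_of_nonneg_right c2
      (sq_nonneg (avg (len k) (f i c) x))) (by positivity : (0:ℝ) ≤ 1 + η⁻¹)
    have t3 := mul_le_mul_of_nonneg_left (mul_le_mul_of_nonneg_right c1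
      (sq_nonneg (avg (len k) (f i c) x))) (sq_nonneg (κ i))
    simp only [one_mul] at t1 t3
    rw [hτ]
    nlinarith
  have hτ0 : 0 ≤ τ := by positivity
  have havf := fun i c => integral_sq_avg_le (len_pos k) (hfl i c) (hf2 i c).1
  have havg := fun i c => integral_sq_avg_le (len_pos k) (hgl i c) (hg2 i c).1
  have hmc : ∀ i c, Continuous fun x => mix A (trialP u k) x i c := fun i c => by
    simp only [hXi]
    exact (bump.continuous.comp (continuous_id.div_const _)).mul (continuous_avg (hfl i c))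
  have hdmc : ∀ i c, Continuous fun x => mix A (trialD u du k) x i c := fun i c => by
    simp only [hdXi]
    exact ((bump.continuous.comp (continuous_id.div_const _)).mul (continuous_avg (hgl i c))).add
      (((continuous_deriv_bump.comp (continuous_id.div_const _)).mul continuous_const).mul
        (continuous_avg (hfl i c)))
  show cost κ (-(2 * rad k)) (2 * rad k) (trialP u k) (trialD u du k) A ≤
      ∑ c, ∑ i, ((1 + η) * (∫ x, g i c x ^ 2) + (κ i ^ 2 + τ) * ∫ x, f i c x ^ 2)
  refine Finset.sum_le_sum fun c _ => ?_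
  have hb : ∀ i, Integrable fun x => (1 + η) * avg (len k) (g i c) x ^ 2 +
      (κ i ^ 2 + τ) * avg (len k) (f i c) x ^ 2 := fun i =>
    ((havg i c).1.const_mul _).add ((havf i c).1.const_mul _)
  rw [energy]
  refine le_trans (intervalIntegral.integral_mono_on hab
    ((continuous_finsetSum _ fun i _ => ((hdmc i c).pow 2).add
      (continuous_const.mul ((hmc i c).pow 2))).intervalIntegrable _ _)
    (integrable_finsetSum _ fun i _ => hb i).intervalIntegrable
    (fun x _ => Finset.sum_le_sum fun i _ => hpt x i c)) ?_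
  refine le_trans (intervalIntegral_le_integral hab (integrable_finsetSum _ fun i _ => hb i)
    fun x => Finset.sum_nonneg fun i _ => by positivity) ?_
  rw [integral_finsetSum _ fun i _ => hb i]
  refine Finset.sum_le_sum fun i _ => ?_
  rw [integral_add ((havg i c).1.const_mul _) ((havf i c).1.const_mul _), integral_const_mul,
    integral_const_mul]
  exact add_le_add (mul_le_mul_of_nonneg_left (havg i c).2 (by linarith))
    (mul_le_mul_of_nonneg_left (havf i c).2 (by positivity))

theorem trial_gain (hd : RealData K W w M u du) (k : ℕ) (A : Fin n → Fin n → ℝ) :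
    gain (-(2 * rad k)) (2 * rad k) (avgM (len k) W) (trialP u k) A =
      ∑ i, ∑ j, ∑ l, A i j * A i l *
        ∫ x, ∑ c, ∑ d, trialP u k x j c * avgM (len k) W x c d * trialP u k x l d := by
  have e : ∀ x, (mix A (trialP u k) x * avgM (len k) W x * (mix A (trialP u k) x)ᵀ).trace =
      ∑ i, ∑ j, ∑ l, A i j * A i l *
        ∑ c, ∑ d, trialP u k x j c * avgM (len k) W x c d * trialP u k x l d := by
    intro x
    simp only [mix, Matrix.trace, Matrix.diag, Matrix.mul_apply, of_apply, transpose_apply]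
    exact Finset.sum_congr rfl fun i _ => trace_expand (A i) _ _
  have hi : ∀ j l, Integrable fun x => ∑ c, ∑ d, trialP u k x j c * avgM (len k) W x c d * trialP u k x l d :=
    fun j l => integrable_finsetSum _ fun c _ => integrable_finsetSum _ fun d _ => trial_term_integrable hd k j l c d
  rw [gain]
  rw [intervalIntegral.integral_eq_integral_of_support_subset]
  · simp only [e]
    rw [integral_finsetSum _ fun i _ => integrable_finsetSum _ fun j _ =>
      integrable_finsetSum _ fun l _ => (hi j l).const_mul _]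
    refine Finset.sum_congr rfl fun i _ => ?_
    rw [integral_finsetSum _ fun j _ => integrable_finsetSum _ fun l _ => (hi j l).const_mul _]
    refine Finset.sum_congr rfl fun j _ => ?_
    rw [integral_finsetSum _ fun l _ => (hi j l).const_mul _]
    exact Finset.sum_congr rfl fun l _ => integral_const_mul _ _
  · intro x hx
    by_contra hc
    apply hx
    simp [mix, trialP_zero_of_notMem u hc]

/-- The quadratic forms compare. -/
theorem trial_compare (hd : RealData K W w M u du) (hK : Antitone K) {κ : Fin n → ℝ}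
    (hκ : ∀ i, 0 < κ i ∧ κ i < K i) {dd η τ : ℝ} (hdd0 : 0 < dd)
    (hddle : ∀ i, dd ≤ K i ^ 2 - κ i ^ 2) (hτ4 : τ ≤ dd / 4)
    (hη : η * ((n : ℝ) * (∑ j, ∑ l, |∫ x, ∑ c, ∑ d, u j c x * W x c d * u l d x|) + 1) = dd / 4)
    (hη0 : 0 < η) (G' : Fin n → Fin n → ℝ)
    (hkG : ∀ j l, |G' j l - ∫ x, ∑ c, ∑ d, u j c x * W x c d * u l d x| ≤
      dd / (4 * ((n : ℝ) ^ 3 + 1)))
    {A : Fin n → Fin n → ℝ} (hA : A ∈ Dom n) :
    (∑ c, ∑ i, ((1 + η) * (∫ x, (∑ j, A i j * du j c x) ^ 2) +
        (κ i ^ 2 + τ) * ∫ x, (∑ j, A i j * u j c x) ^ 2)) ≤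
      (∑ i, ∑ j, ∑ l, A i j * A i l * G' j l) ∧
    dd / 2 ≤ ∑ i, ∑ j, ∑ l, A i j * A i l * G' j l := by
  set G := fun j l => ∫ x, ∑ c, ∑ d, u j c x * W x c d * u l d x with hG
  set B := (n : ℝ) * (∑ j, ∑ l, |G j l|) + 1 with hB
  set f : Fin n → Fin m → ℝ → ℝ := fun i c x => ∑ j, A i j * u j c x with hf
  set g : Fin n → Fin m → ℝ → ℝ := fun i c x => ∑ j, A i j * du j c x with hg
  have hf2 := fun i c => integral_combo_sq (F := fun j => u j c)
    (fun j => (hd.cont j c).aestronglyMeasurable) (fun j => hd.sq j c) (A i)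
  have hg2 := fun i c => integral_combo_sq (F := fun j => du j c)
    (fun j => hd.dmeas j c) (fun j => hd.dsq j c) (A i)
  have hmass : ∀ i, ∑ c, ∫ x, f i c x ^ 2 = ∑ j, A i j ^ 2 := by
    intro i
    simp only [hf, (hf2 i _).2]
    rw [Finset.sum_comm]
    refine Finset.sum_congr rfl fun j _ => ?_
    rw [Finset.sum_comm]
    simp only [← Finset.mul_sum, hd.orth, mul_ite, mul_one, mul_zero, Finset.sum_ite_eq,
      Finset.mem_univ, if_true, pow_two]
  set G₀ := ∑ i, ∑ j, ∑ l, A i j * A i l * G j l with hG₀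
  have hkin : ∑ c, ∑ i, ∫ x, g i c x ^ 2 = G₀ - ∑ i, ∑ j, A i j ^ 2 * K j ^ 2 := by
    rw [Finset.sum_comm, ← Finset.sum_sub_distrib]
    refine Finset.sum_congr rfl fun i _ => ?_
    simp only [hg, (hg2 i _).2]
    rw [Finset.sum_comm, ← Finset.sum_sub_distrib]
    refine Finset.sum_congr rfl fun j _ => ?_
    rw [Finset.sum_comm]
    simp only [← Finset.mul_sum]
    have e : ∀ l, (∑ c, ∫ x, du j c x * du l c x) = G j l + if j = l then -K j ^ 2 else 0 :=
      fun l => by linarith [hd.eigen j l]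
    simp only [e, mul_add, Finset.sum_add_distrib, mul_ite, mul_zero, Finset.sum_ite_eq,
      Finset.mem_univ, if_true]
    ring
  obtain ⟨hAt, hAn⟩ := hA
  have hA1 : ∀ i j, |A i j| ≤ 1 := fun i j => by
    have : A i j ^ 2 ≤ 1 := hAn ▸ le_trans
      (Finset.single_le_sum (f := fun j => A i j ^ 2) (fun j _ => sq_nonneg _) (Finset.mem_univ j))
      (Finset.single_le_sum (f := fun i => ∑ j, A i j ^ 2)
        (fun i _ => Finset.sum_nonneg fun j _ => sq_nonneg _) (Finset.mem_univ i))
    exact (sq_le_one_iff_abs_le_one _).1 this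
  have hAA : ∀ i j l, |A i j * A i l| ≤ 1 := fun i j l => by
    rw [abs_mul]
    exact mul_le_one₀ (hA1 i j) (abs_nonneg _) (hA1 i l)
  have hG0B : G₀ ≤ B := by
    calc G₀ ≤ ∑ _i : Fin n, ∑ j, ∑ l, |G j l| :=
          Finset.sum_le_sum fun i _ => Finset.sum_le_sum fun j _ => Finset.sum_le_sum fun l _ =>
            (le_abs_self _).trans (by
              rw [abs_mul]
              exact mul_le_of_le_one_left (abs_nonneg _) (hAA i j l))
      _ ≤ B := by simp [hB]
  have hsq2 : ∀ i j, A i j ^ 2 * (dd + κ i ^ 2) ≤ A i j ^ 2 * K j ^ 2 := fun i j => by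
    rcases le_or_gt j i with hji | hij
    · refine mul_le_mul_of_nonneg_left ?_ (sq_nonneg _)
      have h2 : K i ^ 2 ≤ K j ^ 2 :=
        pow_le_pow_left₀ (le_of_lt (lt_trans (hκ i).1 (hκ i).2)) (hK hji) 2
      linarith [hddle i]
    · simp [hAt i j hij]
  have hk2 : dd + ∑ i, ∑ j, A i j ^ 2 * κ i ^ 2 ≤ ∑ i, ∑ j, A i j ^ 2 * K j ^ 2 := by
    refine le_trans (le_of_eq ?_) (Finset.sum_le_sum fun i _ => Finset.sum_le_sum fun j _ => hsq2 i j)
    simp only [mul_add, Finset.sum_add_distrib, ← Finset.sum_mul, hAn, one_mul]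
  have hgap' : |(∑ i, ∑ j, ∑ l, A i j * A i l * G' j l) - G₀| ≤ dd / 4 := by
    rw [hG₀]
    simp only [← Finset.sum_sub_distrib, ← mul_sub]
    refine le_trans (Finset.abs_sum_le_sum_abs _ _) ?_
    calc ∑ i, |∑ j, ∑ l, A i j * A i l * (G' j l - G j l)|
        ≤ ∑ _i : Fin n, ∑ _j : Fin n, ∑ _l : Fin n, dd / (4 * ((n : ℝ) ^ 3 + 1)) := by
          refine Finset.sum_le_sum fun i _ => (Finset.abs_sum_le_sum_abs _ _).trans
            (Finset.sum_le_sum fun j _ => (Finset.abs_sum_le_sum_abs _ _).trans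
              (Finset.sum_le_sum fun l _ => ?_))
          rw [abs_mul]
          exact le_trans (mul_le_of_le_one_left (abs_nonneg _) (hAA i j l)) (hkG j l)
      _ = dd / 4 * ((n : ℝ) ^ 3 / ((n : ℝ) ^ 3 + 1)) := by
          simp only [Finset.sum_const, Finset.card_univ, Fintype.card_fin, nsmul_eq_mul]
          field_simp
      _ ≤ dd / 4 * 1 := mul_le_mul_of_nonneg_left
          ((div_le_one (by positivity)).2 (by linarith)) (by linarith)
      _ = dd / 4 := mul_one _
  have hkin0 : 0 ≤ ∑ c, ∑ i, ∫ x, g i c x ^ 2 :=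
    Finset.sum_nonneg fun c _ => Finset.sum_nonneg fun i _ => integral_nonneg fun x => sq_nonneg _
  have hκ0 : 0 ≤ ∑ i, ∑ j, A i j ^ 2 * κ i ^ 2 :=
    Finset.sum_nonneg fun i _ => Finset.sum_nonneg fun j _ => by positivity
  have hpot : ∑ c, ∑ i, (κ i ^ 2 + τ) * ∫ x, f i c x ^ 2 =
      (∑ i, ∑ j, A i j ^ 2 * κ i ^ 2) + τ := by
    rw [Finset.sum_comm]
    simp only [← Finset.mul_sum, hmass]
    simp only [add_mul, Finset.sum_add_distrib, ← Finset.mul_sum, hAn, mul_one]
    congr 1
    exact Finset.sum_congr rfl fun i _ => by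
      rw [Finset.mul_sum]
      exact Finset.sum_congr rfl fun j _ => mul_comm _ _
  have hcost' : (∑ c, ∑ i, ((1 + η) * (∫ x, g i c x ^ 2) + (κ i ^ 2 + τ) * ∫ x, f i c x ^ 2)) =
      (1 + η) * (G₀ - ∑ i, ∑ j, A i j ^ 2 * K j ^ 2) +
        ((∑ i, ∑ j, A i j ^ 2 * κ i ^ 2) + τ) := by
    rw [← hkin, ← hpot]
    simp only [Finset.sum_add_distrib, Finset.mul_sum]
  rw [hkin] at hkin0
  have hηG : η * (G₀ - ∑ i, ∑ j, A i j ^ 2 * K j ^ 2) ≤ dd / 4 := by
    have h1 : η * B = dd / 4 := hη
    rw [← h1]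
    exact mul_le_mul_of_nonneg_left (by linarith) hη0.le
  obtain ⟨g1, g2⟩ := abs_le.1 hgap'
  exact ⟨by linarith, by linarith⟩

end

/-- Smooth compactly supported trial data with slightly lowered energies. -/
theorem exists_isTrial {K κ : Fin n → ℝ} {W : ℝ → RMat m} {w : ℝ → ℝ} {M : ℝ}
    {u du : Fin n → Fin m → ℝ → ℝ} (hd : RealData K W w M u du) (hK : Antitone K)
    (hκ : ∀ i, 0 < κ i ∧ κ i < K i) :
    ∃ (h a b c : ℝ) (Ψ dΨ : ℝ → Matrix (Fin n) (Fin m) ℝ),
      0 < h ∧ IsTrial κ a b c (avgM h W) Ψ dΨ := by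
  obtain ⟨Cd, hCd⟩ := continuous_deriv_bump.bounded_above_of_compact_support
    bump.hasCompactSupport.deriv
  set G := fun j l => ∫ x, ∑ c, ∑ d, u j c x * W x c d * u l d x
  set Gk := fun k j l => ∫ x, ∑ c, ∑ d,
    trialP u k x j c * avgM (len k) W x c d * trialP u k x l d
  have hlim : ∀ j l, Tendsto (fun k => Gk k j l) atTop (𝓝 (G j l)) := trial_tendsto hd
  set dd := ((∑ i, (K i ^ 2 - κ i ^ 2)⁻¹) + 1)⁻¹ with hdd
  have hgap : ∀ i, 0 < K i ^ 2 - κ i ^ 2 := fun i => by
    nlinarith [hκ i]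
  have hdd0 : 0 < dd := inv_pos.2 (by
    linarith [Finset.sum_nonneg fun i (_ : i ∈ Finset.univ) => (inv_pos.2 (hgap i)).le])
  have hddle : ∀ i, dd ≤ K i ^ 2 - κ i ^ 2 := fun i => by
    have h1 := Finset.single_le_sum (f := fun i => (K i ^ 2 - κ i ^ 2)⁻¹)
      (fun i _ => (inv_pos.2 (hgap i)).le) (Finset.mem_univ i)
    calc dd ≤ ((K i ^ 2 - κ i ^ 2)⁻¹)⁻¹ := inv_anti₀ (inv_pos.2 (hgap i)) (by linarith)
      _ = _ := inv_inv _
  set B := (n : ℝ) * (∑ j, ∑ l, |G j l|) + 1 with hB
  have hB0 : 0 < B := by positivity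
  set η := dd / (4 * B) with hη
  have hη0 : 0 < η := by positivity
  have hεlim : Tendsto (fun k => Cd ^ 2 * (1 + η⁻¹) * (1 / rad k) ^ 2) atTop (𝓝 0) := by
    have := (tendsto_one_div_add_atTop_nhds_zero_nat.pow 2).const_mul (Cd ^ 2 * (1 + η⁻¹))
    simpa [rad] using this
  have hGlim : ∀ᶠ k in atTop, ∀ j l, |Gk k j l - G j l| ≤ dd / (4 * ((n : ℝ) ^ 3 + 1)) := by
    refine eventually_all.2 fun j => eventually_all.2 fun l => ?_
    have := Metric.tendsto_nhds.1 (hlim j l) (dd / (4 * ((n : ℝ) ^ 3 + 1))) (by positivity)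
    filter_upwards [this] with k hk
    exact (le_of_lt (by simpa [Real.dist_eq] using hk))
  obtain ⟨k, hkε, hkG⟩ := ((hεlim.eventually_le_const (by linarith : (0:ℝ) < dd / 4)).and hGlim).exists
  have hηB : η * B = dd / 4 := by rw [hη]; field_simp
  have main := fun A (hA : A ∈ Dom n) => trial_compare hd hK hκ hdd0 hddle hkε hηB hη0 (Gk k) hkG hA
  refine ⟨len k, -(2 * rad k), 2 * rad k, dd / 2, trialP u k, trialD u du k, len_pos k, ?_⟩
  exact {
    kpos := fun i => (hκ i).1
    hab := by linarith [rad_pos k]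
    cpos := by linarith
    hW := avgM_continuous hd.loc
    psd := avgM_posSemidef (len_pos k).le hd.loc hd.psd
    hderiv := fun x i c => trial_hasDerivAt hd k x i c
    hdc := trialD_continuous hd k
    zero_left := trialP_zero u (by rw [abs_neg, abs_of_pos (by linarith [rad_pos k])])
    zero_right := trialP_zero u (by rw [abs_of_pos (by linarith [rad_pos k])])
    cost_le := fun A hA => (trial_cost_le hd κ hη0 hCd k A).trans
      ((main A hA).1.trans (le_of_eq (trial_gain hd k A).symm))
    gain_ge := fun A hA => (main A hA).2.trans (le_of_eq (trial_gain hd k A).symm) }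

end Vale.Agent.P371.Lift
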